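import Vale.Agent.P217.ActionUnique.Deep

/-!
# P217: the second part of `ActionTarget`

`AU.action_unique`, `AU.action_ext`, `AU.action_mem_mIdeal`, `AU.action_formula` and the clause on
deep elements.
-/

noncomputable section

namespace Vale.Agent.P217

/-- The clause of `ActionTarget` on deep elements of the stabilizer. -/
theorem action_deep_clause (hLaw : LawTarget) (hLow : LowDegreeTarget) (p : ℕ) [Fact p.Prime]
    (n : ℕ) (hn : 1 ≤ n) (k : Type) [Field k] [CharP k p] [Fintype k]
    (hk : Fintype.card k = p ^ n) (a : PowerSeries k) (N : ℕ) (hN : 1 ≤ N)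
    (ha : IsEndo (honda p n k) a) :
    IsAut p n k (gDeep p n k a N) ∧
      ∀ γ φ, IsAction p n k (gDeep p n k a N) 0 γ φ →
        ∀ i, γ (MvPowerSeries.X i) - MvPowerSeries.X i ∈ mIdeal p n k ^ N :=
  ⟨AU.gDeep_isAut hLaw hn ha hN, fun _ _ hγ i => AU.action_deep hLaw hLow hn hk ha hN hγ i⟩

end Vale.Agent.P217

end
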