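import Vale.Agent.P217.Targets
import Vale.Agent.P217.Eval.Roots
import Vale.Agent.P217.Eval.FormalFix

/-!
# P217: the evaluation and formal fixed point interfaces
-/

noncomputable section

namespace Vale.Agent.P217

open MvPowerSeries

theorem evalTarget : EvalTarget := by
  intro C _ _ _
  refine ⟨?_, ?_, ?_, ?_, ?_, ?_, ?_⟩
  · intro σ _ x f g hx hf hg
    exact ⟨Eval.intSer_add hf hg, Eval.intSer_mul hf hg, Eval.summable_ev hf hx,
      Eval.ev_add hf hg hx, Eval.ev_mul hf hg hx, Eval.norm_ev_le_one hf hx,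
      fun h0 r hr0 hr => Eval.norm_ev_le hf hx h0 hr0 hr,
      fun y hy r hr0 hr => Eval.norm_ev_sub_le hf hx hy hr0 hr⟩
  · intro σ _ x c i _
    exact ⟨Eval.ev_C x c, Eval.ev_X x i⟩
  · intro σ τ _ _ g f y hg hf hy
    exact ⟨Eval.intSer_subst hg hf, Eval.ev_subst hg hf hy⟩
  · intro σ τ _ _ _ _ f x hf hx
    exact ⟨Eval.intSer_evLeft hf hx, fun y hy => Eval.ev_evLeft hf hx hy,
      Eval.constantCoeff_evLeft hf hx, fun j => Eval.coeff_single_evLeft hf hx j⟩
  · intro σ τ _ _ Φ hΦ w X Y hw hX hY hXf hYf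
    exact Eval.fixed_unique hΦ hw hX hY hXf hYf
  · intro f P hf hlow hP
    exact ⟨Eval.card_roots_le P f hf hlow hP,
      fun hC hsimple => @Eval.exists_roots C _ _ _ hC P f hf hlow hP hsimple⟩
  · intro F a hF ha
    exact Eval.exists_padd_inverse F hF ha

theorem formalFixTarget : FormalFixTarget := by
  intro R _ σ τ _ _ _ _ Φ hΦ
  obtain ⟨X, h0, hfix, hS⟩ := Eval.exists_fixed (fun j => (hΦ j).1) (fun j => (hΦ j).2)
  exact ⟨X, h0, hfix, hS, fun Y hY0 hY =>
    Eval.fixed_eq (fun j => (hΦ j).1) (fun j => (hΦ j).2) h0 hY0 hfix hY⟩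

end Vale.Agent.P217
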