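import Vale.Agent.P217.Action.Invariant
import Vale.Agent.P217.ActionUnique
import Vale.Agent.P217.Eval

/-!
# P217: `actionTarget`
-/

open MvPowerSeries Finset
open scoped Classical

noncomputable section

namespace Vale.Agent.P217

section Group

variable {p : ℕ} [hp : Fact p.Prime] {n : ℕ} {k : Type} [Field k] [CharP k p] [PerfectRing k p]

omit [PerfectRing k p] in
lemma coeff_frobenius_iterate (a : WittVector p k) (m : ℕ) :
    ∀ r, ((WittVector.frobenius^[r]) a).coeff m = a.coeff m ^ p ^ r := by
  intro r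
  induction r with
  | zero => simp
  | succ r ih =>
    rw [Function.iterate_succ_apply', WittVector.coeff_frobenius_charP, ih, ← pow_mul, ← pow_succ]

/-- An action reduces to the Frobenius power on the residue field. -/
lemma res_action (hn : 1 ≤ n) {g : PowerSeries k} {r : ℕ} {γ : LT p n k →+* LT p n k}
    {φ : PowerSeries (LT p n k)} (hg : IsAut p n k g) (hγ : IsAction p n k g r γ φ) :
    (res p n k).comp γ = (iterateFrobenius k p r).comp (res p n k) := by
  refine RingHom.ext fun f => ?_
  obtain ⟨s, hs⟩ := AU.exists_eq_C_add_sum f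
  have hX : ∀ i, res p n k (γ (MvPowerSeries.X i)) = 0 := fun i =>
    (AU.mem_mIdeal_iff _).mp (AU.action_mem_mIdeal lowDegreeTarget hn hg hγ i)
  rw [hs, RingHom.comp_apply, RingHom.comp_apply, map_add, map_sum, map_add, map_add, map_sum,
    map_sum, hγ.1]
  simp only [map_mul, hX, res_X, mul_zero, Finset.sum_const_zero, add_zero]
  simp [res, iterateFrobenius_def, coeff_frobenius_iterate]

variable [Fintype k]

/-- Every action has a left inverse which is again an action. -/
lemma exists_left_inverse (hn : 1 ≤ n) (hk : Fintype.card k = p ^ n) {g : PowerSeries k} {r : ℕ}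
    {γ : LT p n k →+* LT p n k} {φ : PowerSeries (LT p n k)} (hg : IsAut p n k g)
    (hγ : IsAction p n k g r γ φ) :
    ∃ g' r' γ' φ', IsAut p n k g' ∧ IsAction p n k g' r' γ' φ' ∧
      γ'.comp γ = RingHom.id (LT p n k) := by
  set r' := r * (n - 1) with hr'
  set G := PowerSeries.map (iterateFrobenius k p r') g with hGd
  have hG : IsEndo (honda p n k) G := by
    have h := hg.1.map' (iterateFrobenius k p r')
    rw [honda_mapRing] at h
    exact h
  have hG1 : IsUnit (PowerSeries.coeff 1 G) := by
    rw [hGd, PowerSeries.coeff_map]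
    exact hg.2.map _
  set g' := G.substInvOfIsUnit hG1 with hg'd
  have hright : G.subst g' = PowerSeries.X := PowerSeries.subst_substInvOfIsUnit_right _ hG.1 hG1
  have hg' : IsAut p n k g' := by
    refine ⟨IsHom.inverse hG hG1, ?_⟩
    have h := congrArg (PowerSeries.coeff 1) hright
    rw [coeff_subst_lead_left le_rfl G (fun m hm => by
      rw [Nat.lt_one_iff.mp hm, PowerSeries.coeff_zero_eq_constantCoeff_apply, hg'd,
        PowerSeries.constantCoeff_substInvOfIsUnit]), PowerSeries.coeff_one_X] at h
    exact IsUnit.of_mul_eq_one _ (by rw [mul_comm]; exact h)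
  obtain ⟨γ', φ', hγ'⟩ := exists_action hn hg' r'
  refine ⟨g', r', γ', φ', hg', hγ', ?_⟩
  have hnr : r' + r = n * r := by
    rw [hr', mul_comm n r]
    obtain ⟨m, rfl⟩ : ∃ m, n = m + 1 := ⟨n - 1, by omega⟩
    rw [Nat.add_sub_cancel, Nat.mul_succ]
  have hid : ∀ a : WittVector p k, (WittVector.frobenius^[r' + r]) a = a := fun a => by
    ext m
    rw [coeff_frobenius_iterate, hnr, pow_mul, ← hk, FiniteField.pow_card_pow]
  set Φ : PowerSeries (LT p n k) := (PowerSeries.map γ' φ).subst φ' with hΦ
  have hcomp : IsAction p n k PowerSeries.X (r' + r) (γ'.comp γ) Φ := by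
    refine ⟨fun a => ?_, ?_, ?_⟩
    · rw [RingHom.comp_apply, hγ.1, hγ'.1, ← Function.iterate_add_apply]
    · rw [← formalGroup_map_map]
      exact hγ'.2.1.comp (hγ.2.1.map' γ')
    · rw [hΦ]
      refine (map_subst_one (res p n k) _ (a := (φ' : MvPowerSeries Unit (LT p n k)))
        hγ'.2.1.1).trans ?_
      change (PowerSeries.map (res p n k) (PowerSeries.map γ' φ)).subst
        (PowerSeries.map (res p n k) φ') = PowerSeries.X
      rw [hγ'.2.2]
      have e : PowerSeries.map (res p n k) (PowerSeries.map γ' φ) = G := by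
        ext m
        rw [PowerSeries.coeff_map, PowerSeries.coeff_map, hGd, PowerSeries.coeff_map, ← hγ.2.2,
          PowerSeries.coeff_map, ← RingHom.comp_apply, res_action hn hg' hγ', RingHom.comp_apply]
      rw [e, hright]
  have hone : IsAction p n k PowerSeries.X (r' + r) (RingHom.id (LT p n k)) PowerSeries.X := by
    refine ⟨fun a => by rw [hid]; rfl, ?_, PowerSeries.map_X _⟩
    rw [AU.univLaw_map]
    exact AU.isHom_X _
  exact AU.action_unique lawTarget lowDegreeTarget hn
    ⟨AU.isHom_X _, by rw [PowerSeries.coeff_one_X]; exact isUnit_one⟩ hcomp hone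

/-- Actions are bijective. -/
lemma action_bijective (hn : 1 ≤ n) (hk : Fintype.card k = p ^ n) {g : PowerSeries k} {r : ℕ}
    {γ : LT p n k →+* LT p n k} {φ : PowerSeries (LT p n k)} (hg : IsAut p n k g)
    (hγ : IsAction p n k g r γ φ) : Function.Bijective γ := by
  obtain ⟨g', r', γ', φ', hg', hγ', hl⟩ := exists_left_inverse hn hk hg hγ
  obtain ⟨g'', r'', γ'', φ'', -, -, hl'⟩ := exists_left_inverse hn hk hg' hγ'
  have h1 : Function.LeftInverse γ' γ := fun x => RingHom.congr_fun hl x
  have h2 : Function.LeftInverse γ'' γ' := fun x => RingHom.congr_fun hl' x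
  refine ⟨h1.injective, fun x => ⟨γ' x, h2.injective ?_⟩⟩
  rw [h1 (γ' x)]

end Group

/-- The action of the extended stabilizer group. -/
theorem actionTarget : ActionTarget := by
  intro p _ n hn k _ _ _ hk
  refine ⟨fun g r hg => ?_, fun g r γ φ hg hγ => ?_,
    fun a N hN ha => action_deep_clause lawTarget lowDegreeTarget p n hn k hk a N hN ha⟩
  · obtain ⟨γ, φ, hγ⟩ := exists_action hn hg r
    exact ⟨γ, ⟨φ, hγ⟩, fun γ' ⟨φ', hγ'⟩ =>
      AU.action_unique lawTarget lowDegreeTarget hn hg hγ' hγ⟩
  · exact ⟨action_bijective hn hk hg hγ, fun h _ f hf => action_hIdeal hg hγ h hf,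
      action_uVar_unit hg hγ, AU.action_mem_mIdeal lowDegreeTarget hn hg hγ,
      fun C _ _ _ ι hι hιp x hx => AU.action_formula lowDegreeTarget evalTarget hn hg hγ hι hιp hx⟩

end Vale.Agent.P217
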