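import Vale.Agent.P217.Universal

/-!
# P217, formal inputs: the height filtration and its invariance

`uniI W p n h` is the ideal `(p, u_1, …, u_(h-1))`. Modulo `uniI h` the `[p]`-series of the universal
formal group starts with `u_h X^(p^h)`; hence every ring endomorphism `γ` for which there is a
homomorphism `F → γ_* F` with unit linear coefficient preserves all these ideals.
-/

open MvPowerSeries Finset
open scoped Classical

noncomputable section

namespace Vale.Agent.P217

universe u v w

/-! ### Leading coefficients of compositions -/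

section Lead

variable {A : Type u} [CommRing A]

lemma natDegree_single (m : ℕ) : (Finsupp.single () m).degree = m := Finsupp.degree_single () m

/-- `a` vanishes below degree `q`: the leading coefficient of `g ∘ a`. -/
lemma coeff_subst_lead_left {q : ℕ} (hq : 1 ≤ q) (g : PowerSeries A) {a : PowerSeries A}
    (ha : ∀ m < q, PowerSeries.coeff m a = 0) :
    PowerSeries.coeff q (g.subst a) = PowerSeries.coeff 1 g * PowerSeries.coeff q a := by
  have ha0 : PowerSeries.constantCoeff a = 0 := by
    rw [← PowerSeries.coeff_zero_eq_constantCoeff_apply]; exact ha 0 hq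
  have h := coeff_subst_sub_of_agree g (a := (a : MvPowerSeries Unit A)) (b := 0) ha0 (map_zero _)
    (d := Finsupp.single () q) fun e he => by
      obtain ⟨k, rfl⟩ : ∃ k, e = Finsupp.single () k := ⟨e (), Finsupp.unique_single e⟩
      rw [Finsupp.degree_single, Finsupp.degree_single] at he
      rw [map_zero]
      exact ha k he
  rw [map_zero, sub_zero] at h
  have h0 : coeff (Finsupp.single () q) (g.subst (0 : MvPowerSeries Unit A)) = 0 := by
    rw [PowerSeries.subst_zero_eq_C_constantCoeff]
    simp [coeff_C]
    omega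
  rw [h0, sub_zero] at h
  exact h

/-- `b` vanishes below degree `q`: the leading coefficient of `b ∘ a`. -/
lemma coeff_subst_lead_right {q : ℕ} {b : PowerSeries A} (hb : ∀ m < q, PowerSeries.coeff m b = 0)
    {a : PowerSeries A} (ha : PowerSeries.constantCoeff a = 0) :
    PowerSeries.coeff q (b.subst a) = PowerSeries.coeff q b * PowerSeries.coeff 1 a ^ q := by
  have h := coeff_subst_sum b (a := (a : MvPowerSeries Unit A)) ha (D := q)
    (d := Finsupp.single () q) (by rw [Finsupp.degree_single])
  rw [Finset.sum_range_succ, Finset.sum_eq_zero (fun m hm => by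
    rw [hb m (Finset.mem_range.mp hm), zero_mul]), zero_add] at h
  refine h.trans ?_
  congr 1
  change PowerSeries.coeff q (a ^ q) = _
  obtain ⟨a', rfl⟩ := PowerSeries.X_dvd_iff.mpr ha
  rw [mul_pow, PowerSeries.coeff_X_pow_mul', if_pos le_rfl, Nat.sub_self,
    PowerSeries.coeff_succ_X_mul, PowerSeries.coeff_zero_eq_constantCoeff_apply, map_pow]
  simp

/-- If `ψ ∘ P = P' ∘ ψ` with `P`, `P'` zero below degree `q`, the leading coefficients agree up to
the linear coefficient of `ψ`. -/
lemma lead_of_commute {q : ℕ} (hq : 1 ≤ q) {P P' ψ : PowerSeries A}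
    (hP : ∀ m < q, PowerSeries.coeff m P = 0) (hP' : ∀ m < q, PowerSeries.coeff m P' = 0)
    (hψ : PowerSeries.constantCoeff ψ = 0) (h : ψ.subst P = P'.subst ψ) :
    PowerSeries.coeff 1 ψ * PowerSeries.coeff q P =
      PowerSeries.coeff q P' * PowerSeries.coeff 1 ψ ^ q := by
  rw [← coeff_subst_lead_left hq ψ hP, h, coeff_subst_lead_right hP' hψ]

end Lead

/-! ### Homomorphisms and `[m]` -/

section Hom

variable {A : Type u} [CommRing A] {B : Type v} [CommRing B]

/-- A homomorphism of formal group laws. -/
structure IsFGHom (F G : FormalGroup A) (ψ : PowerSeries A) : Prop where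
  const : PowerSeries.constantCoeff ψ = 0
  hom : ψ.subst F.toPowerSeries =
    G.toPowerSeries.subst ![ψ.subst (X (0 : Fin 2)), ψ.subst (X (1 : Fin 2))]

lemma nsmul_xPoint_const (F : FormalGroup A) :
    ∀ m : ℕ, constantCoeff (m • xPoint F).val = 0 := by
  intro m
  induction m with
  | zero => simp
  | succ m ih =>
      rw [succ_nsmul, FormalGroup.add_apply]
      have hc : ∀ j : Fin 2, constantCoeff (![(m • xPoint F).val, (xPoint F).val] j) = 0 :=
        fun j => by fin_cases j <;> first | simpa using ih | exact PowerSeries.constantCoeff_X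
      exact constantCoeff_subst_eq_zero (hasSubst_of_constantCoeff_zero hc) hc F.zero_constantCoeff

lemma IsFGHom.subst_add {F G : FormalGroup A} {ψ : PowerSeries A} (hψ : IsFGHom F G ψ)
    {τ : Type w} {a b : MvPowerSeries τ A} (ha : constantCoeff a = 0) (hb : constantCoeff b = 0) :
    ψ.subst (F.toPowerSeries.subst ![a, b]) = G.toPowerSeries.subst ![ψ.subst a, ψ.subst b] := by
  have hc : ∀ j : Fin 2, constantCoeff (![a, b] j) = 0 := fun j => by fin_cases j <;> simpa
  have hs := hasSubst_of_constantCoeff_zero hc
  have hc' : ∀ j : Fin 2, constantCoeff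
      (![ψ.subst (X (0 : Fin 2) : MvPowerSeries (Fin 2) A), ψ.subst (X (1 : Fin 2))] j) = 0 :=
    fun j => by fin_cases j <;> exact constantCoeff_subst_zero _ hψ.const (constantCoeff_X _)
  have h := congrArg (MvPowerSeries.subst ![a, b]) hψ.hom
  unfold PowerSeries.subst at h hc'
  rw [subst_comp_subst_apply
      (PowerSeries.HasSubst.of_constantCoeff_zero F.zero_constantCoeff).const hs,
    subst_comp_subst_apply (hasSubst_of_constantCoeff_zero hc') hs] at h
  refine h.trans (congrArg (fun g => MvPowerSeries.subst g G.toPowerSeries) (funext fun j => ?_))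
  fin_cases j
  · change MvPowerSeries.subst ![a, b] (MvPowerSeries.subst (fun _ => X (0 : Fin 2)) ψ) = _
    rw [subst_comp_subst_apply (PowerSeries.HasSubst.X _).const hs]
    simp only [subst_X hs]
    rfl
  · change MvPowerSeries.subst ![a, b] (MvPowerSeries.subst (fun _ => X (1 : Fin 2)) ψ) = _
    rw [subst_comp_subst_apply (PowerSeries.HasSubst.X _).const hs]
    simp only [subst_X hs]
    rfl

/-- Homomorphisms commute with `[m]`. -/
theorem IsFGHom.subst_nsmul {F G : FormalGroup A} {ψ : PowerSeries A} (hψ : IsFGHom F G ψ) :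
    ∀ m : ℕ, ψ.subst (m • xPoint F).val =
      PowerSeries.subst ψ ((m • xPoint G).val : PowerSeries A) := by
  intro m
  have hsψ := PowerSeries.HasSubst.of_constantCoeff_zero' hψ.const
  induction m with
  | zero =>
      simp only [zero_nsmul, FormalGroup.zero_apply]
      rw [PowerSeries.subst_zero_of_constantCoeff_zero hψ.const, ← PowerSeries.coe_substAlgHom hsψ,
        map_zero]
  | succ m ih =>
      have hc : ∀ j : Fin 2, constantCoeff (![(m • xPoint G).val, (xPoint G).val] j) = 0 :=
        fun j => by
          fin_cases j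
          · exact nsmul_xPoint_const G m
          · exact PowerSeries.constantCoeff_X
      rw [succ_nsmul, succ_nsmul, FormalGroup.add_apply, FormalGroup.add_apply,
        hψ.subst_add (nsmul_xPoint_const F m)
          (show constantCoeff (xPoint F).val = 0 from PowerSeries.constantCoeff_X), ih]
      unfold PowerSeries.subst
      rw [subst_comp_subst_apply (hasSubst_of_constantCoeff_zero hc) hsψ.const]
      refine congrArg (fun g => MvPowerSeries.subst g G.toPowerSeries) (funext fun j => ?_)
      fin_cases j
      · rfl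
      · change PowerSeries.subst PowerSeries.X ψ = PowerSeries.subst ψ PowerSeries.X
        rw [PowerSeries.X_subst, PowerSeries.subst_X hsψ]

/-- `[m]` commutes with base change. -/
theorem map_nsmul_xPoint (F : FormalGroup A) (g : A →+* B) :
    ∀ m : ℕ, map g (m • xPoint F).val = (m • xPoint (F.map g)).val := by
  intro m
  induction m with
  | zero => simp
  | succ m ih =>
      have hc : ∀ j : Fin 2, constantCoeff (![(m • xPoint F).val, (xPoint F).val] j) = 0 :=
        fun j => by
          fin_cases j
          · exact nsmul_xPoint_const F m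
          · exact PowerSeries.constantCoeff_X
      rw [succ_nsmul, succ_nsmul, FormalGroup.add_apply, FormalGroup.add_apply,
        map_subst (hasSubst_of_constantCoeff_zero hc)]
      refine congrArg₂ (fun g F => MvPowerSeries.subst g F) (funext fun j => ?_) rfl
      fin_cases j
      · exact ih
      · exact PowerSeries.map_X g

theorem IsFGHom.subst_pSeries {F : FormalGroup A} {g : A →+* A} {ψ : PowerSeries A} (p : ℕ)
    (hψ : IsFGHom F (F.map g) ψ) :
    ψ.subst (pSeries F p) = (PowerSeries.map g (pSeries F p)).subst ψ := by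
  have h := hψ.subst_nsmul p
  rw [← map_nsmul_xPoint F g p] at h
  exact h

end Hom

/-! ### Killing variables -/

section Kill

variable {R : Type u} [CommRing R] {τ : Type w}

/-- Set the variables in `S` to zero. -/
def killFam (S : Finset τ) (t : τ) : MvPowerSeries τ R := if t ∈ S then 0 else X t

lemma hasSubst_killFam [Finite τ] (S : Finset τ) : HasSubst (killFam (R := R) S) :=
  hasSubst_of_constantCoeff_zero fun t => by unfold killFam; split_ifs <;> simp

lemma coeff_subst_killFam [Finite τ] (S : Finset τ) (x : MvPowerSeries τ R) {d : τ →₀ ℕ}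
    (hd : ∀ t ∈ S, d t = 0) : coeff d (subst (killFam S) x) = coeff d x := by
  rw [coeff_subst (hasSubst_killFam S)]
  have hprod : ∀ e : τ →₀ ℕ, (∀ t ∈ S, e t = 0) →
      (e.prod fun t k => killFam (R := R) S t ^ k) = monomial e 1 := by
    intro e he
    have h1 : (e.prod fun t k => killFam (R := R) S t ^ k) =
        e.prod fun t k => (X t : MvPowerSeries τ R) ^ k := by
      refine Finsupp.prod_congr fun t ht => ?_
      unfold killFam
      rw [if_neg fun hS => Finsupp.mem_support_iff.mp ht (he t hS)]
    rw [h1, monomial_eq', map_one, one_mul]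
  rw [finsum_eq_single _ d]
  · rw [hprod d hd, coeff_monomial, if_pos rfl, smul_eq_mul, mul_one]
  · intro e he
    by_cases hS : ∀ t ∈ S, e t = 0
    · rw [hprod e hS, coeff_monomial, if_neg (Ne.symm he), smul_zero]
    · obtain ⟨t, ht⟩ := not_forall.mp hS
      obtain ⟨htS, hte⟩ := Classical.not_imp.mp ht
      rw [Finsupp.prod, Finset.prod_eq_zero (Finsupp.mem_support_iff.mpr hte)
        (by unfold killFam; rw [if_pos htS, zero_pow hte]), map_zero, smul_zero]

/-- A series divisible by `c` away from the monomials involving `S` lies in `(c, X s : s ∈ S)`. -/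
lemma mem_span_of_coeff (S : Finset τ) (c : R) (x : MvPowerSeries τ R)
    (h : ∀ d : τ →₀ ℕ, (∀ t ∈ S, d t = 0) → c ∣ coeff d x) :
    x ∈ Ideal.span ({C c} ∪ (X '' (S : Set τ)) : Set (MvPowerSeries τ R)) := by
  induction S using Finset.induction_on generalizing x with
  | empty =>
      choose y hy using fun d => h d (by simp)
      obtain ⟨Y, hY⟩ : ∃ Y : MvPowerSeries τ R, ∀ d, coeff d Y = y d := ⟨y, fun _ => rfl⟩
      have : x = C c * Y := MvPowerSeries.ext fun d => by rw [coeff_C_mul, hY, ← hy]
      rw [this]
      exact Ideal.mul_mem_right _ _ (Ideal.subset_span (Or.inl rfl))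
  | @insert a S ha ih =>
      obtain ⟨x₁, hx₁⟩ : ∃ x₁ : MvPowerSeries τ R, ∀ d, coeff d x₁ =
          coeff (d + Finsupp.single a 1) x := ⟨fun d => coeff (d + Finsupp.single a 1) x, fun _ => rfl⟩
      have hrest : x - X a * x₁ ∈
          Ideal.span ({C c} ∪ (X '' (S : Set τ)) : Set (MvPowerSeries τ R)) := by
        refine ih _ fun d hd => ?_
        rw [map_sub]
        by_cases hda : d a = 0
        · have h0 : coeff d (X a * x₁) = 0 := by
            rw [X_def, coeff_monomial_mul, if_neg]
            intro hle
            have := hle a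
            simp [hda] at this
          rw [h0, sub_zero]
          exact h d fun t ht => by
            rcases Finset.mem_insert.mp ht with rfl | ht
            · exact hda
            · exact hd t ht
        · have hle : Finsupp.single a 1 ≤ d := Finsupp.single_le_iff.mpr (Nat.pos_of_ne_zero hda)
          rw [X_def, coeff_monomial_mul, if_pos hle, one_mul, hx₁, tsub_add_cancel_of_le hle,
            sub_self]
          exact dvd_zero c
      rw [← sub_add_cancel x (X a * x₁)]
      refine add_mem (Ideal.span_mono ?_ hrest) (Ideal.mul_mem_right _ _ (Ideal.subset_span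
        (Or.inr ⟨a, by simp, rfl⟩)))
      exact Set.union_subset_union_right _ (Set.image_mono (by simp))

end Kill

/-! ### The filtration -/

variable {W : Type u} {L : Type v} [CommRing W] [CommRing L] {p n : ℕ} [hp : Fact p.Prime]

/-- The variables `u_1, …, u_(h-1)`. -/
def lowVars (n h : ℕ) : Finset (Fin (n - 1)) := Finset.univ.filter fun j => j.val + 1 < h

/-- The ideal `(p, u_1, …, u_(h-1))`. -/
def uniI (W : Type u) [CommRing W] (p n h : ℕ) : Ideal (MvPowerSeries (Fin (n - 1)) W) :=
  Ideal.span ({C (p : W)} ∪ (X '' (lowVars n h : Set (Fin (n - 1)))))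

/-- The `[p]`-series modulo `uniI h`. -/
theorem pSeries_height (B : Base W L p) (hι : Function.Injective B.ι)
    {F : FormalGroup (MvPowerSeries (Fin (n - 1)) W)}
    (hF : (seriesLog B (uniV W n)).subst (map (map B.ι) F.toPowerSeries) =
        (seriesLog B (uniV W n)).subst (X (0 : Fin 2)) +
          (seriesLog B (uniV W n)).subst (X (1 : Fin 2)))
    {h : ℕ} (h1 : 1 ≤ h) (hn : h ≤ n) :
    ∀ m ≤ p ^ h, PowerSeries.coeff m (pSeries F p) -
      (if m = p ^ h then uniV W n h else 0) ∈ uniI W p n h := by
  set S := lowVars n h with hS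
  set π := (substAlgHom (hasSubst_killFam (R := W) S) :
    MvPowerSeries (Fin (n - 1)) W →ₐ[W] MvPowerSeries (Fin (n - 1)) W).toRingHom with hπ
  set π' := (substAlgHom (hasSubst_killFam (R := L) S) :
    MvPowerSeries (Fin (n - 1)) L →ₐ[L] MvPowerSeries (Fin (n - 1)) L).toRingHom with hπ'
  have hcomm : ∀ x, π' (map B.ι x) = map B.ι (π x) := by
    intro x
    simp only [hπ, hπ', AlgHom.toRingHom_eq_coe, RingHom.coe_coe, substAlgHom_apply]
    rw [map_subst (hasSubst_killFam S)]
    congr 1
    funext t
    unfold killFam
    split_ifs <;> simp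
  set v' : ℕ → MvPowerSeries (Fin (n - 1)) W := fun i => if i < h then 0 else uniV W n i with hv'
  have hπv : ∀ i, 1 ≤ i → π (uniV W n i) = v' i := by
    intro i hi
    simp only [hπ, AlgHom.toRingHom_eq_coe, RingHom.coe_coe, hv']
    by_cases hin : i < n
    · rw [uniV, dif_pos ⟨hi, hin⟩, substAlgHom_X, killFam, hS, lowVars]
      by_cases hih : i < h
      · rw [if_pos hih, if_pos (Finset.mem_filter.mpr ⟨Finset.mem_univ _, by simp; omega⟩)]
      · rw [if_neg hih, if_neg fun hmem => by
          have := (Finset.mem_filter.mp hmem).2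
          simp at this
          omega]
    · rw [uniV, dif_neg (fun hh => hin hh.2), if_neg (by omega : ¬ i < h)]
      split_ifs
      · exact map_one _
      · exact map_zero _
  set E := seriesFE B (uniV W n) n with hE
  set E' := seriesFE B v' n with hE'
  have hEι : Function.Injective E'.ι := fun a b hab => MvPowerSeries.ext fun d => hι (by
    have := congrArg (coeff d) hab
    simpa [hE', seriesFE] using this)
  have hlift : ∀ i, liftHom B.φ (Fin (n - 1)) p (v' i) = v' i ^ p := fun i => by
    simp only [hv']
    split_ifs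
    · rw [map_zero, zero_pow hp.out.ne_zero]
    · exact liftHom_uniV B.φ i
  have hvn : ∀ i, n < i → v' i = 0 := fun i hi => by
    rw [hv']
    simp only
    rw [if_neg (by omega), uniV, dif_neg (by omega), if_neg (by omega)]
  have hf : E'.IsLog (seriesLog B v') := isLog_seriesLog B hlift hvn
  obtain ⟨h0, hψ⟩ := pSeries_spec E (f := seriesLog B (uniV W n)) (constantCoeff_hazLog _ _) hF
  -- the logarithm after killing
  have hcoef : ∀ J ≤ h, hazCoeff (C B.c) (fun i => map B.ι (v' i)) p J =
      if J = 0 then 1 else if J = h then C B.c * map B.ι (v' h) else 0 := by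
    intro J hJ
    rcases J with _ | J
    · simp [hazCoeff]
    rw [hazCoeff_succ, if_neg (Nat.succ_ne_zero J)]
    have hz : ∀ i, i + 1 < h → map B.ι (v' (i + 1)) = 0 := fun i hi => by
      simp only [hv']
      rw [if_pos hi, map_zero]
    by_cases hJh : J + 1 = h
    · rw [if_pos hJh, Finset.sum_range_succ, Finset.sum_eq_zero, zero_add, Nat.sub_self, pow_zero,
        pow_one, hazCoeff, mul_one, hJh]
      intro i hi
      rw [Finset.mem_range] at hi
      rw [hz i (by omega), zero_pow (pow_ne_zero _ hp.out.ne_zero), zero_mul]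
    · rw [if_neg hJh, Finset.sum_eq_zero, mul_zero]
      intro i hi
      rw [Finset.mem_range] at hi
      rw [hz i (by omega), zero_pow (pow_ne_zero _ hp.out.ne_zero), zero_mul]
  have hflow : ∀ m ≤ p ^ h, PowerSeries.coeff m (seriesLog B v') =
      if m = 1 then 1 else if m = p ^ h then C B.c * map B.ι (v' h) else 0 := by
    intro m hm
    have hq1 : 1 < p ^ h := Nat.one_lt_pow (by omega) hp.out.one_lt
    by_cases hJ : ∃ J, m = p ^ J
    · obtain ⟨J, rfl⟩ := hJ
      rw [seriesLog, coeff_hazLog_pow, hcoef J ((Nat.pow_le_pow_iff_right hp.out.one_lt).mp hm)]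
      rcases eq_or_ne J 0 with rfl | hJ0
      · simp
      · rw [if_neg hJ0, if_neg (Nat.one_lt_pow hJ0 hp.out.one_lt).ne']
        by_cases hJh : J = h
        · rw [if_pos hJh, if_pos (by rw [hJh])]
        · rw [if_neg hJh, if_neg (fun he => hJh (Nat.pow_right_injective hp.out.two_le he))]
    · rw [not_exists] at hJ
      rw [seriesLog, coeff_hazLog_other _ _ hJ, if_neg (fun he => hJ 0 (by simpa using he)),
        if_neg (hJ h)]
  set ψ := PowerSeries.map π (pSeries F p) with hψd
  have hψ0 : PowerSeries.constantCoeff ψ = 0 := by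
    rw [hψd, ← PowerSeries.coeff_zero_eq_constantCoeff_apply, PowerSeries.coeff_map,
      PowerSeries.coeff_zero_eq_constantCoeff_apply, h0, map_zero]
  have hψ' : (seriesLog B v').subst (PowerSeries.map E'.ι ψ) =
      (p : MvPowerSeries (Fin (n - 1)) L) • seriesLog B v' := by
    have hlog : PowerSeries.map π' (seriesLog B (uniV W n)) = seriesLog B v' := by
      ext1 m
      rw [PowerSeries.coeff_map, seriesLog, seriesLog, hazLog, hazLog, PowerSeries.coeff_mk,
        PowerSeries.coeff_mk]
      split_ifs
      · rw [map_hazCoeff, show π' (C B.c) = C B.c from (substAlgHom_apply _ _).trans (subst_C _)]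
        have aux : ∀ J, hazCoeff (C B.c) (fun i => π' (map B.ι (uniV W n i))) p J =
            hazCoeff (C B.c) (fun i => map B.ι (v' i)) p J := by
          intro J
          induction J using Nat.strong_induction_on with
          | _ J ih =>
            rcases J with _ | J
            · simp [hazCoeff]
            · rw [hazCoeff_succ, hazCoeff_succ]
              refine congrArg _ (Finset.sum_congr rfl fun i _ => ?_)
              rw [ih _ (by omega), hcomm, hπv (i + 1) (Nat.le_add_left 1 i)]
        exact aux _
      · exact map_zero π'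
    have hs : PowerSeries.HasSubst (PowerSeries.map E.ι (pSeries F p)) :=
      PowerSeries.HasSubst.of_constantCoeff_zero' (by
        rw [← PowerSeries.coeff_zero_eq_constantCoeff_apply, PowerSeries.coeff_map,
          PowerSeries.coeff_zero_eq_constantCoeff_apply, h0, map_zero])
    have e : PowerSeries.map π' (PowerSeries.map E.ι (pSeries F p)) = PowerSeries.map E'.ι ψ := by
      refine PowerSeries.ext fun k => ?_
      rw [PowerSeries.coeff_map, PowerSeries.coeff_map, PowerSeries.coeff_map, PowerSeries.coeff_map]
      exact hcomm _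
    have h2 := congrArg (PowerSeries.map π') hψ
    have h3 : PowerSeries.map π' ((seriesLog B (uniV W n)).subst
        (PowerSeries.map E.ι (pSeries F p))) =
          (seriesLog B v').subst (PowerSeries.map E'.ι ψ) :=
      (PowerSeries.map_subst hs _).trans (by rw [hlog]; exact congrArg (PowerSeries.subst · _) e)
    rw [h3, PowerSeries.smul_eq_C_mul, map_mul, PowerSeries.map_C, map_natCast, hlog,
      ← PowerSeries.smul_eq_C_mul] at h2
    exact h2
  -- comparison with `u_h X^q`
  set q := p ^ h with hq
  have hq1 : 1 < q := Nat.one_lt_pow (by omega) hp.out.one_lt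
  set β : PowerSeries (MvPowerSeries (Fin (n - 1)) W) :=
    PowerSeries.C (v' h) * PowerSeries.X ^ q with hβ
  have hβc : ∀ m, PowerSeries.coeff m β = if m = q then v' h else 0 := fun m => by
    rw [hβ, PowerSeries.coeff_C_mul, PowerSeries.coeff_X_pow, mul_ite, mul_one, mul_zero]
  have hfb : ∀ m ≤ q, PowerSeries.coeff m ((seriesLog B v').subst (PowerSeries.map E'.ι β)) =
      if m = q then map B.ι (v' h) else 0 := by
    intro m hm
    have hlow : ∀ k < q, PowerSeries.coeff k (PowerSeries.map E'.ι β) = 0 := fun k hk => by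
      rw [PowerSeries.coeff_map, hβc, if_neg hk.ne, map_zero]
    rcases eq_or_lt_of_le hm with rfl | hm'
    · rw [if_pos rfl, coeff_subst_lead_left (by omega) _ hlow, hflow 1 hq1.le, if_pos rfl, one_mul,
        PowerSeries.coeff_map, hβc, if_pos rfl]
      rfl
    · rw [if_neg hm'.ne]
      rcases Nat.eq_zero_or_pos m with rfl | hm0
      · rw [PowerSeries.coeff_zero_eq_constantCoeff_apply]
        exact constantCoeff_subst_zero _ hf.const (by
          change PowerSeries.constantCoeff _ = 0
          rw [← PowerSeries.coeff_zero_eq_constantCoeff_apply]; exact hlow 0 (by omega))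
      · rw [coeff_subst_lead_left hm0 _ fun k hk => hlow k (hk.trans hm'), hlow m hm', mul_zero]
  intro m hm
  have key := E'.congr_of_subst_le hEι hf (r := 0) (α := (ψ : MvPowerSeries Unit _))
    (β := (β : MvPowerSeries Unit _)) hψ0 (by
      change PowerSeries.constantCoeff _ = 0
      rw [← PowerSeries.coeff_zero_eq_constantCoeff_apply, hβc, if_neg (by omega)])
    (D := q) ?_ (Finsupp.single () m) (by rwa [Finsupp.degree_single])
  · rw [zero_add, pow_one] at key
    have key' : (p : MvPowerSeries (Fin (n - 1)) W) ∣
        PowerSeries.coeff m ψ - PowerSeries.coeff m β := key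
    refine mem_span_of_coeff S (p : W) _ fun d hd => ?_
    have hsub : π (PowerSeries.coeff m (pSeries F p) - if m = q then uniV W n h else 0) =
        PowerSeries.coeff m ψ - PowerSeries.coeff m β := by
      rw [map_sub, hψd, PowerSeries.coeff_map, hβc]
      congr 1
      split_ifs
      · exact hπv h h1
      · exact map_zero π
    have h4 := dvd_coeff_of_natCast_dvd key' d
    rw [← hsub] at h4
    simp only [hπ, AlgHom.toRingHom_eq_coe, RingHom.coe_coe, substAlgHom_apply] at h4
    rwa [coeff_subst_killFam S _ hd] at h4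
  intro d hd
  obtain ⟨k, rfl⟩ : ∃ k, d = Finsupp.single () k := ⟨d (), Finsupp.unique_single d⟩
  rw [Finsupp.degree_single] at hd
  refine ⟨if k = 1 then 1 else 0, ?_⟩
  change PowerSeries.coeff k ((seriesLog B v').subst (PowerSeries.map E'.ι ψ)) -
    PowerSeries.coeff k ((seriesLog B v').subst (PowerSeries.map E'.ι β)) = _
  rw [hψ', hfb k hd, PowerSeries.coeff_smul, hflow k hd, zero_add, pow_one, smul_eq_mul]
  have hpc : (p : MvPowerSeries (Fin (n - 1)) L) * C B.c = 1 := by
    rw [← map_natCast (C : L →+* MvPowerSeries (Fin (n - 1)) L) p, ← map_mul, B.hc, map_one]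
  by_cases hk1 : k = 1
  · rw [if_pos hk1, if_pos hk1, if_neg (by omega), map_one, sub_zero]
  · rw [if_neg hk1, if_neg hk1, map_zero, mul_zero]
    split_ifs
    · rw [← mul_assoc, hpc, one_mul, sub_self]
    · simp

omit hp in
lemma uniI_le_succ (h : ℕ) : uniI W p n h ≤ uniI W p n (h + 1) := by
  refine Ideal.span_mono (Set.union_subset_union_right _ (Set.image_mono ?_))
  intro j hj
  simp only [lowVars, Finset.coe_filter, Finset.mem_univ, true_and, Set.mem_ofPred_eq] at hj ⊢
  omega

omit hp in
lemma uniV_mem_uniI {h : ℕ} (h1 : 1 ≤ h) (hn : h < n) : uniV W n h ∈ uniI W p n (h + 1) := by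
  rw [uniV, dif_pos ⟨h1, hn⟩]
  refine Ideal.subset_span (Or.inr ⟨⟨h - 1, by omega⟩, ?_, rfl⟩)
  simp [lowVars]
  omega

/-- The action preserves the filtration, and `γ u_h` is a unit multiple of `u_h` modulo `uniI h`. -/
theorem uniI_invariant (B : Base W L p) (hι : Function.Injective B.ι)
    {F : FormalGroup (MvPowerSeries (Fin (n - 1)) W)}
    (hF : (seriesLog B (uniV W n)).subst (map (map B.ι) F.toPowerSeries) =
        (seriesLog B (uniV W n)).subst (X (0 : Fin 2)) +
          (seriesLog B (uniV W n)).subst (X (1 : Fin 2)))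
    (γ : MvPowerSeries (Fin (n - 1)) W →+* MvPowerSeries (Fin (n - 1)) W)
    {ψ : PowerSeries (MvPowerSeries (Fin (n - 1)) W)} (hψ : IsFGHom F (F.map γ) ψ)
    (hu : IsUnit (PowerSeries.coeff 1 ψ)) :
    ∀ h, 1 ≤ h → h ≤ n → (uniI W p n h).map γ ≤ uniI W p n h ∧
      ∃ ε, IsUnit ε ∧ γ (uniV W n h) - ε * uniV W n h ∈ uniI W p n h := by
  have step : ∀ h, 1 ≤ h → h ≤ n → (uniI W p n h).map γ ≤ uniI W p n h →
      ∃ ε, IsUnit ε ∧ γ (uniV W n h) - ε * uniV W n h ∈ uniI W p n h := by
    intro h h1 hn hJ
    set J := uniI W p n h with hJd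
    set q := p ^ h with hq
    have hq1 : 1 ≤ q := Nat.one_le_pow _ _ hp.out.pos
    set mk := Ideal.Quotient.mk J with hmk
    have hP : ∀ m ≤ q, mk (PowerSeries.coeff m (pSeries F p)) =
        if m = q then mk (uniV W n h) else 0 := fun m hm => by
      have := (Ideal.Quotient.eq_zero_iff_mem).mpr (pSeries_height B hι hF h1 hn m hm)
      rw [map_sub, sub_eq_zero] at this
      rw [hmk, this]
      split_ifs
      · rfl
      · rfl
    have hP' : ∀ m ≤ q, mk (γ (PowerSeries.coeff m (pSeries F p))) =
        if m = q then mk (γ (uniV W n h)) else 0 := fun m hm => by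
      have := (Ideal.Quotient.eq_zero_iff_mem).mpr
        (hJ (Ideal.mem_map_of_mem γ (pSeries_height B hι hF h1 hn m hm)))
      rw [map_sub, map_sub, sub_eq_zero] at this
      rw [hmk, this]
      split_ifs
      · rfl
      · rw [map_zero, map_zero]
    have hc := congrArg (PowerSeries.map mk) (hψ.subst_pSeries p)
    have hs0 : PowerSeries.constantCoeff (pSeries F p) = 0 := nsmul_xPoint_const F p
    have c1 : PowerSeries.map mk (ψ.subst (pSeries F p)) =
        (PowerSeries.map mk ψ).subst (PowerSeries.map mk (pSeries F p)) :=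
      PowerSeries.map_subst (PowerSeries.HasSubst.of_constantCoeff_zero' hs0) _
    have c2 : PowerSeries.map mk ((PowerSeries.map γ (pSeries F p)).subst ψ) =
        (PowerSeries.map mk (PowerSeries.map γ (pSeries F p))).subst (PowerSeries.map mk ψ) :=
      PowerSeries.map_subst (PowerSeries.HasSubst.of_constantCoeff_zero' hψ.const) _
    rw [c1, c2] at hc
    have hψ0 : PowerSeries.constantCoeff (PowerSeries.map mk ψ) = 0 := by
      rw [← PowerSeries.coeff_zero_eq_constantCoeff_apply, PowerSeries.coeff_map,
        PowerSeries.coeff_zero_eq_constantCoeff_apply, hψ.const, map_zero]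
    have hlead := lead_of_commute hq1 (P := PowerSeries.map mk (pSeries F p))
      (P' := PowerSeries.map mk (PowerSeries.map γ (pSeries F p))) (fun m hm => by
        rw [PowerSeries.coeff_map, hP m hm.le, if_neg hm.ne]) (fun m hm => by
        rw [PowerSeries.coeff_map, PowerSeries.coeff_map, hP' m hm.le, if_neg hm.ne]) hψ0 hc
    rw [PowerSeries.coeff_map, PowerSeries.coeff_map, PowerSeries.coeff_map, PowerSeries.coeff_map,
      hP q le_rfl, hP' q le_rfl, if_pos rfl, if_pos rfl] at hlead
    obtain ⟨w, hw⟩ := hu
    refine ⟨((w : MvPowerSeries (Fin (n - 1)) W)) * ↑(w ^ q)⁻¹, w.isUnit.mul (Units.isUnit _), ?_⟩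
    rw [← Ideal.Quotient.eq_zero_iff_mem, map_sub, sub_eq_zero, ← hmk, map_mul, map_mul]
    rw [← hw] at hlead
    calc mk (γ (uniV W n h))
        = mk (γ (uniV W n h)) * mk (w : MvPowerSeries (Fin (n - 1)) W) ^ q * mk ↑(w ^ q)⁻¹ := by
          rw [mul_assoc, ← map_pow, ← map_mul, ← Units.val_pow_eq_pow_val, Units.mul_inv, map_one,
            mul_one]
      _ = _ := by rw [← hlead]; ring
  intro h h1 hn
  induction h, h1 using Nat.le_induction with
  | base =>
      have hJ : (uniI W p n 1).map γ ≤ uniI W p n 1 := by
        unfold uniI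
        rw [Ideal.map_span, Ideal.span_le]
        rintro _ ⟨x, hx, rfl⟩
        rcases hx with hx | ⟨j, hj, rfl⟩
        · rw [Set.mem_singleton_iff.mp hx, map_natCast, map_natCast,
            ← map_natCast (C : W →+* MvPowerSeries (Fin (n - 1)) W) p]
          exact Ideal.subset_span (Or.inl rfl)
        · simp [lowVars] at hj
      exact ⟨hJ, step 1 le_rfl hn hJ⟩
  | succ h hh ih =>
      obtain ⟨hJ, ε, -, hmem⟩ := ih (by omega)
      have hJ' : (uniI W p n (h + 1)).map γ ≤ uniI W p n (h + 1) := by
        rw [uniI, Ideal.map_span, Ideal.span_le]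
        rintro _ ⟨x, hx, rfl⟩
        rcases hx with hx | ⟨j, hj, rfl⟩
        · exact uniI_le_succ h (hJ (Ideal.mem_map_of_mem γ (Ideal.subset_span (Or.inl hx))))
        · simp only [lowVars, Finset.coe_filter, Finset.mem_univ, true_and, Set.mem_ofPred_eq] at hj
          by_cases hjh : j.val + 1 < h
          · exact uniI_le_succ h (hJ (Ideal.mem_map_of_mem γ (Ideal.subset_span
              (Or.inr ⟨j, by simp [lowVars, hjh], rfl⟩))))
          · have hjeq : uniV W n h = X j := by
              rw [uniV, dif_pos ⟨hh, by omega⟩]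
              congr 1
              ext
              simp
              omega
            rw [SetLike.mem_coe, ← hjeq, ← sub_add_cancel (γ (uniV W n h)) (ε * uniV W n h)]
            exact add_mem (uniI_le_succ h hmem)
              (Ideal.mul_mem_left _ _ (uniV_mem_uniI hh (by omega)))
      exact ⟨hJ', step (h + 1) (by omega) hn hJ'⟩

end Vale.Agent.P217
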