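import Vale.Agent.P217.Statement
import Vale.Agent.P217.Height

/-!
# P217: height ideals, the reduction to the height `≥ h` locus, naturality of `law`
-/

noncomputable section

namespace Vale.Agent.P217

open MvPowerSeries

section Law

variable (p : ℕ) {A B : Type*} [CommRing A] [CommRing B]

lemma law_map (f : A →+* B) (v : ℕ → A) : (law p v).map f = law p (fun i => f (v i)) := by
  have h : f.comp (MvPolynomial.aeval v : MvPolynomial ℕ ℤ →ₐ[ℤ] A).toRingHom =
      (MvPolynomial.aeval (fun i => f (v i)) : MvPolynomial ℕ ℤ →ₐ[ℤ] B).toRingHom :=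
    MvPolynomial.ringHom_ext (fun r => by simp) (fun i => by simp)
  apply FormalGroup.ext
  simp only [law, FormalGroup.map_toPowerSeries]
  rw [← h]
  ext d
  simp

lemma map_vTuple {n : ℕ} (f : A →+* B) (u : Fin (n - 1) → A) (i : ℕ) :
    f (vTuple n u i) = vTuple n (fun j => f (u j)) i := by
  unfold vTuple
  split_ifs <;> simp

lemma vTuple_zero {n : ℕ} (i : ℕ) : vTuple n (0 : Fin (n - 1) → A) i = vHonda n i := by
  unfold vTuple vHonda
  split_ifs <;> first | rfl | omega

end Law

section Ideal

variable (p : ℕ) [Fact p.Prime] (n : ℕ) (k : Type*) [Field k] [CharP k p]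

lemma res_X (i : Fin (n - 1)) : res p n k (MvPowerSeries.X i) = 0 := by simp [res]

lemma univLaw_res : (univLaw p n k).map (res p n k) = honda p n k := by
  rw [univLaw, law_map, honda]
  congr 1
  funext i
  rw [map_vTuple]
  rw [← vTuple_zero]
  congr 1
  funext j
  exact res_X p n k j

/-- The variables that survive on the locus of height at least `h`. -/
abbrev Up (n h : ℕ) : Type := {i : Fin (n - 1) // h ≤ (i : ℕ) + 1}

/-- The substitution that kills `u_1, …, u_(h-1)`. -/
def projVar (h : ℕ) (i : Fin (n - 1)) : MvPowerSeries (Up n h) k :=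
  if hh : h ≤ (i : ℕ) + 1 then MvPowerSeries.X ⟨i, hh⟩ else 0

lemma hasSubst_projVar (h : ℕ) : HasSubst (projVar n k h) :=
  hasSubst_of_constantCoeff_zero fun i => by unfold projVar; split_ifs <;> simp

/-- Reduction modulo `I_h`. -/
def proj (h : ℕ) : LT p n k →+* MvPowerSeries (Up n h) k :=
  (substAlgHom (hasSubst_projVar n k h)).toRingHom.comp
    (MvPowerSeries.map (WittVector.constantCoeff : WittVector p k →+* k))

lemma proj_apply (h : ℕ) (f : LT p n k) : proj p n k h f =
    subst (projVar n k h) (MvPowerSeries.map (WittVector.constantCoeff : WittVector p k →+* k) f) := by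
  simp [proj]

lemma coeff_proj (h : ℕ) (f : LT p n k) (d : Up n h →₀ ℕ) :
    coeff d (proj p n k h f) =
      WittVector.constantCoeff (coeff (Finsupp.embDomain (Function.Embedding.subtype _) d) f) := by
  classical
  rw [proj_apply, coeff_subst (hasSubst_projVar n k h)]
  set e₀ := Finsupp.embDomain (Function.Embedding.subtype fun i : Fin (n - 1) => h ≤ (i : ℕ) + 1) d
    with he₀
  have hpos : ∀ d' : Up n h →₀ ℕ,
      ((Finsupp.embDomain (Function.Embedding.subtype _) d').prod
        fun i e => projVar n k h i ^ e) = monomial d' (1 : k) := by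
    intro d'
    rw [Finsupp.prod_embDomain]
    have : (d'.prod fun i e => projVar n k h (i : Fin (n - 1)) ^ e) =
        d'.prod fun i e => (MvPowerSeries.X i : MvPowerSeries (Up n h) k) ^ e :=
      Finsupp.prod_congr fun i _ => by rw [projVar, dif_pos i.2]
    refine this.trans ?_
    rw [monomial_eq', map_one, one_mul]
  rw [finsum_eq_single _ e₀]
  · rw [he₀, hpos d, coeff_monomial, if_pos rfl, smul_eq_mul, mul_one, coeff_map]
  · intro e he
    by_cases hS : ∀ i : Fin (n - 1), ¬ h ≤ (i : ℕ) + 1 → e i = 0
    · obtain ⟨e', rfl⟩ : ∃ e' : Up n h →₀ ℕ,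
          e = Finsupp.embDomain (Function.Embedding.subtype _) e' := by
        refine ⟨e.subtypeDomain _, ?_⟩
        rw [Finsupp.embDomain_eq_mapDomain]
        refine Finsupp.ext fun i => ?_
        by_cases hi : h ≤ (i : ℕ) + 1
        · rw [show i = (Function.Embedding.subtype _ : Up n h ↪ Fin (n - 1)) ⟨i, hi⟩ from rfl,
            Finsupp.mapDomain_apply (Function.Embedding.injective _)]
          rfl
        · rw [hS i hi, Finsupp.mapDomain_of_notMem_range]
          rintro ⟨x, rfl⟩
          exact hi x.2
      rw [hpos, coeff_monomial, if_neg, smul_zero]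
      rintro rfl
      exact he rfl
    · obtain ⟨i, hi⟩ := not_forall.mp hS
      obtain ⟨h1, h2⟩ := Classical.not_imp.mp hi
      rw [Finsupp.prod, Finset.prod_eq_zero (Finsupp.mem_support_iff.mpr h2)
        (by rw [projVar, dif_neg h1, zero_pow h2]), map_zero, smul_zero]

lemma proj_surjective (h : ℕ) : Function.Surjective (proj p n k h) := by
  classical
  intro g
  choose w hw using fun a : k => (WittVector.constantCoeff_surjective (p := p)) a
  let f : LT p n k := fun e => w (coeff (e.subtypeDomain _) g)
  refine ⟨f, MvPowerSeries.ext fun d => ?_⟩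
  rw [coeff_proj]
  show WittVector.constantCoeff (w _) = _
  rw [hw]
  congr 1
  refine congrArg _ (Finsupp.ext fun i => ?_)
  simp only [Finsupp.subtypeDomain_apply]
  exact Finsupp.embDomain_apply_self _ _ i

lemma proj_pderiv (h : ℕ) (i : Up n h) (f : LT p n k) :
    proj p n k h (pderiv (WittVector p k) (i : Fin (n - 1)) f) =
      pderiv k i (proj p n k h f) := by
  classical
  refine MvPowerSeries.ext fun d => ?_
  rw [coeff_proj, coeff_pderiv, coeff_pderiv, coeff_proj, map_mul]
  congr 1
  · rw [Finsupp.embDomain_add, Finsupp.embDomain_single]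
    rfl
  · rw [map_add, map_one, map_natCast]
    congr 2
    exact Finsupp.embDomain_apply_self (Function.Embedding.subtype _) d i

variable [PerfectRing k p]

lemma mem_hIdeal_iff {h : ℕ} (h1 : 1 ≤ h) (f : LT p n k) :
    f ∈ hIdeal p n k h ↔ proj p n k h f = 0 := by
  rw [hIdeal, if_neg (by omega)]
  constructor
  · intro hf
    refine Submodule.span_induction (fun x hx => ?_) (map_zero _) (fun x y _ _ a b => ?_)
      (fun a x _ hx => ?_) hf
    · rcases hx with rfl | ⟨i, hi, rfl⟩
      · rw [map_natCast]
        have : CharP (MvPowerSeries (Up n h) k) p :=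
          charP_of_injective_ringHom (f := (MvPowerSeries.C : k →+* MvPowerSeries (Up n h) k))
            MvPowerSeries.C_injective p
        exact CharP.cast_eq_zero _ p
      · simp only [proj_apply, map_X]
        rw [subst_X (hasSubst_projVar n k h), projVar, dif_neg]
        have : (i : ℕ) + 1 < h := hi
        omega
    · rw [map_add, a, b, add_zero]
    · rw [smul_eq_mul, map_mul, hx, mul_zero]
  · intro hf
    have key := mem_span_of_coeff (lowVars n h) (p : WittVector p k) f fun d hd => by
      have hd' : Finsupp.embDomain (Function.Embedding.subtype _)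
          (d.subtypeDomain fun i : Fin (n - 1) => h ≤ (i : ℕ) + 1) = d := by
        classical
        refine Finsupp.ext fun i => ?_
        by_cases hi : h ≤ (i : ℕ) + 1
        · exact Finsupp.embDomain_apply_self (Function.Embedding.subtype _) _ ⟨i, hi⟩
        · rw [Finsupp.embDomain_of_notMem_range _ _ _ (by rintro ⟨x, rfl⟩; exact hi x.2),
            hd i (Finset.mem_filter.mpr ⟨Finset.mem_univ _, by omega⟩)]
      have h0 := congrArg (coeff (d.subtypeDomain fun i : Fin (n - 1) => h ≤ (i : ℕ) + 1)) hf
      rw [coeff_proj, hd', map_zero] at h0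
      rw [← Ideal.mem_span_singleton, WittVector.mem_span_p_iff_coeff_zero_eq_zero]
      exact h0
    refine Ideal.span_mono ?_ key
    rintro x (hx | ⟨i, hi, rfl⟩)
    · left
      rw [hx, map_natCast]
    · exact Or.inr ⟨i, (Finset.mem_filter.mp hi).2, rfl⟩

lemma hIdeal_isPrime (h : ℕ) : (hIdeal p n k h).IsPrime := by
  by_cases h0 : h = 0
  · rw [hIdeal, if_pos h0]
    exact Ideal.isPrime_bot
  · have : hIdeal p n k h = RingHom.ker (proj p n k h) := by
      ext f
      rw [mem_hIdeal_iff p n k (by omega) f, RingHom.mem_ker]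
    rw [this]
    have : IsDomain (MvPowerSeries (Up n h) k) := NoZeroDivisors.to_isDomain _
    exact RingHom.ker_isPrime _

end Ideal

end Vale.Agent.P217

end
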