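import Mathlib.RingTheory.FormalGroup.Basic
import Mathlib.RingTheory.MvPowerSeries.Expand
import Mathlib.RingTheory.MvPowerSeries.Order
import Mathlib.RingTheory.PowerSeries.Substitution
import Mathlib.Algebra.CharP.Quotient
import Mathlib.NumberTheory.Multiplicity

/-!
# P217, formal inputs: Hazewinkel's functional equation lemma

Setting `FE A K p n`: `ι : A →+* K`, an endomorphism `φ` of `A` lifting the Frobenius modulo `p`,
an extension `σ` to `K`, and `s i` with `p * s i ∈ A` (`s i` belongs to the exponent `i + 1`).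
A series `h` over `K` has integral type if `h - ∑ i, s i • σ^(i+1) h (X^(p^(i+1)))` is integral.

* `typeOf_subst`: `f ∘ α` has integral type for a logarithm `f` and an integral `α`;
* `exists_eq_subst`: every `h` of integral type is `f ∘ α`;
* `subst_congr`, `congr_of_subst`: `α ≡ β` modulo `p^r` iff `f ∘ α ≡ f ∘ β`;
* `exists_formalGroup`, `exists_hom`: formal group laws and homomorphisms.

No torsion freeness is needed before the existence of formal groups, which uses injectivity of `ι`.
-/

open MvPowerSeries Finset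
open scoped Classical

noncomputable section

namespace Vale.Agent.P217

universe u v w

/-! ### Congruences -/

/-- Iterates of a ring endomorphism. -/
def itH {R : Type*} [CommRing R] (φ : R →+* R) : ℕ → (R →+* R)
  | 0 => RingHom.id R
  | k + 1 => φ.comp (itH φ k)

lemma itH_frob {R : Type*} [CommRing R] {φ : R →+* R} {p : ℕ}
    (h : ∀ a, (p : R) ∣ φ a - a ^ p) (k : ℕ) (a : R) : (p : R) ∣ itH φ k a - a ^ p ^ k := by
  induction k with
  | zero => simp [itH]
  | succ k ih =>
      have h1 : (p : R) ∣ (itH φ k a) ^ p - (a ^ p ^ k) ^ p := ih.trans (sub_dvd_pow_sub_pow _ _ p)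
      rw [← pow_mul, ← pow_succ] at h1
      have h2 := (h (itH φ k a)).add h1
      rw [sub_add_sub_cancel] at h2
      exact h2

/-- A series all of whose coefficients are multiples of `c` is a multiple of `c`. -/
lemma natCast_dvd_series {R τ : Type*} [CommRing R] {c : ℕ} {x : MvPowerSeries τ R}
    (h : ∀ d, (c : R) ∣ coeff d x) : (c : MvPowerSeries τ R) ∣ x := by
  choose y hy using h
  obtain ⟨Y, hY⟩ : ∃ Y : MvPowerSeries τ R, ∀ d, coeff d Y = y d := ⟨y, fun _ => rfl⟩
  refine ⟨Y, ?_⟩
  ext d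
  rw [← map_natCast (C : R →+* MvPowerSeries τ R) c, coeff_C_mul, hy d, hY]

lemma dvd_coeff_of_natCast_dvd {R τ : Type*} [CommRing R] {c : ℕ} {x : MvPowerSeries τ R}
    (h : (c : MvPowerSeries τ R) ∣ x) (d : τ →₀ ℕ) : (c : R) ∣ coeff d x := by
  obtain ⟨y, rfl⟩ := h
  rw [← map_natCast (C : R →+* MvPowerSeries τ R) c, coeff_C_mul]
  exact dvd_mul_right _ _

/-- `α^(p^k) ≡ φ^k α (X^(p^k))` modulo `p`. -/
lemma pow_congr_expand {R τ : Type*} [CommRing R] {φ : R →+* R} {p : ℕ} [hp : Fact p.Prime]
    (h : ∀ a, (p : R) ∣ φ a - a ^ p) (k : ℕ) (α : MvPowerSeries τ R) :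
    (p : MvPowerSeries τ R) ∣
      α ^ p ^ k - expand (p ^ k) (pow_ne_zero k hp.out.ne_zero) (map (itH φ k) α) := by
  by_cases hu : IsUnit (p : R)
  · exact natCast_dvd_series fun d => hu.dvd
  have : CharP (R ⧸ Ideal.span {(p : R)}) p := CharP.quotient R p hu
  set π := Ideal.Quotient.mk (Ideal.span {(p : R)}) with hπ
  refine natCast_dvd_series fun d => ?_
  rw [← Ideal.mem_span_singleton, ← Ideal.Quotient.eq_zero_iff_mem, ← hπ, ← coeff_map, map_sub,
    map_pow]
  have e1 : map π (expand (p ^ k) (pow_ne_zero k hp.out.ne_zero) (map (itH φ k) α)) =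
      map (iterateFrobenius (R ⧸ Ideal.span {(p : R)}) p k)
        (expand (p ^ k) (pow_ne_zero k hp.out.ne_zero) (map π α)) := by
    simp only [map_expand]
    congr 1
    ext e
    simp only [coeff_map, iterateFrobenius_def]
    rw [← map_pow, ← sub_eq_zero, ← map_sub, hπ, Ideal.Quotient.eq_zero_iff_mem,
      Ideal.mem_span_singleton]
    exact itH_frob h k _
  rw [e1, map_iterateFrobenius_expand p hp.out.ne_zero, sub_self, map_zero]

/-- `x ≡ y` modulo `p^(r+1)` gives `x^(p^v) ≡ y^(p^v)` modulo `p^(r+v+1)`. -/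
lemma dvd_pow_sub_pow {R : Type*} [CommRing R] (p r : ℕ) {x y : R}
    (h : (p : R) ^ (r + 1) ∣ x - y) :
    ∀ v, (p : R) ^ (r + v + 1) ∣ x ^ p ^ v - y ^ p ^ v := by
  intro v
  induction v with
  | zero => simpa using h
  | succ v ih =>
      rw [pow_succ p v, pow_mul, pow_mul, ← geom_sum₂_mul, ← add_assoc, pow_succ']
      refine mul_dvd_mul ?_ ih
      exact dvd_geom_sum₂_self (dvd_trans (dvd_pow_self _ (Nat.succ_ne_zero _)) ih)

/-- Powers: `x ≡ y` modulo `p^(r+1)` and `p^v ∣ m` give `p^(r+v+1) ∣ x^m - y^m`. -/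
lemma dvd_pow_sub_pow' {R : Type*} [CommRing R] (p r : ℕ) {x y : R}
    (h : (p : R) ^ (r + 1) ∣ x - y) {v m : ℕ} (hm : p ^ v ∣ m) :
    (p : R) ^ (r + v + 1) ∣ x ^ m - y ^ m := by
  obtain ⟨c, rfl⟩ := hm
  rw [pow_mul, pow_mul]
  exact (dvd_pow_sub_pow p r h v).trans (sub_dvd_pow_sub_pow _ _ c)

/-! ### Substitution coefficientwise -/

section Subst

variable {R τ : Type*} [CommRing R]

lemma coeff_pow_eq_zero {a : MvPowerSeries τ R} (ha : constantCoeff a = 0) {d : τ →₀ ℕ} {m : ℕ}
    (h : d.degree < m) : coeff d (a ^ m) = 0 :=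
  coeff_of_lt_order ((Nat.cast_lt.mpr h).trans_le (le_order_pow_of_constantCoeff_eq_zero m ha))

lemma coeff_subst_sum (f : PowerSeries R) {a : MvPowerSeries τ R} (ha : constantCoeff a = 0)
    {D : ℕ} {d : τ →₀ ℕ} (hd : d.degree ≤ D) :
    coeff d (f.subst a) = ∑ m ∈ range (D + 1), PowerSeries.coeff m f * coeff d (a ^ m) := by
  rw [PowerSeries.coeff_subst (PowerSeries.HasSubst.of_constantCoeff_zero ha),
    finsum_eq_sum_of_support_subset _ (s := range (D + 1)) ?_]
  · simp [smul_eq_mul]
  · intro m hm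
    rw [Finset.mem_coe, Finset.mem_range]
    by_contra hc
    exact hm (by simp [coeff_pow_eq_zero ha (show d.degree < m by omega)])

/-- Agreement in degrees below `D` gives agreement of `m+1`-st powers below `D + m`. -/
lemma le_order_pow_sub_pow {a b : MvPowerSeries τ R} (ha : constantCoeff a = 0)
    (hb : constantCoeff b = 0) {D : ℕ} (h : ∀ d, d.degree < D → coeff d a = coeff d b) :
    ∀ m : ℕ, ((D + m : ℕ) : ℕ∞) ≤ (a ^ (m + 1) - b ^ (m + 1)).order := by
  have h0 : (D : ℕ∞) ≤ (a - b).order :=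
    le_order fun d hd => by rw [map_sub, h d (by exact_mod_cast hd), sub_self]
  intro m
  induction m with
  | zero => simpa using h0
  | succ m ih =>
      have e : a ^ (m + 1 + 1) - b ^ (m + 1 + 1) =
          a * (a ^ (m + 1) - b ^ (m + 1)) + (a - b) * b ^ (m + 1) := by ring
      rw [e]
      refine le_trans (le_min ?_ ?_) min_order_le_add
      · refine le_trans ?_ le_order_mul
        rw [show ((D + (m + 1) : ℕ) : ℕ∞) = 1 + ((D + m : ℕ) : ℕ∞) by push_cast; ring]
        exact add_le_add (one_le_order_iff_constCoeff_eq_zero.mpr ha) ih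
      · refine le_trans ?_ le_order_mul
        rw [Nat.cast_add]
        exact add_le_add h0 (le_order_pow_of_constantCoeff_eq_zero _ hb)

lemma coeff_subst_sub_of_agree (f : PowerSeries R) {a b : MvPowerSeries τ R}
    (ha : constantCoeff a = 0) (hb : constantCoeff b = 0) {d : τ →₀ ℕ}
    (h : ∀ e, e.degree < d.degree → coeff e a = coeff e b) :
    coeff d (f.subst a) - coeff d (f.subst b) =
      PowerSeries.coeff 1 f * (coeff d a - coeff d b) := by
  rw [coeff_subst_sum f ha (le_refl _), coeff_subst_sum f hb (le_refl _), ← Finset.sum_sub_distrib,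
    Finset.sum_eq_single 1]
  · simp [mul_sub]
  · intro m _ hm
    rcases m with _ | _ | m
    · simp
    · exact absurd rfl hm
    · have := coeff_of_lt_order (lt_of_lt_of_le (show ((d.degree : ℕ) : ℕ∞) < _ from
        Nat.cast_lt.mpr (show d.degree < d.degree + (m + 1) by omega))
        (le_order_pow_sub_pow ha hb h (m + 1)))
      rw [map_sub] at this
      rw [← mul_sub, this, mul_zero]
  · intro h1
    have h0 : d.degree = 0 := by simpa using h1
    rw [(Finsupp.degree_eq_zero_iff d).mp h0]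
    simp [coeff_zero_eq_constantCoeff_apply, ha, hb]

lemma constantCoeff_subst_zero (f : PowerSeries R) (hf : PowerSeries.constantCoeff f = 0)
    {a : MvPowerSeries τ R} (ha : constantCoeff a = 0) : constantCoeff (f.subst a) = 0 :=
  PowerSeries.constantCoeff_subst_eq_zero ha f hf

/-- A series with unit linear coefficient is injective under substitution. -/
lemma subst_injective {f : PowerSeries R} (hf : PowerSeries.constantCoeff f = 0)
    (hu : IsUnit (PowerSeries.coeff 1 f)) {a b : MvPowerSeries τ R} (ha : constantCoeff a = 0)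
    (hb : constantCoeff b = 0) (h : f.subst a = f.subst b) : a = b := by
  have key : ∀ c : MvPowerSeries τ R, constantCoeff c = 0 →
      (f.substInvOfIsUnit hu).subst (f.subst c) = c := fun c hc => by
    have hs := PowerSeries.HasSubst.of_constantCoeff_zero hc
    rw [← PowerSeries.subst_comp_subst_apply (PowerSeries.HasSubst.of_constantCoeff_zero' hf) hs,
      PowerSeries.subst_substInvOfIsUnit_left _ hf hu, PowerSeries.subst_X hs]
  rw [← key a ha, ← key b hb, h]

end Subst

/-! ### The functional equation lemma -/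

/-- The data of a functional equation. -/
structure FE (A : Type u) (K : Type v) [CommRing A] [CommRing K] (p n : ℕ) where
  /-- The structure map. -/
  ι : A →+* K
  /-- The Frobenius lift. -/
  φ : A →+* A
  /-- Its extension to `K`. -/
  σ : K →+* K
  /-- The coefficients; `s i` belongs to the exponent `i + 1`. -/
  s : Fin n → K
  comm : ∀ a, σ (ι a) = ι (φ a)
  frob : ∀ a, (p : A) ∣ φ a - a ^ p
  denom : ∀ i, ∃ a, ι a = (p : K) * s i

namespace FE

variable {A : Type u} {K : Type v} [CommRing A] [CommRing K] {p n : ℕ} [hp : Fact p.Prime]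
  (E : FE A K p n)

/-- All coefficients lie in `A`. -/
def Integ {τ : Type w} (h : MvPowerSeries τ K) : Prop := ∀ d, coeff d h ∈ E.ι.range

/-- `h - ∑ s i • σ^(i+1) h (X^(p^(i+1)))`. -/
def typeOf {τ : Type w} (h : MvPowerSeries τ K) : MvPowerSeries τ K :=
  h - ∑ i : Fin n, E.s i •
    expand (p ^ (i.val + 1)) (pow_ne_zero _ hp.out.ne_zero) (map (itH E.σ (i.val + 1)) h)

/-- A logarithm satisfying the functional equation. -/
structure IsLog (f : PowerSeries K) : Prop where
  const : PowerSeries.constantCoeff f = 0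
  integ : E.Integ (E.typeOf f)
  linear : ∃ a : A, IsUnit a ∧ E.ι a = PowerSeries.coeff 1 f

variable {τ : Type w}

omit hp in
lemma itH_comm (k : ℕ) (a : A) : itH E.σ k (E.ι a) = E.ι (itH E.φ k a) := by
  induction k with
  | zero => rfl
  | succ k ih => simp [itH, ih, E.comm]

omit hp in
lemma itH_mem {x : K} (hx : x ∈ E.ι.range) (k : ℕ) : itH E.σ k x ∈ E.ι.range := by
  obtain ⟨a, rfl⟩ := hx
  exact ⟨_, (E.itH_comm k a).symm⟩

omit hp in
lemma integ_map (α : MvPowerSeries τ A) : E.Integ (map E.ι α) :=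
  fun d => ⟨coeff d α, (coeff_map E.ι d α).symm⟩

omit hp in
lemma exists_map_of_integ {h : MvPowerSeries τ K} (hh : E.Integ h) :
    ∃ α : MvPowerSeries τ A, map E.ι α = h := by
  choose a ha using hh
  exact ⟨fun d => a d, ext fun d => (coeff_map E.ι d _).trans (ha d)⟩

lemma typeOf_add (h h' : MvPowerSeries τ K) : E.typeOf (h + h') = E.typeOf h + E.typeOf h' := by
  simp only [typeOf, map_add, smul_add, Finset.sum_add_distrib]
  abel

lemma integ_typeOf_add {h h' : MvPowerSeries τ K} (h1 : E.Integ (E.typeOf h))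
    (h2 : E.Integ (E.typeOf h')) : E.Integ (E.typeOf (h + h')) := fun d => by
  rw [E.typeOf_add, map_add]
  exact add_mem (h1 d) (h2 d)

omit hp in
lemma coeff_expand_cases {q : ℕ} (hq : q ≠ 0) (h : MvPowerSeries τ K) (d : τ →₀ ℕ) :
    coeff d (expand q hq h) = 0 ∨
      ∃ e : τ →₀ ℕ, d = q • e ∧ coeff d (expand q hq h) = coeff e h := by
  by_cases hd : ∀ i, q ∣ d i
  · refine Or.inr ⟨d.mapRange (fun a => a / q) (Nat.zero_div q), ?_, ?_⟩
    · ext i; simp [Nat.mul_div_cancel' (hd i)]
    · conv_lhs => rw [show d = q • d.mapRange (fun a => a / q) (Nat.zero_div q) by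
        ext i; simp [Nat.mul_div_cancel' (hd i)]]
      rw [coeff_expand_smul]
  · rw [not_forall] at hd
    obtain ⟨i, hi⟩ := hd
    exact Or.inl (coeff_expand_of_not_dvd q hq _ hi)

variable {f : PowerSeries K}

lemma denom_aux (hf : E.IsLog f) : ∀ (m v : ℕ), ¬ p ^ (v + 1) ∣ m →
    (p : K) ^ v * PowerSeries.coeff m f ∈ E.ι.range := by
  intro m
  induction m using Nat.strong_induction_on with
  | _ m ih =>
    intro v hv
    have hm : m ≠ 0 := fun h => hv (h ▸ dvd_zero _)
    set d : Unit →₀ ℕ := Finsupp.single () m with hd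
    have hsum : PowerSeries.coeff m f = coeff d (E.typeOf f) + ∑ i : Fin n, E.s i *
        coeff d (expand (p ^ (i.val + 1)) (pow_ne_zero _ hp.out.ne_zero)
          (map (itH E.σ (i.val + 1)) f)) := by
      simp [typeOf, map_sub, map_sum, PowerSeries.coeff, hd]
    rw [hsum, mul_add, Finset.mul_sum]
    refine add_mem (mul_mem (pow_mem (natCast_mem _ p) v) (hf.integ d)) (sum_mem fun i _ => ?_)
    rcases coeff_expand_cases (pow_ne_zero _ hp.out.ne_zero) (map (itH E.σ (i.val + 1)) f) d
      with h0 | ⟨e, he, h0⟩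
    · rw [h0, mul_zero, mul_zero]
      exact zero_mem _
    rw [h0, coeff_map]
    have hm' : m = p ^ (i.val + 1) * e () := by
      have := congrArg (fun f : Unit →₀ ℕ => f ()) he
      simpa [hd] using this
    have hi : i.val + 1 ≤ v := by
      by_contra hc
      exact hv (hm' ▸ (pow_dvd_pow p (by omega : v + 1 ≤ i.val + 1)).mul_right _)
    obtain ⟨w, rfl⟩ := Nat.exists_eq_add_of_le hi
    have hlt : e () < m := by
      rw [hm']
      exact lt_mul_of_one_lt_left (Nat.pos_of_ne_zero fun h => hm (by rw [hm', h, mul_zero]))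
        (Nat.one_lt_pow (by omega) hp.out.one_lt)
    have hw : ¬ p ^ (w + 1) ∣ e () := fun hc => hv (by
      rw [hm', show i.val + 1 + w + 1 = (i.val + 1) + (w + 1) by ring, pow_add]
      exact Nat.mul_dvd_mul_left _ hc)
    have he' : coeff e (f : MvPowerSeries Unit K) = PowerSeries.coeff (e ()) f := by
      rw [PowerSeries.coeff, ← show e = Finsupp.single () (e ()) from Finsupp.unique_single e]
    obtain ⟨a, ha⟩ := E.itH_mem (ih (e ()) hlt w hw) (i.val + 1)
    obtain ⟨b, hb⟩ := E.denom i
    refine ⟨(p : A) ^ i.val * (b * a), ?_⟩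
    rw [map_mul, map_mul, map_pow, map_natCast, ha, hb, he', map_mul, map_pow, map_natCast]
    ring

/-- `f ∘ α` has integral type. -/
theorem typeOf_subst (hf : E.IsLog f) (α : MvPowerSeries τ A) (hα : constantCoeff α = 0) :
    E.Integ (E.typeOf (f.subst (map E.ι α))) := by
  set a := map E.ι α with ha
  have ha0 : constantCoeff a = 0 := by rw [ha, constantCoeff_map, hα, map_zero]
  have hsa := PowerSeries.HasSubst.of_constantCoeff_zero ha0
  obtain ⟨g, hg⟩ := E.exists_map_of_integ hf.integ
  intro d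
  -- decompose `f`
  have hdec : (f : MvPowerSeries Unit K) = map E.ι g + ∑ i : Fin n, E.s i •
      expand (p ^ (i.val + 1)) (pow_ne_zero _ hp.out.ne_zero)
        (map (itH E.σ (i.val + 1)) f) := by
    rw [hg, typeOf, sub_add_cancel]
  have hq : ∀ i : Fin n, constantCoeff (a ^ p ^ (i.val + 1)) = 0 := fun i => by
    rw [map_pow, ha0, zero_pow (pow_ne_zero _ hp.out.ne_zero)]
  have hE : ∀ i : Fin n, constantCoeff
      (expand (p ^ (i.val + 1)) (pow_ne_zero _ hp.out.ne_zero) (map (itH E.σ (i.val + 1)) a)) = 0 :=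
    fun i => by rw [constantCoeff_expand, constantCoeff_map, ha0, map_zero]
  have t1 : f.subst a = PowerSeries.subst a (map E.ι g : MvPowerSeries Unit K) +
      ∑ i : Fin n, E.s i • PowerSeries.subst (a ^ p ^ (i.val + 1))
        (PowerSeries.map (itH E.σ (i.val + 1)) f) := by
    have h1 := congrArg (MvPowerSeries.substAlgHom hsa.const) hdec
    rw [map_add, map_sum] at h1
    refine (substAlgHom_apply hsa.const f).symm.trans (h1.trans (congrArg₂ (· + ·)
      (substAlgHom_apply hsa.const _)
      (Finset.sum_congr rfl fun i _ => ?_)))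
    rw [map_smul, substAlgHom_apply, MvPowerSeries.expand, substAlgHom_apply,
      MvPowerSeries.subst_comp_subst_apply (HasSubst.X_pow (pow_ne_zero _ hp.out.ne_zero))
        hsa.const]
    congr 1
    unfold PowerSeries.subst
    congr 1
    funext x
    rw [MvPowerSeries.subst_pow hsa.const, MvPowerSeries.subst_X hsa.const]
  have t2 : ∀ i : Fin n, expand (p ^ (i.val + 1)) (pow_ne_zero _ hp.out.ne_zero)
      (map (itH E.σ (i.val + 1)) (f.subst a)) =
        PowerSeries.subst (expand (p ^ (i.val + 1)) (pow_ne_zero _ hp.out.ne_zero)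
          (map (itH E.σ (i.val + 1)) a)) (PowerSeries.map (itH E.σ (i.val + 1)) f) := by
    intro i
    rw [PowerSeries.map_subst hsa]
    unfold PowerSeries.subst
    rw [MvPowerSeries.expand_subst]
    exact (PowerSeries.HasSubst.of_constantCoeff_zero
      (by rw [constantCoeff_map, ha0, map_zero])).const
  simp only [typeOf, t2]
  rw [t1, map_sub, map_add, map_sum, map_sum, add_sub_assoc, ← Finset.sum_sub_distrib]
  refine add_mem ?_ (sum_mem fun i _ => ?_)
  · rw [coeff_subst_sum _ ha0 (le_refl _)]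
    refine sum_mem fun m _ => mul_mem ⟨PowerSeries.coeff m g, ?_⟩ ?_
    · exact (coeff_map E.ι _ g).symm
    · rw [ha, ← map_pow]
      exact E.integ_map _ d
  rw [coeff_smul, coeff_smul, coeff_subst_sum _ (hq i) (le_refl _),
    coeff_subst_sum _ (hE i) (le_refl _), ← mul_sub, ← Finset.sum_sub_distrib, Finset.mul_sum]
  refine sum_mem fun m _ => ?_
  rw [← mul_sub]
  rcases Nat.eq_zero_or_pos m with rfl | hm
  · simp
  obtain ⟨v, c, hc, rfl⟩ := Nat.exists_eq_pow_mul_and_not_dvd hm.ne' p hp.out.ne_one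
  have hv : ¬ p ^ (v + 1) ∣ p ^ v * c := fun h => hc
    (Nat.dvd_of_mul_dvd_mul_left (pow_pos hp.out.pos v) (by rwa [pow_succ] at h))
  obtain ⟨b, hb⟩ := E.itH_mem (E.denom_aux hf _ v hv) (i.val + 1)
  obtain ⟨w, hw⟩ := E.denom i
  have hexp : expand (p ^ (i.val + 1)) (pow_ne_zero _ hp.out.ne_zero) (map (itH E.σ (i.val + 1)) a)
      = map E.ι (expand (p ^ (i.val + 1)) (pow_ne_zero _ hp.out.ne_zero)
          (map (itH E.φ (i.val + 1)) α)) := by
    rw [map_expand]
    congr 1
    ext e
    simp [ha, E.itH_comm]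
  have hdvd := dvd_pow_sub_pow' (R := MvPowerSeries τ A) p 0
    (by rw [zero_add, pow_one]; exact pow_congr_expand E.frob (i.val + 1) α)
    (dvd_mul_right (p ^ v) c)
  rw [zero_add, ← Nat.cast_pow] at hdvd
  obtain ⟨y, hy⟩ := dvd_coeff_of_natCast_dvd hdvd d
  refine ⟨w * b * y, ?_⟩
  have e1 : coeff d ((a ^ p ^ (i.val + 1)) ^ (p ^ v * c)) -
      coeff d ((expand (p ^ (i.val + 1)) (pow_ne_zero _ hp.out.ne_zero)
        (map (itH E.σ (i.val + 1)) a)) ^ (p ^ v * c)) =
      (p : K) ^ (v + 1) * E.ι y := by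
    rw [hexp, ha, ← map_pow, ← map_pow, ← map_pow, coeff_map, coeff_map, ← map_sub,
      ← map_sub (coeff d), hy]
    simp
  rw [e1, PowerSeries.coeff_map, map_mul, map_mul, hw, hb, map_mul, map_pow, map_natCast]
  ring

/-- A series of integral type is `f ∘ α`. -/
theorem exists_eq_subst (hf : E.IsLog f) {h : MvPowerSeries τ K} (h0 : constantCoeff h = 0)
    (hh : E.Integ (E.typeOf h)) :
    ∃ α : MvPowerSeries τ A, constantCoeff α = 0 ∧ f.subst (map E.ι α) = h := by
  obtain ⟨a₁, ha₁u, ha₁⟩ := hf.linear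
  obtain ⟨u, rfl⟩ := ha₁u
  have hu : IsUnit (PowerSeries.coeff 1 f) := ha₁ ▸ u.isUnit.map E.ι
  set a := (f.substInvOfIsUnit hu).subst h with ha
  have ha0 : constantCoeff a = 0 :=
    constantCoeff_subst_zero _ (PowerSeries.constantCoeff_substInvOfIsUnit _ hu) h0
  have hfa : f.subst a = h := by
    rw [ha, ← PowerSeries.subst_comp_subst_apply (PowerSeries.HasSubst.substInvOfIsUnit _ hu)
      (PowerSeries.HasSubst.of_constantCoeff_zero h0),
      PowerSeries.subst_substInvOfIsUnit_right _ hf.const hu,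
      PowerSeries.subst_X (PowerSeries.HasSubst.of_constantCoeff_zero h0)]
  suffices hint : ∀ N, ∀ d : τ →₀ ℕ, d.degree = N → coeff d a ∈ E.ι.range by
    obtain ⟨α, hα⟩ := E.exists_map_of_integ (fun d => hint _ d rfl)
    set α' : MvPowerSeries τ A := fun d => if d = 0 then 0 else coeff d α with hα'
    have hcoe : ∀ e, coeff e α' = if e = 0 then 0 else coeff e α := fun _ => rfl
    have he : map E.ι α' = a := by
      ext d
      rw [coeff_map]
      rw [hcoe]
      split_ifs with hd
      · rw [map_zero, hd, coeff_zero_eq_constantCoeff_apply, ha0]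
      · rw [← coeff_map, hα]
    refine ⟨α', ?_, he.symm ▸ hfa⟩
    rw [← coeff_zero_eq_constantCoeff_apply, hcoe, if_pos rfl]
  intro N
  induction N using Nat.strong_induction_on with
  | _ N ih =>
    intro d hd
    rcases Nat.eq_zero_or_pos N with rfl | hN
    · rw [(Finsupp.degree_eq_zero_iff d).mp hd, coeff_zero_eq_constantCoeff_apply, ha0]
      exact zero_mem _
    have hlow : ∀ e : τ →₀ ℕ, e.degree < N → ∃ b, E.ι b = coeff e a :=
      fun e he => ih _ he e rfl
    choose b hb using hlow
    set α : MvPowerSeries τ A := fun e =>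
      if e = 0 then 0 else if he : e.degree < N then b e he else 0 with hα
    have hcoe : ∀ e, coeff e α =
        if e = 0 then 0 else if he : e.degree < N then b e he else 0 := fun _ => rfl
    have hα0 : constantCoeff α = 0 := by rw [← coeff_zero_eq_constantCoeff_apply, hcoe, if_pos rfl]
    have hag : ∀ e, e.degree < N → coeff e a = coeff e (map E.ι α) := by
      intro e he
      rw [coeff_map]
      by_cases h1 : e = 0
      · rw [hcoe, if_pos h1, map_zero, h1, coeff_zero_eq_constantCoeff_apply, ha0]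
      · rw [hcoe, if_neg h1, dif_pos he, hb]
    have hzero : coeff d (map E.ι α) = 0 := by
      rw [coeff_map, hcoe, if_neg (fun h : d = 0 => by subst h; simp at hd; omega),
        dif_neg (by omega), map_zero]
    have hα0' : constantCoeff (map E.ι α) = 0 := by rw [constantCoeff_map, hα0, map_zero]
    have key : coeff d (E.typeOf (f.subst a)) - coeff d (E.typeOf (f.subst (map E.ι α))) =
        PowerSeries.coeff 1 f * coeff d a := by
      have h1 := coeff_subst_sub_of_agree f ha0 hα0' (d := d) (hd ▸ hag)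
      rw [hzero, sub_zero] at h1
      simp only [typeOf, map_sub, map_sum, coeff_smul]
      rw [sub_sub_sub_comm, h1, sub_eq_self, sub_eq_zero]
      refine Finset.sum_congr rfl fun i _ => ?_
      congr 1
      by_cases hdv : ∀ j, p ^ (i.val + 1) ∣ d j
      swap
      · rw [not_forall] at hdv
        obtain ⟨j, hj⟩ := hdv
        rw [coeff_expand_of_not_dvd _ _ _ hj, coeff_expand_of_not_dvd _ _ _ hj]
      · obtain ⟨e, he⟩ : ∃ e : τ →₀ ℕ, d = p ^ (i.val + 1) • e :=
          ⟨d.mapRange (fun a => a / p ^ (i.val + 1)) (Nat.zero_div _),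
            by ext j; simp [Nat.mul_div_cancel' (hdv j)]⟩
        rw [he, coeff_expand_smul, coeff_expand_smul, coeff_map, coeff_map]
        have hlt : e.degree < N := by
          have h2 := congrArg Finsupp.degree he
          rw [map_nsmul, hd, smul_eq_mul] at h2
          rw [h2]
          refine lt_mul_of_one_lt_left ?_ (Nat.one_lt_pow (by omega) hp.out.one_lt)
          by_contra hc
          rw [Nat.le_zero.mp (not_lt.mp hc), mul_zero] at h2
          omega
        have h3 := coeff_subst_sub_of_agree f ha0 hα0' (d := e)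
          (fun e' he' => hag e' (he'.trans hlt))
        rw [hag e hlt, sub_self, mul_zero, sub_eq_zero] at h3
        rw [h3]
    have hmem : PowerSeries.coeff 1 f * coeff d a ∈ E.ι.range := by
      rw [← key, hfa]
      exact sub_mem (hh d) (E.typeOf_subst hf α hα0 d)
    obtain ⟨c, hc⟩ := hmem
    refine ⟨↑u⁻¹ * c, ?_⟩
    rw [map_mul, hc, ← ha₁, ← mul_assoc, ← map_mul, Units.inv_mul, map_one, one_mul]

/-- Congruent arguments give congruent values. -/
theorem subst_congr (hf : E.IsLog f) {r : ℕ} {α β : MvPowerSeries τ A} (hα : constantCoeff α = 0)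
    (hβ : constantCoeff β = 0) (h : ∀ d, (p : A) ^ (r + 1) ∣ coeff d α - coeff d β)
    (d : τ →₀ ℕ) :
    ∃ c : A, coeff d (f.subst (map E.ι α)) - coeff d (f.subst (map E.ι β)) =
      (p : K) ^ (r + 1) * E.ι c := by
  have hα' : constantCoeff (map E.ι α) = 0 := by rw [constantCoeff_map, hα, map_zero]
  have hβ' : constantCoeff (map E.ι β) = 0 := by rw [constantCoeff_map, hβ, map_zero]
  have hser : ((p : MvPowerSeries τ A)) ^ (r + 1) ∣ α - β := by
    rw [← Nat.cast_pow]
    exact natCast_dvd_series fun e => by rw [map_sub, Nat.cast_pow]; exact h e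
  have hterm : ∀ m : ℕ, ∃ c : A, PowerSeries.coeff m f * (coeff d (map E.ι α ^ m) -
      coeff d (map E.ι β ^ m)) = (p : K) ^ (r + 1) * E.ι c := by
    intro m
    rcases Nat.eq_zero_or_pos m with rfl | hm
    · exact ⟨0, by simp⟩
    obtain ⟨v, c, hc, rfl⟩ := Nat.exists_eq_pow_mul_and_not_dvd hm.ne' p hp.out.ne_one
    have hv : ¬ p ^ (v + 1) ∣ p ^ v * c := fun h => hc
      (Nat.dvd_of_mul_dvd_mul_left (pow_pos hp.out.pos v) (by rwa [pow_succ] at h))
    obtain ⟨b, hb⟩ := E.denom_aux hf _ v hv
    have hdvd := dvd_pow_sub_pow' p r hser (dvd_mul_right (p ^ v) c)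
    rw [← Nat.cast_pow] at hdvd
    obtain ⟨y, hy⟩ := dvd_coeff_of_natCast_dvd hdvd d
    refine ⟨b * y, ?_⟩
    rw [← map_pow, ← map_pow, coeff_map, coeff_map, ← map_sub, ← map_sub (coeff d), hy, map_mul,
      map_mul, hb, map_natCast]
    push_cast
    ring
  choose c hc using hterm
  refine ⟨∑ m ∈ range (d.degree + 1), c m, ?_⟩
  rw [coeff_subst_sum _ hα' (le_refl _), coeff_subst_sum _ hβ' (le_refl _),
    ← Finset.sum_sub_distrib, map_sum, Finset.mul_sum]
  exact Finset.sum_congr rfl fun m _ => by rw [← mul_sub, hc m]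

/-- Congruent values give congruent arguments up to degree `D` (`ι` injective). -/
theorem congr_of_subst_le (hι : Function.Injective E.ι) (hf : E.IsLog f) {r : ℕ}
    {α β : MvPowerSeries τ A} (hα : constantCoeff α = 0) (hβ : constantCoeff β = 0)
    {D : ℕ} (h : ∀ d : τ →₀ ℕ, d.degree ≤ D → ∃ c : A, coeff d (f.subst (map E.ι α)) - coeff d (f.subst (map E.ι β)) =
      (p : K) ^ (r + 1) * E.ι c) :
    ∀ d : τ →₀ ℕ, d.degree ≤ D → (p : A) ^ (r + 1) ∣ coeff d α - coeff d β := by
  suffices hN : ∀ N ≤ D, ∀ d : τ →₀ ℕ, d.degree = N → (p : A) ^ (r + 1) ∣ coeff d α - coeff d β from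
    fun d hd => hN _ hd d rfl
  intro N hND
  induction N using Nat.strong_induction_on with
  | _ N ih =>
    intro d hd
    set γ : MvPowerSeries τ A := fun e => if e.degree < N then coeff e β else coeff e α with hγ
    have hcoe : ∀ e, coeff e γ = if e.degree < N then coeff e β else coeff e α := fun _ => rfl
    have hγ0 : constantCoeff γ = 0 := by
      rw [← coeff_zero_eq_constantCoeff_apply, hcoe]
      split_ifs <;> simp [coeff_zero_eq_constantCoeff_apply, hα, hβ]
    have hαγ : ∀ e, (p : A) ^ (r + 1) ∣ coeff e α - coeff e γ := by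
      intro e
      rw [hcoe]
      split_ifs with he
      · exact ih _ he (he.le.trans hND) e rfl
      · simp
    obtain ⟨c₁, hc₁⟩ := E.subst_congr hf hα hγ0 hαγ d
    obtain ⟨c₂, hc₂⟩ := h d (hd.le.trans hND)
    have h1 := coeff_subst_sub_of_agree f (a := map E.ι γ) (b := map E.ι β)
      (by rw [constantCoeff_map, hγ0, map_zero]) (by rw [constantCoeff_map, hβ, map_zero]) (d := d)
      (fun e he => by rw [coeff_map, coeff_map, hcoe, if_pos (hd ▸ he)])
    obtain ⟨a₁, ⟨u, rfl⟩, ha₁⟩ := hf.linear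
    refine ⟨↑u⁻¹ * (c₂ - c₁), hι ?_⟩
    rw [coeff_map, coeff_map, hcoe, if_neg (by omega), ← ha₁] at h1
    have h2 : E.ι u * (E.ι (coeff d α) - E.ι (coeff d β)) =
        (p : K) ^ (r + 1) * (E.ι c₂ - E.ι c₁) := by
      rw [← h1, mul_sub, ← hc₁, ← hc₂]
      ring
    have h3 : E.ι ↑u⁻¹ * E.ι u = 1 := by rw [← map_mul, Units.inv_mul, map_one]
    rw [map_sub, map_mul, map_mul, map_pow, map_natCast, map_sub]
    calc E.ι (coeff d α) - E.ι (coeff d β)
        = E.ι ↑u⁻¹ * (E.ι u * (E.ι (coeff d α) - E.ι (coeff d β))) := by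
          rw [← mul_assoc, h3, one_mul]
      _ = _ := by rw [h2]; ring

/-- Congruent values give congruent arguments (`ι` injective). -/
theorem congr_of_subst (hι : Function.Injective E.ι) (hf : E.IsLog f) {r : ℕ}
    {α β : MvPowerSeries τ A} (hα : constantCoeff α = 0) (hβ : constantCoeff β = 0)
    (h : ∀ d, ∃ c : A, coeff d (f.subst (map E.ι α)) - coeff d (f.subst (map E.ι β)) =
      (p : K) ^ (r + 1) * E.ι c) :
    ∀ d, (p : A) ^ (r + 1) ∣ coeff d α - coeff d β := fun d =>
  E.congr_of_subst_le hι hf hα hβ (D := d.degree) (fun e _ => h e) d le_rfl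

/-- Injectivity of `α ↦ f ∘ α`. -/
theorem eq_of_subst_eq (hι : Function.Injective E.ι) (hf : E.IsLog f) {α β : MvPowerSeries τ A}
    (hα : constantCoeff α = 0) (hβ : constantCoeff β = 0)
    (h : f.subst (map E.ι α) = f.subst (map E.ι β)) : α = β := by
  obtain ⟨a₁, hu, ha₁⟩ := hf.linear
  have := subst_injective hf.const (ha₁ ▸ hu.map E.ι)
    (by rw [constantCoeff_map, hα, map_zero]) (by rw [constantCoeff_map, hβ, map_zero]) h
  ext d
  exact hι (by rw [← coeff_map, ← coeff_map, this])

omit hp in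
/-- `f ∘ (Φ(x, y)) = f ∘ x + f ∘ y` after any substitution. -/
theorem subst_addition {Φ : MvPowerSeries (Fin 2) A} (hΦ0 : constantCoeff Φ = 0)
    (hΦ : f.subst (map E.ι Φ) = f.subst (X (0 : Fin 2)) + f.subst (X (1 : Fin 2)))
    {τ' : Type w} {x : Fin 2 → MvPowerSeries τ' A} (hx : ∀ j, constantCoeff (x j) = 0) :
    f.subst (map E.ι (Φ.subst x)) = f.subst (map E.ι (x 0)) + f.subst (map E.ι (x 1)) := by
  have hs : HasSubst x := hasSubst_of_constantCoeff_zero hx
  have hs' : HasSubst fun j => map E.ι (x j) :=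
    hasSubst_of_constantCoeff_zero fun j => by rw [constantCoeff_map, hx, map_zero]
  have hΦ0' : constantCoeff (map E.ι Φ) = 0 := by rw [constantCoeff_map, hΦ0, map_zero]
  rw [map_subst hs]
  unfold PowerSeries.subst
  rw [← subst_comp_subst_apply (PowerSeries.HasSubst.of_constantCoeff_zero hΦ0').const hs']
  change MvPowerSeries.subst _ (f.subst (map E.ι Φ)) = _
  rw [hΦ, subst_add hs']
  unfold PowerSeries.subst
  rw [subst_comp_subst_apply (PowerSeries.HasSubst.X _).const hs',
    subst_comp_subst_apply (PowerSeries.HasSubst.X _).const hs', subst_X hs', subst_X hs']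

/-- The formal group law with logarithm `f`. -/
theorem exists_formalGroup (hι : Function.Injective E.ι) (hf : E.IsLog f) :
    ∃ F : FormalGroup A, F.IsComm ∧
      f.subst (map E.ι F.toPowerSeries) = f.subst (X (0 : Fin 2)) + f.subst (X (1 : Fin 2)) := by
  have hX : ∀ j : Fin 2, E.Integ (E.typeOf (f.subst (X j : MvPowerSeries (Fin 2) K))) := fun j => by
    have := E.typeOf_subst hf (X j : MvPowerSeries (Fin 2) A) (constantCoeff_X j)
    rwa [map_X] at this
  set h := f.subst (X (0 : Fin 2) : MvPowerSeries (Fin 2) K) + f.subst (X (1 : Fin 2)) with hh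
  have h0 : constantCoeff h = 0 := by
    rw [hh, map_add, constantCoeff_subst_zero f hf.const (constantCoeff_X _),
      constantCoeff_subst_zero f hf.const (constantCoeff_X _), add_zero]
  obtain ⟨Φ, hΦ0, hΦ⟩ := E.exists_eq_subst hf h0 (E.integ_typeOf_add (hX 0) (hX 1))
  have hΦ0' : constantCoeff (map E.ι Φ) = 0 := by rw [constantCoeff_map, hΦ0, map_zero]
  obtain ⟨a₁, hu, ha₁⟩ := hf.linear
  have key : ∀ (τ' : Type) (g : Fin 2 → MvPowerSeries τ' A), (∀ j, constantCoeff (g j) = 0) →
      f.subst (map E.ι (Φ.subst g)) = f.subst (map E.ι (g 0)) + f.subst (map E.ι (g 1)) :=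
    fun τ' g hg => E.subst_addition hΦ0 hΦ hg
  have hlin : ∀ j : Fin 2, coeff (Finsupp.single j 1) Φ = 1 := by
    intro j
    refine hι ?_
    have h1 := coeff_subst_sub_of_agree f hΦ0' (map_zero constantCoeff)
      (d := Finsupp.single j 1) (fun e he => by
        rw [Finsupp.degree_single, Nat.lt_one_iff, Finsupp.degree_eq_zero_iff] at he
        rw [he, coeff_zero_eq_constantCoeff_apply, hΦ0', map_zero])
    rw [hΦ, hh, map_add] at h1
    have hc : ∀ i : Fin 2, coeff (Finsupp.single j 1) (f.subst (X i : MvPowerSeries (Fin 2) K)) =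
        if i = j then PowerSeries.coeff 1 f else 0 := by
      intro i
      rw [coeff_subst_sum f (constantCoeff_X i) (D := 1) (by simp)]
      by_cases hij : i = j
      · subst hij; simp [Finset.sum_range_succ, hf.const]
      · simp [Finset.sum_range_succ, hij, coeff_X, Finsupp.single_eq_single_iff, Ne.symm hij,
          coeff_one]
    rw [hc, hc, PowerSeries.subst_zero_of_constantCoeff_zero hf.const, map_zero, sub_zero,
      sub_zero, coeff_map, ← ha₁] at h1
    rw [map_one]
    obtain ⟨u, rfl⟩ := hu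
    have h3 : E.ι ↑u⁻¹ * E.ι u = 1 := by rw [← map_mul, Units.inv_mul, map_one]
    have h4 : E.ι u * E.ι (coeff (Finsupp.single j 1) Φ) = E.ι u := by
      rw [← h1]
      fin_cases j <;> simp
    calc E.ι (coeff (Finsupp.single j 1) Φ)
        = E.ι ↑u⁻¹ * (E.ι u * E.ι (coeff (Finsupp.single j 1) Φ)) := by
          rw [← mul_assoc, h3, one_mul]
      _ = 1 := by rw [h4, h3]
  have hpair : ∀ (τ' : Type) (x y : MvPowerSeries τ' A), constantCoeff x = 0 →
      constantCoeff y = 0 → constantCoeff (Φ.subst ![x, y]) = 0 ∧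
      f.subst (map E.ι (Φ.subst ![x, y])) = f.subst (map E.ι x) + f.subst (map E.ι y) := by
    intro τ' x y hx hy
    have hg : ∀ j, constantCoeff (![x, y] j) = 0 := fun j => by fin_cases j <;> simpa
    exact ⟨constantCoeff_subst_eq_zero (hasSubst_of_constantCoeff_zero hg) hg hΦ0,
      key τ' _ hg⟩
  set F : FormalGroup A :=
    { toPowerSeries := Φ
      zero_constantCoeff := hΦ0
      lin_coeff_X := hlin 0
      lin_coeff_Y := hlin 1
      assoc := by
        have hY : ∀ i : Fin 3, constantCoeff (X i : MvPowerSeries (Fin 3) A) = 0 :=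
          fun i => constantCoeff_X i
        obtain ⟨a0, a1⟩ := hpair (Fin 3) _ _ (hY 0) (hY 1)
        obtain ⟨b0, b1⟩ := hpair (Fin 3) _ _ (hY 1) (hY 2)
        obtain ⟨c0, c1⟩ := hpair (Fin 3) _ _ a0 (hY 2)
        obtain ⟨d0, d1⟩ := hpair (Fin 3) _ _ (hY 0) b0
        refine E.eq_of_subst_eq hι hf c0 d0 ?_
        rw [c1, d1, a1, b1, add_assoc] }
    with hF
  refine ⟨F, ⟨?_⟩, hΦ⟩
  obtain ⟨a0, a1⟩ := hpair (Fin 2) (X 1) (X 0) (constantCoeff_X 1) (constantCoeff_X 0)
  refine E.eq_of_subst_eq hι hf hΦ0 a0 ?_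
  rw [a1, map_X, map_X, hΦ, hh, add_comm]

/-- Logarithms with the same functional equation give series `ψ` with `f ∘ ψ = g`. -/
theorem exists_hom (hf : E.IsLog f) {g : PowerSeries K} (hg0 : PowerSeries.constantCoeff g = 0)
    (hg : E.Integ (E.typeOf g)) :
    ∃ ψ : PowerSeries A, PowerSeries.constantCoeff ψ = 0 ∧
      f.subst (PowerSeries.map E.ι ψ) = g :=
  E.exists_eq_subst hf hg0 hg

/-- A series `ψ` with `f ∘ ψ = g` is a homomorphism of the two formal group laws. -/
theorem isHom (hι : Function.Injective E.ι) (hf : E.IsLog f) {g : PowerSeries K}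
    {F G : FormalGroup A}
    (hF : f.subst (map E.ι F.toPowerSeries) = f.subst (X (0 : Fin 2)) + f.subst (X (1 : Fin 2)))
    (hG : g.subst (map E.ι G.toPowerSeries) = g.subst (X (0 : Fin 2)) + g.subst (X (1 : Fin 2)))
    {ψ : PowerSeries A} (hψ0 : PowerSeries.constantCoeff ψ = 0)
    (hψ : f.subst (PowerSeries.map E.ι ψ) = g) :
    ψ.subst G.toPowerSeries =
      F.toPowerSeries.subst ![ψ.subst (X (0 : Fin 2)), ψ.subst (X (1 : Fin 2))] := by
  have hψ0' : PowerSeries.constantCoeff (PowerSeries.map E.ι ψ) = 0 := by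
    rw [← PowerSeries.coeff_zero_eq_constantCoeff_apply, PowerSeries.coeff_map,
      PowerSeries.coeff_zero_eq_constantCoeff_apply, hψ0, map_zero]
  have key : ∀ z : MvPowerSeries (Fin 2) A, constantCoeff z = 0 →
      f.subst (map E.ι (ψ.subst z)) = g.subst (map E.ι z) := by
    intro z hz
    have hz' : constantCoeff (map E.ι z) = 0 := by rw [constantCoeff_map, hz, map_zero]
    rw [PowerSeries.map_subst (PowerSeries.HasSubst.of_constantCoeff_zero hz),
      ← PowerSeries.subst_comp_subst_apply (PowerSeries.HasSubst.of_constantCoeff_zero' hψ0')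
        (PowerSeries.HasSubst.of_constantCoeff_zero hz'), hψ]
  have hc : ∀ j : Fin 2, constantCoeff
      (![ψ.subst (X (0 : Fin 2) : MvPowerSeries (Fin 2) A), ψ.subst (X (1 : Fin 2))] j) = 0 :=
    fun j => by
      fin_cases j <;> exact constantCoeff_subst_zero _ hψ0 (constantCoeff_X _)
  refine E.eq_of_subst_eq hι hf (constantCoeff_subst_zero _ hψ0 G.zero_constantCoeff)
    (constantCoeff_subst_eq_zero (hasSubst_of_constantCoeff_zero hc) hc F.zero_constantCoeff) ?_
  rw [key _ G.zero_constantCoeff, hG, E.subst_addition F.zero_constantCoeff hF hc]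
  simp only [Matrix.cons_val_zero, Matrix.cons_val_one]
  rw [key _ (constantCoeff_X _), key _ (constantCoeff_X _), map_X, map_X]

end FE

end Vale.Agent.P217
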