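import Vale.Agent.P217.Targets
import Vale.Agent.P217.HeightIdeal

/-!
# P217: homomorphisms acting on points
-/

noncomputable section

namespace Vale.Agent.P217

open MvPowerSeries

section Algebra

variable {A : Type*} [CommRing A] {σ τ : Type*}

lemma hasSubst_pair {a b : MvPowerSeries σ A} (ha : constantCoeff a = 0)
    (hb : constantCoeff b = 0) : HasSubst ![a, b] :=
  hasSubst_of_constantCoeff_zero fun i => by fin_cases i <;> simpa

lemma constantCoeff_fadd (F : FormalGroup A) {a b : MvPowerSeries σ A}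
    (ha : constantCoeff a = 0) (hb : constantCoeff b = 0) : constantCoeff (fadd F a b) = 0 :=
  constantCoeff_subst_eq_zero (hasSubst_pair ha hb) (fun i => by fin_cases i <;> simpa)
    F.zero_constantCoeff

lemma psSubst_fadd (F : FormalGroup A) {a b : MvPowerSeries σ A} (ha : constantCoeff a = 0)
    (hb : constantCoeff b = 0) {s : σ → MvPowerSeries τ A} (hs : HasSubst s) :
    (fadd F a b).subst s = fadd F (a.subst s) (b.subst s) := by
  unfold fadd
  rw [subst_comp_subst_apply (hasSubst_pair ha hb) hs]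
  congr 1
  funext i
  fin_cases i <;> simp

lemma ps_constantCoeff {φ : PowerSeries A} (hφ : PowerSeries.constantCoeff φ = 0)
    {a : MvPowerSeries σ A} (ha : constantCoeff a = 0) : constantCoeff (φ.subst a) = 0 :=
  PowerSeries.constantCoeff_subst_eq_zero ha φ hφ

lemma IsHom.subst_fadd {F G : FormalGroup A} {φ : PowerSeries A} (hφ : IsHom F G φ)
    {a b : MvPowerSeries σ A} (ha : constantCoeff a = 0) (hb : constantCoeff b = 0) :
    φ.subst (fadd F a b) = fadd G (φ.subst a) (φ.subst b) := by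
  have hs := hasSubst_pair ha hb
  have h := congrArg (MvPowerSeries.subst ![a, b]) hφ.2
  rw [psSubst_fadd G (ps_constantCoeff hφ.1 (constantCoeff_X _))
    (ps_constantCoeff hφ.1 (constantCoeff_X _)) hs] at h
  have hc : ∀ i : Fin 2, (φ.subst (MvPowerSeries.X i : MvPowerSeries (Fin 2) A)).subst ![a, b] =
      φ.subst (![a, b] i) := fun i => by
    rw [PowerSeries.subst, PowerSeries.subst,
      subst_comp_subst_apply (PowerSeries.HasSubst.of_constantCoeff_zero (constantCoeff_X _)).const hs]
    congr 1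
    funext _
    exact subst_X hs i
  rw [hc, hc] at h
  refine Eq.trans ?_ h
  rw [PowerSeries.subst, PowerSeries.subst,
    subst_comp_subst_apply (PowerSeries.HasSubst.of_constantCoeff_zero F.zero_constantCoeff).const hs]
  rfl

lemma IsHom.comp {F G H : FormalGroup A} {φ ψ : PowerSeries A} (hφ : IsHom F G φ)
    (hψ : IsHom G H ψ) : IsHom F H (ψ.subst φ) := by
  have hs : PowerSeries.HasSubst φ := PowerSeries.HasSubst.of_constantCoeff_zero hφ.1
  refine ⟨PowerSeries.constantCoeff_subst_eq_zero hφ.1 ψ hψ.1, ?_⟩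
  rw [PowerSeries.subst_comp_subst_apply hs
      (PowerSeries.HasSubst.of_constantCoeff_zero F.zero_constantCoeff),
    PowerSeries.subst_comp_subst_apply hs
      (PowerSeries.HasSubst.of_constantCoeff_zero (constantCoeff_X _)),
    PowerSeries.subst_comp_subst_apply hs
      (PowerSeries.HasSubst.of_constantCoeff_zero (constantCoeff_X _)), hφ.2]
  exact hψ.subst_fadd (ps_constantCoeff hφ.1 (constantCoeff_X _))
    (ps_constantCoeff hφ.1 (constantCoeff_X _))

lemma fadd_assoc (F : FormalGroup A) {a b c : MvPowerSeries σ A} (ha : constantCoeff a = 0)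
    (hb : constantCoeff b = 0) (hc : constantCoeff c = 0) :
    fadd F (fadd F a b) c = fadd F a (fadd F b c) :=
  F.assoc' (PowerSeries.HasSubst.of_constantCoeff_zero ha)
    (PowerSeries.HasSubst.of_constantCoeff_zero hb)
    (PowerSeries.HasSubst.of_constantCoeff_zero hc)

lemma fadd_comm (F : FormalGroup A) (hF : F.IsComm) {a b : MvPowerSeries σ A}
    (ha : constantCoeff a = 0) (hb : constantCoeff b = 0) : fadd F a b = fadd F b a :=
  F.comm' (PowerSeries.HasSubst.of_constantCoeff_zero ha)
    (PowerSeries.HasSubst.of_constantCoeff_zero hb)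

lemma IsHom.zero (F G : FormalGroup A) : IsHom F G (0 : PowerSeries A) := by
  refine ⟨map_zero _, ?_⟩
  have h0 : ∀ {a : MvPowerSeries (Fin 2) A}, constantCoeff a = 0 →
      (0 : PowerSeries A).subst a = 0 := fun ha => by
    rw [← PowerSeries.coe_substAlgHom (PowerSeries.HasSubst.of_constantCoeff_zero ha), map_zero]
  rw [h0 F.zero_constantCoeff, h0 (constantCoeff_X _), h0 (constantCoeff_X _), fadd,
    FormalGroup.add_zero G PowerSeries.HasSubst.zero]

lemma IsHom.fadd {F G : FormalGroup A} (hG : G.IsComm) {φ ψ : PowerSeries A} (hφ : IsHom F G φ)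
    (hψ : IsHom F G ψ) :
    IsHom F G (Vale.Agent.P217.fadd G (φ : MvPowerSeries Unit A) ψ) := by
  have hs : ∀ {a : MvPowerSeries (Fin 2) A}, constantCoeff a = 0 →
      PowerSeries.subst a (Vale.Agent.P217.fadd G (φ : MvPowerSeries Unit A) ψ : PowerSeries A) =
        Vale.Agent.P217.fadd G (φ.subst a) (ψ.subst a) := fun ha => by
    rw [PowerSeries.subst, psSubst_fadd G hφ.1 hψ.1
      (PowerSeries.HasSubst.of_constantCoeff_zero ha).const]
    rfl
  refine ⟨constantCoeff_fadd G hφ.1 hψ.1, ?_⟩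
  rw [hs F.zero_constantCoeff, hs (constantCoeff_X _), hs (constantCoeff_X _), hφ.2, hψ.2]
  set a := φ.subst (x0 : MvPowerSeries (Fin 2) A)
  set b := φ.subst (x1 : MvPowerSeries (Fin 2) A)
  set c := ψ.subst (x0 : MvPowerSeries (Fin 2) A)
  set d := ψ.subst (x1 : MvPowerSeries (Fin 2) A)
  have ha : constantCoeff a = 0 := ps_constantCoeff hφ.1 (constantCoeff_X _)
  have hb : constantCoeff b = 0 := ps_constantCoeff hφ.1 (constantCoeff_X _)
  have hc : constantCoeff c = 0 := ps_constantCoeff hψ.1 (constantCoeff_X _)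
  have hd : constantCoeff d = 0 := ps_constantCoeff hψ.1 (constantCoeff_X _)
  rw [fadd_assoc G ha hb (constantCoeff_fadd G hc hd), ← fadd_assoc G hb hc hd,
    fadd_comm G hG hb hc, fadd_assoc G hc hb hd, ← fadd_assoc G ha hc (constantCoeff_fadd G hb hd)]

lemma IsHom.pow_prime_pow {p : ℕ} [Fact p.Prime] [CharP A p] (F : FormalGroup A)
    (hF : ∀ d, coeff d F.toPowerSeries ^ p = coeff d F.toPowerSeries) (r : ℕ) :
    IsHom F F ((PowerSeries.X : PowerSeries A) ^ p ^ r) := by
  have hne : p ^ r ≠ 0 := pow_ne_zero _ (Fact.out : p.Prime).ne_zero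
  refine ⟨by rw [map_pow, PowerSeries.constantCoeff_X, zero_pow hne], ?_⟩
  have hX : ∀ {a : MvPowerSeries (Fin 2) A}, constantCoeff a = 0 →
      ((PowerSeries.X : PowerSeries A) ^ p ^ r).subst a = a ^ p ^ r := fun ha => by
    rw [PowerSeries.subst_pow (PowerSeries.HasSubst.of_constantCoeff_zero ha),
      PowerSeries.subst_X (PowerSeries.HasSubst.of_constantCoeff_zero ha)]
  rw [hX F.zero_constantCoeff, hX (constantCoeff_X _), hX (constantCoeff_X _)]
  have hmap : MvPowerSeries.map (iterateFrobenius A p r) F.toPowerSeries = F.toPowerSeries := by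
    ext d
    rw [coeff_map, iterateFrobenius_def]
    clear hX hne
    induction r with
    | zero => simp
    | succ r ih => rw [pow_succ, pow_mul, ih, hF]
  have h := map_iterateFrobenius_expand p (Fact.out : p.Prime).ne_zero F.toPowerSeries r
  rw [map_expand, hmap] at h
  rw [← h, Vale.Agent.P217.fadd, expand, substAlgHom_apply]
  congr 1
  funext i
  fin_cases i <;> rfl

end Algebra

section Analysis

variable {C : Type} [NormedField C]

lemma norm_le_one_of_law (p : ℕ) [IsUltrametricDist C] {v : ℕ → C} (hv : ∀ i, ‖v i‖ ≤ 1) :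
    IntSer (law p v).toPowerSeries := by
  intro d
  set w : ℕ → unitBall C := fun i => ⟨v i, hv i⟩
  have h := law_map p (unitBall C).subtype w
  have hw : (fun i => (unitBall C).subtype (w i)) = v := rfl
  rw [hw] at h
  rw [← h, FormalGroup.map_toPowerSeries, coeff_map]
  exact (coeff d (law p w).toPowerSeries).2

lemma norm_vTuple_le {n : ℕ} {u : Fin (n - 1) → C} (hu : ∀ i, ‖u i‖ ≤ 1) (i : ℕ) :
    ‖vTuple n u i‖ ≤ 1 := by
  unfold vTuple
  split_ifs <;> simp [hu]

lemma norm_vHonda_le (n i : ℕ) : ‖(vHonda n i : C)‖ ≤ 1 := by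
  unfold vHonda
  split_ifs <;> simp

variable [IsUltrametricDist C] [CompleteSpace C]

lemma ev1_small (hE : EvalTarget) {φ : PowerSeries C} (hφ : IntSer φ)
    (h0 : PowerSeries.constantCoeff φ = 0) {z : C} (hz : ‖z‖ < 1) : ‖ev1 z φ‖ ≤ ‖z‖ :=
  ((hE C).1 Unit (fun _ => z) φ φ (fun _ => hz) hφ hφ).2.2.2.2.2.2.1 h0 ‖z‖ (norm_nonneg z)
    fun _ => le_rfl

lemma ev_subst (hE : EvalTarget) {σ τ : Type} [Fintype σ] [Fintype τ] {g : σ → MvPowerSeries τ C}
    {f : MvPowerSeries σ C} {y : τ → C} (hg : ∀ i, IntSer (g i) ∧ constantCoeff (g i) = 0)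
    (hf : IntSer f) (hy : Small y) : ev y (f.subst g) = ev (fun i => ev y (g i)) f :=
  ((hE C).2.2.1 σ τ g f y hg hf hy).2

lemma intSer_subst (hE : EvalTarget) {σ τ : Type} [Fintype σ] [Fintype τ]
    {g : σ → MvPowerSeries τ C} {f : MvPowerSeries σ C}
    (hg : ∀ i, IntSer (g i) ∧ constantCoeff (g i) = 0) (hf : IntSer f) : IntSer (f.subst g) :=
  ((hE C).2.2.1 σ τ g f 0 hg hf fun _ => by simp).1

lemma intSer_X {σ : Type} (i : σ) : IntSer (MvPowerSeries.X i : MvPowerSeries σ C) := fun d => by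
  classical
  rw [coeff_X]
  split_ifs <;> simp

lemma intSer_pair {σ : Type} {a b : MvPowerSeries σ C} (ha : IntSer a)
    (h0a : constantCoeff a = 0) (hb : IntSer b) (h0b : constantCoeff b = 0) (i : Fin 2) :
    IntSer (![a, b] i) ∧ constantCoeff (![a, b] i) = 0 := by
  fin_cases i <;> exact ⟨by assumption, by assumption⟩

lemma ev_fadd (hE : EvalTarget) {σ : Type} [Fintype σ] {F : FormalGroup C}
    (hF : IntSer F.toPowerSeries) {a b : MvPowerSeries σ C} (ha : IntSer a)
    (h0a : constantCoeff a = 0) (hb : IntSer b) (h0b : constantCoeff b = 0) {y : σ → C}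
    (hy : Small y) : ev y (fadd F a b) = padd F (ev y a) (ev y b) := by
  rw [fadd, ev_subst hE (intSer_pair ha h0a hb h0b) hF hy, padd]
  congr 1
  funext i
  fin_cases i <;> rfl

lemma intSer_fadd (hE : EvalTarget) {σ : Type} [Fintype σ] {F : FormalGroup C}
    (hF : IntSer F.toPowerSeries) {a b : MvPowerSeries σ C} (ha : IntSer a)
    (h0a : constantCoeff a = 0) (hb : IntSer b) (h0b : constantCoeff b = 0) :
    IntSer (fadd F a b) :=
  intSer_subst hE (intSer_pair ha h0a hb h0b) hF

lemma ev_psSubst (hE : EvalTarget) {σ : Type} [Fintype σ] {φ : PowerSeries C} (hφ : IntSer φ)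
    {a : MvPowerSeries σ C} (ha : IntSer a) (h0 : constantCoeff a = 0) {y : σ → C}
    (hy : Small y) : ev y (φ.subst a) = ev1 (ev y a) φ :=
  ev_subst hE (fun _ => ⟨ha, h0⟩) hφ hy

lemma intSer_psSubst (hE : EvalTarget) {σ : Type} [Fintype σ] {φ : PowerSeries C} (hφ : IntSer φ)
    {a : MvPowerSeries σ C} (ha : IntSer a) (h0 : constantCoeff a = 0) :
    IntSer (φ.subst a) :=
  intSer_subst hE (fun _ => ⟨ha, h0⟩) hφ

/-- An integral homomorphism is additive on points. -/
lemma IsHom.ev_padd (hE : EvalTarget) {F G : FormalGroup C} (hF : IntSer F.toPowerSeries)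
    (hG : IntSer G.toPowerSeries) {φ : PowerSeries C} (hφ : IsHom F G φ) (hi : IntSer φ)
    {a b : C} (ha : ‖a‖ < 1) (hb : ‖b‖ < 1) :
    ev1 (padd F a b) φ = padd G (ev1 a φ) (ev1 b φ) := by
  have hy : Small ![a, b] := fun i => by fin_cases i <;> simpa
  have h := congrArg (ev ![a, b]) hφ.2
  rw [ev_psSubst hE hi hF F.zero_constantCoeff hy,
    ev_fadd hE hG (intSer_psSubst hE hi (intSer_X _) (constantCoeff_X _))
      (ps_constantCoeff hφ.1 (constantCoeff_X _))
      (intSer_psSubst hE hi (intSer_X _) (constantCoeff_X _))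
      (ps_constantCoeff hφ.1 (constantCoeff_X _)) hy,
    ev_psSubst hE hi (intSer_X _) (constantCoeff_X _) hy,
    ev_psSubst hE hi (intSer_X _) (constantCoeff_X _) hy,
    ((hE C).2.1 (Fin 2) ![a, b] 0 0 hy).2, ((hE C).2.1 (Fin 2) ![a, b] 0 1 hy).2] at h
  exact h

lemma mulSer_const {A : Type*} [CommRing A] (F : FormalGroup A) :
    ∀ m, PowerSeries.constantCoeff (mulSer F m) = 0
  | 0 => map_zero _
  | m + 1 => constantCoeff_fadd F (constantCoeff_X _) (mulSer_const F m)

/-- A homomorphism commutes with multiplication series. -/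
lemma IsHom.subst_mulSer {A : Type*} [CommRing A] {F G : FormalGroup A} {φ : PowerSeries A}
    (hφ : IsHom F G φ) : ∀ m, φ.subst (mulSer F m) = (mulSer G m).subst φ
  | 0 => by
    have hs : PowerSeries.HasSubst φ := PowerSeries.HasSubst.of_constantCoeff_zero hφ.1
    show φ.subst (0 : PowerSeries A) = (0 : PowerSeries A).subst φ
    rw [PowerSeries.subst_zero_of_constantCoeff_zero hφ.1, ← PowerSeries.coe_substAlgHom hs,
      map_zero]
  | m + 1 => by
    have hs : PowerSeries.HasSubst φ := PowerSeries.HasSubst.of_constantCoeff_zero hφ.1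
    rw [mulSer]
    refine (hφ.subst_fadd (a := (PowerSeries.X : PowerSeries A)) (constantCoeff_X _)
      (mulSer_const F m)).trans ?_
    rw [IsHom.subst_mulSer hφ m]
    conv_rhs => rw [mulSer, PowerSeries.subst,
      psSubst_fadd G (a := (PowerSeries.X : PowerSeries A)) (constantCoeff_X _)
        (mulSer_const G m) hs.const]
    congr 1
    · rw [← PowerSeries.subst, PowerSeries.subst_X hs]
      exact (PowerSeries.map_algebraMap_eq_subst_X φ).symm.trans (by simp)

end Analysis

end Vale.Agent.P217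

end
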