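import Vale.Agent.P217.Formal.Law
import Vale.Agent.P217.HomPoints
import Mathlib.RingTheory.RootsOfUnity.Complex

/-!
# P217: monomial endomorphisms of the Honda law
-/

noncomputable section

namespace Vale.Agent.P217

open MvPowerSeries

lemma honda_mapRing (p n : ℕ) {A B : Type*} [CommRing A] [CommRing B] (f : A →+* B) :
    (honda p n A).map f = honda p n B := by
  rw [honda, law_map, honda]
  congr 1
  funext i
  unfold vHonda
  split_ifs <;> simp

lemma coeff_subst_scale {A : Type*} [CommRing A] {σ : Type} [Finite σ] (c : A)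
    (f : MvPowerSeries σ A) (d : σ →₀ ℕ) :
    coeff d (f.subst fun i => MvPowerSeries.C c * MvPowerSeries.X i) = c ^ deg d * coeff d f := by
  have h : (f.subst fun i => MvPowerSeries.C c * MvPowerSeries.X i) = rescale (fun _ => c) f := by
    rw [rescale_eq_subst]
    congr 1
    funext i
    simp [smul_eq_C_mul]
  rw [h, coeff_rescale, deg, Finsupp.prod, Finset.prod_pow_eq_pow_sum]
  rfl

variable {p : ℕ} [hp : Fact p.Prime]

/-- The logarithm of the Honda law commutes with multiplication by a fixed point of the `p^n`-power. -/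
lemma pLog_vHonda_scale {n : ℕ} {K : Type} [Field K] {c : K} (hc : c ^ p ^ n = c) :
    (pLog p (vHonda n : ℕ → K)).subst (PowerSeries.C c * PowerSeries.X : PowerSeries K) =
      PowerSeries.C c * pLog p (vHonda n : ℕ → K) := by
  have hiter : ∀ k, c ^ p ^ (n * k) = c := by
    intro k
    induction k with
    | zero => simp
    | succ k ih => rw [Nat.mul_succ, pow_add, pow_mul, ih, hc]
  have hL : ∀ K', ¬ n ∣ K' → L p (vHonda n : ℕ → K) K' = 0 := by
    intro K'
    induction K' using Nat.strong_induction_on with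
    | _ K' ih =>
      rcases K' with _ | K'
      · exact fun h => absurd (dvd_zero n) h
      · intro h
        rw [L_succ]
        refine Finset.sum_eq_zero fun i hi => ?_
        by_cases hin : i + 1 = n
        · rw [Finset.mem_range] at hi
          have : ¬ n ∣ K' - i := fun hd => h (by
            have := Nat.dvd_add hd (dvd_refl n)
            rwa [← hin, show K' - i + (i + 1) = K' + 1 by omega, hin] at this)
          rw [ih (K' - i) (by omega) this, mul_zero]
        · rw [show (vHonda n (i + 1) : K) = 0 by simp [vHonda, hin],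
            zero_pow (pow_ne_zero _ hp.out.ne_zero), zero_mul, zero_mul]
  ext m
  rw [← PowerSeries.smul_eq_C_mul, ← PowerSeries.rescale_eq_subst, PowerSeries.coeff_rescale,
    PowerSeries.coeff_C_mul]
  by_cases hm : ∃ J, m = p ^ J
  · obtain ⟨J, rfl⟩ := hm
    by_cases hJ : n ∣ J
    · obtain ⟨k, rfl⟩ := hJ
      rw [hiter k]
    · rw [coeff_pLog_pow, hL J hJ]
      simp
  · rw [coeff_pLog_other _ (not_exists.mp hm)]
    simp

/-- Over `ℤ` the Honda law only has monomials of degree `1` modulo `p^n - 1`. -/
lemma honda_int_homogeneous (n : ℕ) (hn : 1 ≤ n) (d : Fin 2 →₀ ℕ)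
    (hd : coeff d (honda p n ℤ).toPowerSeries ≠ 0) :
    ∃ e, deg d = 1 + e * (p ^ n - 1) := by
  have hq : 1 < p ^ n := Nat.one_lt_pow (by omega) hp.out.one_lt
  have hd0 : deg d ≠ 0 := by
    intro h
    have h0 : d = 0 := (Finsupp.degree_eq_zero_iff d).mp h
    rw [h0, coeff_zero_eq_constantCoeff_apply, FormalGroup.zero_constantCoeff] at hd
    exact hd rfl
  obtain ⟨c, hc⟩ := (⟨_, Complex.isPrimitiveRoot_exp (p ^ n - 1) (by omega)⟩ :
    ∃ c : ℂ, IsPrimitiveRoot c (p ^ n - 1))
  have hc0 : c ≠ 0 := hc.ne_zero (by omega)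
  have hfix : c ^ p ^ n = c := by
    conv_lhs => rw [show p ^ n = p ^ n - 1 + 1 by omega, pow_succ, hc.pow_eq_one, one_mul]
  set F := (honda p n ℂ).toPowerSeries
  have hlog : HasLog (honda p n ℂ) (pLog p (vHonda n : ℕ → ℂ)) :=
    hasLog_law p _ (isUnit_iff_ne_zero.mpr (Nat.cast_ne_zero.mpr hp.out.ne_zero))
  set f := pLog p (vHonda n : ℕ → ℂ)
  have hs : ∀ {σ : Type} {a : MvPowerSeries σ ℂ}, constantCoeff a = 0 →
      f.subst (MvPowerSeries.C c * a) = MvPowerSeries.C c * f.subst a := by
    intro σ a ha
    have ha' := PowerSeries.HasSubst.of_constantCoeff_zero ha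
    have hcX : PowerSeries.HasSubst (PowerSeries.C c * PowerSeries.X : PowerSeries ℂ) :=
      PowerSeries.HasSubst.of_constantCoeff_zero' (by simp)
    have h := congrArg (PowerSeries.subst a) (pLog_vHonda_scale (p := p) (K := ℂ) hfix)
    rwa [PowerSeries.subst_comp_subst_apply hcX ha', PowerSeries.subst_mul ha',
      PowerSeries.subst_mul ha', PowerSeries.subst_C, PowerSeries.subst_X ha'] at h
  have hg : ∀ i : Fin 2,
      constantCoeff (MvPowerSeries.C c * MvPowerSeries.X i : MvPowerSeries (Fin 2) ℂ) = 0 :=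
    fun i => by simp
  have hg' := hasSubst_of_constantCoeff_zero hg
  have hFF : f.subst (F.subst fun i => MvPowerSeries.C c * MvPowerSeries.X i) =
      f.subst (MvPowerSeries.C c * F) := by
    rw [hs (FormalGroup.zero_constantCoeff _), hlog]
    have := congrArg (MvPowerSeries.subst fun i : Fin 2 =>
      (MvPowerSeries.C c * MvPowerSeries.X i : MvPowerSeries (Fin 2) ℂ)) hlog
    rw [subst_add hg', PowerSeries.subst, PowerSeries.subst, PowerSeries.subst,
      subst_comp_subst_apply
        (PowerSeries.HasSubst.of_constantCoeff_zero (FormalGroup.zero_constantCoeff _)).const hg',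
      subst_comp_subst_apply
        (PowerSeries.HasSubst.of_constantCoeff_zero (constantCoeff_X _)).const hg',
      subst_comp_subst_apply
        (PowerSeries.HasSubst.of_constantCoeff_zero (constantCoeff_X _)).const hg',
      subst_X hg', subst_X hg', ← PowerSeries.subst, ← PowerSeries.subst, ← PowerSeries.subst] at this
    rw [this, hs (constantCoeff_X _), hs (constantCoeff_X _), mul_add]
  have heq := subst_injective (constantCoeff_pLog _)
    (isUnit_coeff_one_pLog _)
    (constantCoeff_subst_eq_zero hg' hg (FormalGroup.zero_constantCoeff _))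
    (by simp [F, FormalGroup.zero_constantCoeff]) hFF
  have hco := congrArg (coeff d) heq
  rw [coeff_subst_scale, coeff_C_mul] at hco
  have hne : coeff d F ≠ 0 := by
    rw [show F = ((honda p n ℤ).map (Int.castRingHom ℂ)).toPowerSeries by rw [honda_mapRing],
      FormalGroup.map_toPowerSeries, coeff_map]
    simpa using hd
  have hpow : c ^ deg d = c ^ 1 := by
    rw [pow_one]
    exact mul_right_cancel₀ hne hco
  obtain ⟨m, hm⟩ : ∃ m, deg d = m + 1 := ⟨deg d - 1, by omega⟩
  rw [hm, pow_succ, pow_one, mul_eq_right₀ hc0] at hpow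
  obtain ⟨e, he⟩ := (hc.pow_eq_one_iff_dvd _).mp hpow
  exact ⟨e, by rw [hm, he, mul_comm]; omega⟩

/-- `z ↦ c z` is an endomorphism of the Honda law when `c ^ (p^n) = c`. -/
lemma isEndo_scale {n : ℕ} (hn : 1 ≤ n) {A : Type*} [CommRing A] {c : A} (hc : c ^ p ^ n = c) :
    IsEndo (honda p n A) (PowerSeries.C c * PowerSeries.X) := by
  refine ⟨by simp, ?_⟩
  have hX : ∀ {a : MvPowerSeries (Fin 2) A}, constantCoeff a = 0 →
      (PowerSeries.C c * PowerSeries.X : PowerSeries A).subst a = MvPowerSeries.C c * a := by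
    intro a ha
    have ha' := PowerSeries.HasSubst.of_constantCoeff_zero ha
    rw [PowerSeries.subst_mul ha', PowerSeries.subst_C, PowerSeries.subst_X ha']
  rw [hX (FormalGroup.zero_constantCoeff _), hX (constantCoeff_X _), hX (constantCoeff_X _), fadd]
  have hfun : (![MvPowerSeries.C c * (x0 : MvPowerSeries (Fin 2) A),
      MvPowerSeries.C c * x1] : Fin 2 → MvPowerSeries (Fin 2) A) =
      fun i => MvPowerSeries.C c * MvPowerSeries.X i := by
    funext i
    fin_cases i <;> rfl
  rw [hfun]
  ext d
  rw [coeff_C_mul, coeff_subst_scale]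
  by_cases hd : coeff d (honda p n ℤ).toPowerSeries = 0
  · have : coeff d (honda p n A).toPowerSeries = 0 := by
      rw [← honda_mapRing p n (Int.castRingHom A), FormalGroup.map_toPowerSeries, coeff_map, hd,
        map_zero]
    rw [this, mul_zero, mul_zero]
  · obtain ⟨e, he⟩ := honda_int_homogeneous n hn d hd
    have hq : 1 < p ^ n := Nat.one_lt_pow (by omega) hp.out.one_lt
    have key : ∀ e, c ^ (1 + e * (p ^ n - 1)) = c := by
      intro e
      induction e with
      | zero => simp
      | succ e ih =>
        rw [Nat.succ_mul, ← add_assoc, pow_add, ih, ← pow_succ',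
          show p ^ n - 1 + 1 = p ^ n by omega, hc]
    rw [he, key e]

/-- Monomial endomorphisms of the Honda law in characteristic `p`. -/
lemma isEndo_monomial {n : ℕ} (hn : 1 ≤ n) {A : Type} [CommRing A] [CharP A p] {c : A}
    (hc : c ^ p ^ n = c) (t : ℕ) :
    IsEndo (honda p n A) (PowerSeries.C c * PowerSeries.X ^ p ^ t) := by
  have hfix : ∀ d, coeff d (honda p n A).toPowerSeries ^ p = coeff d (honda p n A).toPowerSeries :=
    fun d => by
      rw [← honda_mapRing p n (ZMod.castHom dvd_rfl A), FormalGroup.map_toPowerSeries, coeff_map,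
        ← map_pow, ZMod.pow_card]
  have h := IsHom.comp (IsHom.pow_prime_pow (p := p) (honda p n A) hfix t) (isEndo_scale hn hc)
  have hs : PowerSeries.HasSubst ((PowerSeries.X : PowerSeries A) ^ p ^ t) :=
    PowerSeries.HasSubst.of_constantCoeff_zero'
      (by rw [map_pow, PowerSeries.constantCoeff_X, zero_pow (pow_ne_zero _ hp.out.ne_zero)])
  rwa [PowerSeries.subst_mul hs, PowerSeries.subst_C, PowerSeries.subst_X hs] at h

end Vale.Agent.P217

end
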