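import Mathlib.RingTheory.MvPowerSeries.Derivative
import Mathlib.RingTheory.MvPowerSeries.Expand
import Mathlib.RingTheory.MvPowerSeries.Order
import Mathlib.RingTheory.MvPowerSeries.Inverse
import Mathlib.RingTheory.Ideal.Operations
import Mathlib.FieldTheory.Perfect
import Mathlib.FieldTheory.Finite.Basic

/-!
# P217, part B: Cartier descent

A radical ideal of a power series ring over a perfect field of characteristic `p` that is stable
under all partial derivatives is trivial.
-/

namespace Vale.Agent.P217.Cartier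

open MvPowerSeries Finsupp

variable {σ : Type*} {k : Type*} [Field k] {p : ℕ} [Fact p.Prime] [CharP k p]

/-- The coefficient of `(x_i ∂_i)^m f` is multiplied by the `m`-th power of the exponent. -/
lemma coeff_euler_pow (i : σ) (m : ℕ) (f : MvPowerSeries σ k) (d : σ →₀ ℕ) :
    coeff d ((fun g => X i * pderiv k i g)^[m] f) = (d i : k) ^ m * coeff d f := by
  classical
  induction m with
  | zero => simp
  | succ m ih =>
    rw [Function.iterate_succ_apply']
    simp only [X_def] at ih ⊢
    rw [coeff_monomial_mul]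
    split_ifs with h
    · have hi : 1 ≤ d i := by simpa using h i
      have e : d - single i 1 + single i 1 = d := tsub_add_cancel_of_le h
      have e2 : (((d - single i 1 : σ →₀ ℕ) i : ℕ) : k) + 1 = (d i : k) := by
        rw [Finsupp.tsub_apply, Finsupp.single_eq_same, Nat.cast_sub hi, Nat.cast_one,
          sub_add_cancel]
      rw [coeff_pderiv, e, ih, e2, pow_succ]
      ring
    · have hi : d i = 0 := by
        by_contra hne
        exact h (Finsupp.single_le_iff.2 (Nat.one_le_iff_ne_zero.2 hne))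
      rw [hi]; simp

/-- `1 - (x_i ∂_i)^(p-1)`. -/
noncomputable def proj (p : ℕ) (i : σ) (f : MvPowerSeries σ k) : MvPowerSeries σ k :=
  f - (fun g => X i * pderiv k i g)^[p - 1] f

lemma coeff_proj (i : σ) (f : MvPowerSeries σ k) (d : σ →₀ ℕ) :
    coeff d (proj p i f) = if p ∣ d i then coeff d f else 0 := by
  have hp : p.Prime := Fact.out
  rw [proj, map_sub, coeff_euler_pow]
  split_ifs with h
  · rw [(CharP.cast_eq_zero_iff k p _).2 h, zero_pow (by have := hp.two_le; omega), zero_mul,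
      sub_zero]
  · have h' : ((d i : ZMod p)) ≠ 0 := by
      rwa [Ne, CharP.cast_eq_zero_iff (ZMod p) p]
    have h1 : (d i : k) ^ (p - 1) = 1 := by
      have := congrArg (ZMod.castHom dvd_rfl k) (ZMod.pow_card_sub_one_eq_one h')
      rwa [map_pow, map_natCast, map_one] at this
    rw [h1, one_mul, sub_self]

omit [Fact p.Prime] [CharP k p] in
lemma proj_mem {I : Ideal (MvPowerSeries σ k)} (hI : ∀ i, ∀ f ∈ I, pderiv k i f ∈ I) (i : σ)
    {f : MvPowerSeries σ k} (hf : f ∈ I) : proj p i f ∈ I := by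
  refine I.sub_mem hf ?_
  induction (p - 1) with
  | zero => exact hf
  | succ m ih =>
    rw [Function.iterate_succ_apply']
    exact I.mul_mem_left _ (hI i _ ih)

lemma exists_mem_proj_all [DecidableEq σ] {I : Ideal (MvPowerSeries σ k)}
    (hI : ∀ i, ∀ f ∈ I, pderiv k i f ∈ I) {f : MvPowerSeries σ k} (hf : f ∈ I) (s : Finset σ) :
    ∃ g ∈ I, ∀ d, coeff d g = if ∀ i ∈ s, p ∣ d i then coeff d f else 0 := by
  induction s using Finset.induction with
  | empty => exact ⟨f, hf, fun d => by simp⟩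
  | insert a s _ ih =>
    obtain ⟨g, hg, hgd⟩ := ih
    refine ⟨proj p a g, proj_mem hI a hg, fun d => ?_⟩
    rw [coeff_proj, hgd d]
    by_cases h : p ∣ d a <;> simp [h]

/-- A series supported on exponents divisible by `p` is a `p`-th power. -/
lemma exists_pow_eq [PerfectRing k p] [Finite σ] (g : MvPowerSeries σ k)
    (hg : ∀ d, (∃ i, ¬ p ∣ d i) → coeff d g = 0) :
    ∃ h : MvPowerSeries σ k, h ^ p = g ∧
      ∀ d, coeff d h = (frobeniusEquiv k p).symm (coeff (p • d) g) := by
  have hp : p.Prime := Fact.out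
  let φ : MvPowerSeries σ k := fun d => (frobeniusEquiv k p).symm (coeff (p • d) g)
  refine ⟨φ, ?_, fun d => rfl⟩
  rw [← map_frobenius_expand p hp.ne_zero]
  ext d
  rw [coeff_map]
  by_cases h : ∀ i, p ∣ d i
  · obtain ⟨m, rfl⟩ : ∃ m, p • m = d :=
      ⟨d.mapRange (· / p) (Nat.zero_div p),
        Finsupp.ext fun i => by simp [Nat.mul_div_cancel' (h i)]⟩
    rw [coeff_expand_smul p hp.ne_zero, coeff_apply φ m]
    exact frobenius_apply_frobeniusEquiv_symm k p _
  · obtain ⟨i, hi⟩ := not_forall.1 h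
    rw [coeff_expand_of_not_dvd p hp.ne_zero _ hi, map_zero, hg d ⟨i, hi⟩]

/-- Cartier descent. -/
theorem eq_bot_or_eq_top [PerfectRing k p] [Finite σ] {I : Ideal (MvPowerSeries σ k)}
    (hrad : I.IsRadical) (hI : ∀ i, ∀ f ∈ I, pderiv k i f ∈ I) : I = ⊥ ∨ I = ⊤ := by
  classical
  have : Fintype σ := Fintype.ofFinite σ
  have hp : p.Prime := Fact.out
  by_contra hcon
  obtain ⟨hbot, htop⟩ := not_or.1 hcon
  obtain ⟨f₀, hf₀, hne⟩ := I.ne_bot_iff.1 hbot
  obtain ⟨d₀, hd₀⟩ := (ne_zero_iff_exists_coeff_ne_zero f₀).1 hne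
  have hex : ∃ m, ∃ f ∈ I, ∃ d, Finsupp.degree d = m ∧ coeff d f ≠ 0 :=
    ⟨_, f₀, hf₀, d₀, rfl, hd₀⟩
  obtain ⟨f, hf, d, hdm, hd⟩ := Nat.find_spec hex
  have hmin : ∀ g ∈ I, ∀ e, Finsupp.degree e < Nat.find hex → coeff e g = 0 := fun g hg e he => by
    by_contra h
    exact Nat.find_min hex he ⟨g, hg, e, rfl, h⟩
  have hpos : 0 < Finsupp.degree d := by
    rw [pos_iff_ne_zero]
    intro h
    rw [(Finsupp.degree_eq_zero_iff d).1 h, coeff_zero_eq_constantCoeff_apply] at hd
    exact htop (I.eq_top_of_isUnit_mem hf (isUnit_iff_constantCoeff.2 hd.isUnit))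
  have hdvd : ∀ i, p ∣ d i := by
    intro i
    by_contra h
    have hi : 1 ≤ d i := Nat.one_le_iff_ne_zero.2 fun e => h (e ▸ dvd_zero p)
    have e : d - single i 1 + single i 1 = d := tsub_add_cancel_of_le (Finsupp.single_le_iff.2 hi)
    have hdeg : Finsupp.degree (d - single i 1) < Nat.find hex := by
      have := congrArg Finsupp.degree e
      rw [map_add, Finsupp.degree_single] at this
      omega
    have h0 := hmin _ (hI i f hf) _ hdeg
    rw [coeff_pderiv, e] at h0
    refine (mul_ne_zero hd ?_) h0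
    rw [Finsupp.tsub_apply, Finsupp.single_eq_same, Nat.cast_sub hi, Nat.cast_one, sub_add_cancel,
      Ne, CharP.cast_eq_zero_iff k p]
    exact h
  obtain ⟨g, hg, hgd⟩ := exists_mem_proj_all hI hf Finset.univ
  obtain ⟨h, hh, hhd⟩ := exists_pow_eq g fun e ⟨i, hi⟩ => by
    rw [hgd e, if_neg fun he => hi (he i (Finset.mem_univ i))]
  have hhI : h ∈ I := hrad ⟨p, hh ▸ hg⟩
  obtain ⟨m, hm⟩ : ∃ m, p • m = d :=
    ⟨d.mapRange (· / p) (Nat.zero_div p),
      Finsupp.ext fun i => by simp [Nat.mul_div_cancel' (hdvd i)]⟩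
  have hlt : Finsupp.degree m < Nat.find hex := by
    have h1 := congrArg Finsupp.degree hm
    rw [map_nsmul, smul_eq_mul] at h1
    have h2 : 2 * Finsupp.degree m ≤ p * Finsupp.degree m := Nat.mul_le_mul_right _ hp.two_le
    omega
  have hz := hmin h hhI m hlt
  rw [hhd, hm, hgd d, if_pos fun i _ => hdvd i, map_eq_zero_iff _ (RingEquiv.injective _)] at hz
  exact hd hz

end Vale.Agent.P217.Cartier
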