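import Vale.Agent.P217.Targets
import Vale.Agent.P217.HeightIdeal
import Vale.Agent.P217.Cartier
import Mathlib.FieldTheory.Finite.Basic
import Mathlib.RingTheory.WittVector.Domain
import Mathlib.FieldTheory.IsAlgClosed.Basic

/-!
# P217: the answer to Q1, assembled from the module targets
-/

noncomputable section

namespace Vale.Agent.P217

open MvPowerSeries

section Embedding

variable {p : ℕ} [Fact p.Prime] {k : Type} [Field k] [CharP k p] [Fintype k]

lemma exists_embedding (C : Type) [Field C] [CharP C p] [IsAlgClosed C] :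
    Nonempty (k →+* C) := by
  letI := ZMod.algebra k p
  letI := ZMod.algebra C p
  exact ⟨(IsAlgClosed.lift (R := ZMod p) (S := k) (M := C)).toRingHom⟩

lemma norm_embedding_le {C : Type} [NormedField C] (j : k →+* C) (a : k) : ‖j a‖ ≤ 1 := by
  have h := congrArg (fun x => ‖j x‖) (FiniteField.pow_card a)
  simp only [map_pow, norm_pow] at h
  by_contra hc
  have := pow_lt_pow_right₀ (not_le.mp hc) (Fintype.one_lt_card : 1 < Fintype.card k)
  rw [h, pow_one] at this
  exact lt_irrefl _ this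

end Embedding

section Formal

variable {p : ℕ} [Fact p.Prime] {n : ℕ} {k : Type} [Field k] [CharP k p]

lemma exists_log (hLaw : LawTarget) [PerfectRing k p] :
    ∃ f, IsHazewinkelLog p n k f ∧ HasLog ((univLaw p n k).map (toFrac p n k)) f := by
  set K := MvPowerSeries (Fin (n - 1)) (FractionRing (WittVector p k))
  set v : ℕ → K := vTuple n fun j : Fin (n - 1) => MvPowerSeries.X j with hv
  have hp : (p : FractionRing (WittVector p k)) ≠ 0 := by
    rw [← map_natCast (algebraMap (WittVector p k) (FractionRing (WittVector p k))),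
      map_ne_zero_iff _ (IsFractionRing.injective _ _)]
    exact WittVector.p_nonzero p k
  have hu : IsUnit (p : K) := by
    rw [← map_natCast (MvPowerSeries.C (σ := Fin (n - 1)) (R := FractionRing (WittVector p k)))]
    exact (isUnit_iff_ne_zero.mpr hp).map _
  have hlaw : (univLaw p n k).map (toFrac p n k) = law p v := by
    rw [univLaw, law_map]
    congr 1
    funext i
    rw [map_vTuple, hv]
    congr 1
    funext j
    simp [toFrac]
  refine ⟨pLog p v, ⟨fun J => L p v J * Ring.inverse (p : K) ^ J, ?_, ?_, ?_, ?_⟩,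
    hlaw ▸ (hLaw p).2 K v hu⟩
  · simp [L]
  · intro J hJ
    obtain ⟨J, rfl⟩ : ∃ J', J = J' + 1 := ⟨J - 1, by omega⟩
    have hsum : ∑ i ∈ Finset.Icc 1 (J + 1), v i ^ p ^ (J + 1 - i) *
        (L p v (J + 1 - i) * Ring.inverse (p : K) ^ (J + 1 - i)) =
        ∑ i : Fin (J + 1), v (i + 1) ^ p ^ (J - i) *
          (L p v (J - i) * Ring.inverse (p : K) ^ (J - i)) := by
      rw [← Finset.Ico_succ_right_eq_Icc, Finset.sum_Ico_eq_sum_range, ← Fin.sum_univ_eq_sum_range]
      exact Finset.sum_congr (by rfl) fun i _ => by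
        rw [add_comm 1 (i : ℕ), Nat.add_sub_add_right]
    rw [hsum]
    dsimp only
    rw [L.eq_2, Finset.sum_mul, Finset.mul_sum]
    refine Finset.sum_congr rfl fun i _ => ?_
    have h1 : (p : K) * Ring.inverse (p : K) = 1 := Ring.mul_inverse_cancel _ hu
    have h2 : (p : K) ^ ((i : ℕ) + 1) * Ring.inverse (p : K) ^ ((i : ℕ) + 1) = 1 := by
      rw [← mul_pow, h1, one_pow]
    calc (p : K) * (v (i + 1) ^ p ^ (J - i) * (p : K) ^ (i : ℕ) * L p v (J - i) *
          Ring.inverse (p : K) ^ (J + 1))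
        = v (i + 1) ^ p ^ (J - i) * (L p v (J - i) * Ring.inverse (p : K) ^ (J - i)) *
          ((p : K) ^ ((i : ℕ) + 1) * Ring.inverse (p : K) ^ ((i : ℕ) + 1)) := by
          have he : Ring.inverse (p : K) ^ (J + 1) =
              Ring.inverse (p : K) ^ (J - i) * Ring.inverse (p : K) ^ ((i : ℕ) + 1) := by
            rw [← pow_add]; congr 1; omega
          rw [he, pow_succ' (p : K)]
          ring
      _ = _ := by rw [h2, mul_one]
  · intro J
    rw [pLog, PowerSeries.coeff_mk, Nat.log_pow (Fact.out : p.Prime).one_lt, if_pos rfl]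
  · intro m hm
    rw [pLog, PowerSeries.coeff_mk, if_neg (hm _)]

lemma honda_coeff_fixed (d : Fin 2 →₀ ℕ) :
    coeff d (honda p n k).toPowerSeries ^ p = coeff d (honda p n k).toPowerSeries := by
  have h : (honda p n k).toPowerSeries =
      MvPowerSeries.map (ZMod.castHom dvd_rfl k) (honda p n (ZMod p)).toPowerSeries := by
    have e : honda p n k = (honda p n (ZMod p)).map (ZMod.castHom dvd_rfl k) := by
      rw [honda, honda, law_map]
      congr 1
      funext i
      unfold vHonda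
      split_ifs <;> simp
    rw [e]
    rfl
  rw [h, coeff_map, ← map_pow, ZMod.pow_card]

end Formal

section Converse

variable {p : ℕ} [Fact p.Prime] {n : ℕ} {k : Type} [Field k] [CharP k p] [Fintype k]

lemma top_or_max {I : Ideal (LT p n k)} (hn : 1 ≤ n) (hI : hIdeal p n k n ≤ I) :
    I = hIdeal p n k n ∨ I = ⊤ := by
  by_cases h : I ≤ hIdeal p n k n
  · exact Or.inl (le_antisymm h hI)
  · right
    obtain ⟨f, hf, hf'⟩ := SetLike.not_le_iff_exists.mp h
    rw [mem_hIdeal_iff p n k hn] at hf'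
    have : IsEmpty (Up n n) := ⟨fun i => absurd i.2 (by omega)⟩
    have hu : IsUnit (proj p n k n f) := by
      rw [MvPowerSeries.isUnit_iff_constantCoeff, isUnit_iff_ne_zero]
      intro hc
      refine hf' (MvPowerSeries.ext fun d => ?_)
      rw [Subsingleton.elim d 0, coeff_zero_eq_constantCoeff_apply, hc, map_zero]
    obtain ⟨g, hg⟩ := proj_surjective p n k n (↑hu.unit⁻¹)
    have h1 : f * g - 1 ∈ hIdeal p n k n := by
      rw [mem_hIdeal_iff p n k hn, map_sub, map_mul, map_one, hg, IsUnit.mul_val_inv, sub_self]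
    rw [Ideal.eq_top_iff_one]
    have := I.sub_mem (I.mul_mem_right g hf) (hI h1)
    simpa using this

lemma converse_zero (hT : TiltTarget) (hP0 : Point0Target) (hC : CharZeroTarget) (hn : 1 ≤ n)
    (hk : Fintype.card k = p ^ n) {I : Ideal (LT p n k)} (hI : I.IsRadical)
    (hinv : IsInv p n k I) (hpI : (p : LT p n k) ∉ I) : I = hIdeal p n k 0 := by
  obtain ⟨T⟩ := hT p
  letI := T.nf
  letI := T.ult
  letI := T.charP
  letI := T.closed
  obtain ⟨j₀⟩ := exists_embedding (p := p) (k := k) T.C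
  set j : k →+* unitBall T.C := j₀.codRestrict _ (fun a => norm_embedding_le j₀ a)
  obtain ⟨x, hx, hJ⟩ := hP0 p n k (T.S.θ.comp (WittVector.map j)) (fun a => T.S.θ_le _) I
    (by rwa [hI.radical])
  rw [hIdeal, if_pos rfl, eq_bot_iff]
  intro f hf
  rw [Ideal.mem_bot]
  exact hC p k T n hn hk j x hx f fun g γ φ hg hγ => hJ _ (hinv g 0 γ φ hg hγ f hf)

lemma evK_mul (hE : EvalTarget) {A : Type} [CommRing A] {C : Type} [NormedField C]
    [IsUltrametricDist C] [CompleteSpace C] {σ : Type} [Fintype σ] {ι : A →+* C}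
    (hι : ∀ a, ‖ι a‖ ≤ 1) {x : σ → C} (hx : Small x) (f g : MvPowerSeries σ A) :
    evK ι x (f * g) = evK ι x f * evK ι x g := by
  have h : ∀ f : MvPowerSeries σ A, IntSer (MvPowerSeries.map ι f) := fun f d => by
    rw [coeff_map]; exact hι _
  rw [evK, map_mul]
  exact ((hE C).1 σ x _ _ hx (h f) (h g)).2.2.2.2.1

lemma evK_X (hE : EvalTarget) {A : Type} [CommRing A] {C : Type} [NormedField C]
    [IsUltrametricDist C] [CompleteSpace C] {σ : Type} [Fintype σ] {ι : A →+* C} {x : σ → C}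
    (hx : Small x) (i : σ) : evK ι x (MvPowerSeries.X i) = x i := by
  rw [evK, map_X]
  exact ((hE C).2.1 σ x 0 i hx).2

/-- The colon ideal of `I` by `u`. -/
def colonBy {R : Type*} [CommRing R] (I : Ideal R) (u : R) : Ideal R :=
  Submodule.comap (LinearMap.mulLeft R u) I

lemma mem_colonBy {R : Type*} [CommRing R] (I : Ideal R) (u x : R) :
    x ∈ colonBy I u ↔ u * x ∈ I := Iff.rfl

/-- `u_h`. -/
def uVar (h : ℕ) (hlt : h < n) (h1 : 1 ≤ h) : LT p n k :=
  MvPowerSeries.X ⟨h - 1, by omega⟩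

lemma mem_hIdeal_X {h : ℕ} {i : Fin (n - 1)} (hi : (i : ℕ) + 1 < h) :
    (MvPowerSeries.X i : LT p n k) ∈ hIdeal p n k h := by
  rw [hIdeal, if_neg (by omega)]
  exact Ideal.subset_span (Set.mem_insert_of_mem _ ⟨i, hi, rfl⟩)

omit [Fintype k] in
lemma mem_hIdeal_p {h : ℕ} (h1 : 1 ≤ h) : (p : LT p n k) ∈ hIdeal p n k h := by
  rw [hIdeal, if_neg (by omega)]
  exact Ideal.subset_span (Set.mem_insert _ _)

lemma colonBy_inv (hA : ActionTarget) (hn : 1 ≤ n) (hk : Fintype.card k = p ^ n)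
    {I : Ideal (LT p n k)} (hinv : IsInv p n k I) {h : ℕ} (h1 : 1 ≤ h) (hlt : h < n)
    (hle : hIdeal p n k h ≤ I) : IsInv p n k (colonBy I (uVar h hlt h1)) := by
  intro g r γ φ hg hγ x hx
  obtain ⟨-, -, hXi, -⟩ := (hA p n hn k hk).2.1 g r γ φ hg hγ
  obtain ⟨c, hc, hcX⟩ := hXi ⟨h - 1, by omega⟩
  rw [show (h - 1) + 1 = h by omega] at hcX
  rw [mem_colonBy] at hx ⊢
  have h2 : γ (uVar h hlt h1 * x) ∈ I := hinv g r γ φ hg hγ _ hx
  rw [map_mul, ← sub_add_cancel (γ (uVar h hlt h1)) (c * uVar h hlt h1), add_mul] at h2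
  have h3 : c * uVar h hlt h1 * γ x ∈ I :=
    (I.add_mem_iff_right (I.mul_mem_right _ (hle hcX))).mp h2
  rw [mul_assoc] at h3
  exact (I.unit_mul_mem_iff_mem hc).mp h3

lemma grad_point (hE : EvalTarget) (hG : GradTarget) (hk : Fintype.card k = p ^ n)
    (T : TiltField p) {I' : Ideal (LT p n k)} (hinv' : IsInv p n k I') {h : ℕ} (h1 : 1 ≤ h)
    (hlt : h < n) (hle : hIdeal p n k h ≤ I') {f : LT p n k} (hf : f ∈ I') {i : Fin (n - 1)}
    (hi : h ≤ (i : ℕ) + 1) :
    letI := T.nf; letI := T.ult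
    ∀ (j : k →+* T.C) (x : Fin (n - 1) → T.C), Small x →
      (∀ g ∈ I', evK (j.comp WittVector.constantCoeff) x g = 0) →
      evK (j.comp WittVector.constantCoeff) x
        (uVar h hlt h1 * pderiv (WittVector p k) i f) = 0 := by
  let := T.nf
  let := T.ult
  have := T.complete
  intro j x hx hJ
  have hι : ∀ a : WittVector p k, ‖(j.comp WittVector.constantCoeff) a‖ ≤ 1 :=
    fun a => norm_embedding_le j _
  rw [evK_mul hE hι hx, uVar, evK_X hE hx]
  by_cases hu : x ⟨h - 1, by omega⟩ = 0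
  · rw [hu, zero_mul]
  have hpt : HPoint n h x :=
    { small := hx
      one_le := h1
      lt := hlt
      low := fun l hl => by
        have h0 := hJ _ (hle (mem_hIdeal_X hl))
        rwa [evK_X hE hx] at h0
      ne := hu }
  exact mul_eq_zero_of_right _
    (hG p k T n h hk j x hpt f (fun g γ φ hg hγ => hJ _ (hinv' g 0 γ φ hg hγ f hf)) i hi)

lemma colonBy_pderiv (hE : EvalTarget) (hT : TiltTarget) (hP : PointPTarget) (hG : GradTarget)
    (hk : Fintype.card k = p ^ n) {I : Ideal (LT p n k)} (hI : I.IsRadical) {h : ℕ} (h1 : 1 ≤ h)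
    (hlt : h < n) (hle : hIdeal p n k h ≤ I)
    (hinv' : IsInv p n k (colonBy I (uVar h hlt h1))) {f : LT p n k}
    (hf : f ∈ colonBy I (uVar h hlt h1)) {i : Fin (n - 1)} (hi : h ≤ (i : ℕ) + 1) :
    pderiv (WittVector p k) i f ∈ colonBy I (uVar h hlt h1) := by
  set u := uVar (p := p) (n := n) (k := k) h hlt h1
  set a := pderiv (WittVector p k) i f
  have hle' : hIdeal p n k h ≤ colonBy I u := fun x hx => I.mul_mem_left u (hle hx)
  suffices hh : u * a ∈ (colonBy I u).radical by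
    obtain ⟨m, hm⟩ := hh
    rw [mem_colonBy] at hm ⊢
    refine hI ⟨m + 1, ?_⟩
    rw [show (u * a) ^ (m + 1) = a * (u * (u * a) ^ m) by ring]
    exact I.mul_mem_left _ hm
  by_contra hcon
  obtain ⟨T⟩ := hT p
  let := T.nf
  let := T.ult
  have := T.complete
  have := T.charP
  have := T.closed
  obtain ⟨j⟩ := exists_embedding (p := p) (k := k) T.C
  obtain ⟨x, hx, hJ, hne⟩ := hP p n k T.C j (colonBy I u) (u * a) (hle' (mem_hIdeal_p h1)) hcon
  exact hne (grad_point hE hG hk T hinv' h1 hlt hle' hf hi j x hx hJ)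

/-- The part of height `≥ h`: a stable radical ideal containing `I_h` but not `u_h` equals `I_h`. -/
lemma converse_step (hE : EvalTarget) (hT : TiltTarget) (hP : PointPTarget) (hA : ActionTarget)
    (hG : GradTarget) (hn : 1 ≤ n) (hk : Fintype.card k = p ^ n) {I : Ideal (LT p n k)}
    (hI : I.IsRadical) (hinv : IsInv p n k I) {h : ℕ} (h1 : 1 ≤ h) (hlt : h < n)
    (hle : hIdeal p n k h ≤ I) (hu : uVar h hlt h1 ∉ I) : I = hIdeal p n k h := by
  set u := uVar (p := p) (n := n) (k := k) h hlt h1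
  have hII' : I ≤ colonBy I u := fun x hx => I.mul_mem_left u hx
  have hrad : (colonBy I u).IsRadical := by
    rintro x ⟨m, hm⟩
    rw [mem_colonBy] at hm ⊢
    refine hI ⟨m + 1, ?_⟩
    rw [show (u * x) ^ (m + 1) = (u ^ m * x) * (u * x ^ m) by ring]
    exact I.mul_mem_left _ hm
  have hinv' := colonBy_inv hA hn hk hinv h1 hlt hle
  have hsurj := proj_surjective p n k h
  have hker : RingHom.ker (proj p n k h) ≤ colonBy I u := fun x hx =>
    hII' (hle ((mem_hIdeal_iff p n k h1 x).mpr hx))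
  have hmem : ∀ x, proj p n k h x ∈ (colonBy I u).map (proj p n k h) → x ∈ colonBy I u :=
    fun x hx => by
      obtain ⟨y, hy, hxy⟩ := (Ideal.mem_map_iff_of_surjective _ hsurj).mp hx
      have : x - y ∈ RingHom.ker (proj p n k h) := by
        rw [RingHom.mem_ker, map_sub, hxy, sub_self]
      simpa using (colonBy I u).add_mem (hker this) hy
  have hJrad : ((colonBy I u).map (proj p n k h)).IsRadical := by
    rintro y ⟨m, hm⟩
    obtain ⟨x, rfl⟩ := hsurj y
    exact Ideal.mem_map_of_mem _ (hrad ⟨m, hmem _ (by rwa [map_pow])⟩)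
  have hJder : ∀ i, ∀ y ∈ (colonBy I u).map (proj p n k h),
      pderiv k i y ∈ (colonBy I u).map (proj p n k h) := by
    intro i y hy
    obtain ⟨x, rfl⟩ := hsurj y
    rw [← proj_pderiv]
    exact Ideal.mem_map_of_mem _
      (colonBy_pderiv hE hT hP hG hk hI h1 hlt hle hinv' (hmem x hy) i.2)
  rcases Cartier.eq_bot_or_eq_top (p := p) hJrad hJder with hb | ht
  · refine le_antisymm (fun x hx => (mem_hIdeal_iff p n k h1 x).mpr ?_) hle
    have : proj p n k h x ∈ (colonBy I u).map (proj p n k h) := Ideal.mem_map_of_mem _ (hII' hx)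
    rwa [hb, Ideal.mem_bot] at this
  · have : u * 1 ∈ I := hmem 1 (by rw [map_one, ← Ideal.eq_top_iff_one]; exact ht)
    rw [mul_one] at this
    exact absurd this hu

lemma converse (hE : EvalTarget) (hT : TiltTarget) (hP : PointPTarget) (hP0 : Point0Target)
    (hA : ActionTarget) (hG : GradTarget) (hC : CharZeroTarget) (hn : 1 ≤ n)
    (hk : Fintype.card k = p ^ n) {I : Ideal (LT p n k)} (hI : I.IsRadical)
    (hinv : IsInv p n k I) : (∃ h ≤ n, I = hIdeal p n k h) ∨ I = ⊤ := by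
  classical
  by_cases hpI : (p : LT p n k) ∈ I
  swap
  · exact Or.inl ⟨0, Nat.zero_le n, converse_zero hT hP0 hC hn hk hI hinv hpI⟩
  let P : ℕ → Prop := fun h => hIdeal p n k h ≤ I
  have hP1 : P 1 := by
    show hIdeal p n k 1 ≤ I
    rw [hIdeal, if_neg one_ne_zero, Ideal.span_le]
    rintro x (rfl | ⟨i, hi, rfl⟩)
    · exact hpI
    · have : (i : ℕ) + 1 < 1 := hi
      omega
  have hle : hIdeal p n k (Nat.findGreatest P n) ≤ I := Nat.findGreatest_spec hn hP1
  have h1 : 1 ≤ Nat.findGreatest P n := Nat.le_findGreatest hn hP1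
  rcases (Nat.findGreatest_le (P := P) n).eq_or_lt with he | hlt
  · rw [he] at hle
    exact (top_or_max hn hle).imp (fun e => ⟨n, le_rfl, e⟩) id
  refine Or.inl ⟨_, hlt.le, converse_step hE hT hP hA hG hn hk hI hinv h1 hlt hle ?_⟩
  intro hu
  have hnot := Nat.findGreatest_is_greatest (P := P) (Nat.lt_succ_self (Nat.findGreatest P n)) hlt
  apply hnot
  show hIdeal p n k _ ≤ I
  rw [hIdeal, if_neg (by omega), Ideal.span_le]
  rintro x (rfl | ⟨i, hi, rfl⟩)
  · exact hpI
  · have hi' : (i : ℕ) + 1 < Nat.findGreatest P n + 1 := hi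
    by_cases he : (i : ℕ) + 1 = Nat.findGreatest P n
    · have hi0 : i = ⟨Nat.findGreatest P n - 1, by omega⟩ := Fin.ext (by simp only; omega)
      show (MvPowerSeries.X i : LT p n k) ∈ I
      rw [hi0]
      exact hu
    · exact hle (mem_hIdeal_X (by omega))

end Converse

/-- The answer to Q1 from the module targets. -/
theorem answerFor_univLaw (hLaw : LawTarget) (hLow : LowDegreeTarget) (hE : EvalTarget)
    (hT : TiltTarget) (hP : PointPTarget) (hP0 : Point0Target) (hA : ActionTarget) (hG : GradTarget)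
    (hC : CharZeroTarget) (p : ℕ) [hpf : Fact p.Prime] (n : ℕ) (hn : 1 ≤ n) (k : Type) [Field k]
    [CharP k p] [Fintype k] (hk : Fintype.card k = p ^ n) : AnswerFor p n k (univLaw p n k) := by
  have hres := univLaw_res p n k
  have haut : ∀ g, IsFibreAut p n k (univLaw p n k) g ↔ IsAut p n k g := fun g => by
    rw [IsFibreAut, hres]; rfl
  have hacts : ∀ g r γ, ActsAs p n k (univLaw p n k) g r γ ↔ ∃ φ, IsAction p n k g r γ φ :=
    fun g r γ => ⟨fun ⟨h1, φ, h2, h3⟩ => ⟨φ, h1, h2, h3⟩, fun ⟨φ, h1, h2, h3⟩ => ⟨h1, φ, h2, h3⟩⟩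
  have hst : ∀ I, Stable p n k (univLaw p n k) I ↔ IsInv p n k I := fun I => by
    constructor
    · intro h g r γ φ hg hγ
      exact h g r γ ((haut g).mpr hg) ((hacts g r γ).mpr ⟨φ, hγ⟩)
    · intro h g r γ hg hγ
      obtain ⟨φ, hφ⟩ := (hacts g r γ).mp hγ
      exact h g r γ φ ((haut g).mp hg) hφ
  have hfix : ∀ h, h ≤ n → IsInv p n k (hIdeal p n k h) := fun h hh g r γ φ hg hγ =>
    ((hA p n hn k hk).2.1 g r γ φ hg hγ).2.1 h hh
  have hconv : ∀ I : Ideal (LT p n k), I.IsRadical → IsInv p n k I →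
      (∃ h ≤ n, I = hIdeal p n k h) ∨ I = ⊤ :=
    fun I h1 h2 => converse hE hT hP hP0 hA hG hC hn hk h1 h2
  refine ⟨exists_log hLaw, ?_, ?_, ?_, ?_, ?_, ?_, ?_⟩
  · exact (hLaw p).1 _ _
  · rw [hres]
    exact (hLow p k).2.2.2 n hn inferInstance
  · intro d
    rw [hres]
    exact honda_coeff_fixed d
  · intro g r hg
    obtain ⟨γ, hγ, huniq⟩ := (hA p n hn k hk).1 g r ((haut g).mp hg)
    exact ⟨γ, (hacts g r γ).mpr hγ, fun γ' h' => huniq γ' ((hacts g r γ').mp h')⟩
  · intro g r γ hg hγ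
    obtain ⟨φ, hφ⟩ := (hacts g r γ).mp hγ
    exact ((hA p n hn k hk).2.1 g r γ φ ((haut g).mp hg) hφ).1
  · intro I
    constructor
    · rintro ⟨hI, hs⟩
      exact (hconv I hI.isRadical ((hst I).mp hs)).resolve_right hI.ne_top
    · rintro ⟨h, hh, rfl⟩
      exact ⟨hIdeal_isPrime p n k h, (hst _).mpr (hfix h hh)⟩
  · intro I
    constructor
    · rintro ⟨hI, hs⟩
      exact hconv I hI ((hst I).mp hs)
    · rintro (⟨h, hh, rfl⟩ | rfl)
      · exact ⟨(hIdeal_isPrime p n k h).isRadical, (hst _).mpr (hfix h hh)⟩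
      · exact ⟨fun x _ => Submodule.mem_top, fun _ _ _ _ _ _ _ => Submodule.mem_top⟩

/-- The answer to Q1. -/
theorem answer_of (hLaw : LawTarget) (hLow : LowDegreeTarget) (hE : EvalTarget) (hT : TiltTarget)
    (hP : PointPTarget) (hP0 : Point0Target) (hA : ActionTarget) (hG : GradTarget)
    (hC : CharZeroTarget) : Answer := fun p _ n hn k _ _ _ hk =>
  ⟨univLaw p n k, answerFor_univLaw hLaw hLow hE hT hP hP0 hA hG hC p n hn k hk⟩

end Vale.Agent.P217

end
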