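import Vale.Agent.P217.HomPoints
import Vale.Agent.P217.Main

/-!
# P217: `GradTarget` from the orbit series, rigidity and the absence of relations
-/

noncomputable section

namespace Vale.Agent.P217

open MvPowerSeries Filter Topology

section Basic

lemma map_fadd_endo {A B : Type*} [CommRing A] [CommRing B] (f : A →+* B) (F : FormalGroup A)
    {σ : Type*} {a b : MvPowerSeries σ A} (ha : constantCoeff a = 0) (hb : constantCoeff b = 0) :
    MvPowerSeries.map f (fadd F a b) =
      fadd (F.map f) (MvPowerSeries.map f a) (MvPowerSeries.map f b) := by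
  rw [fadd, map_subst (hasSubst_pair ha hb), fadd, FormalGroup.map_toPowerSeries]
  congr 1
  funext i
  fin_cases i <;> rfl

variable (p : ℕ) [Fact p.Prime] (n : ℕ)

lemma honda_map {A B : Type*} [CommRing A] [CommRing B] (f : A →+* B) :
    (honda p n A).map f = honda p n B := by
  rw [honda, law_map, honda]
  congr 1
  funext i
  unfold vHonda
  split_ifs <;> simp

lemma honda_isComm (hLaw : LawTarget) (A : Type) [CommRing A] : (honda p n A).IsComm :=
  (hLaw p).1 A _

lemma honda_fixed (k : Type) [CommRing k] [CharP k p] (d : Fin 2 →₀ ℕ) :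
    coeff d (honda p n k).toPowerSeries ^ p = coeff d (honda p n k).toPowerSeries := by
  rw [← honda_map p n (ZMod.castHom dvd_rfl k), FormalGroup.map_toPowerSeries, coeff_map, ← map_pow,
    ZMod.pow_card]

lemma endo_pow (k : Type) [CommRing k] [CharP k p] {a : PowerSeries k}
    (ha : IsEndo (honda p n k) a) (r : ℕ) : IsEndo (honda p n k) (a ^ p ^ r) := by
  have h := IsHom.comp ha (IsHom.pow_prime_pow (p := p) (honda p n k) (honda_fixed p n k) r)
  rwa [PowerSeries.subst_pow (PowerSeries.HasSubst.of_constantCoeff_zero' ha.1),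
    PowerSeries.subst_X (PowerSeries.HasSubst.of_constantCoeff_zero' ha.1)] at h

end Basic

section Points

variable {p : ℕ} [Fact p.Prime] {k : Type} [Field k] [CharP k p] [Fintype k]
  {C : Type} [NontriviallyNormedField C] [IsUltrametricDist C] [CompleteSpace C] [CharP C p]
  [PerfectRing C p] (j : k →+* C)

/-- The action of an endomorphism of the special fibre on the universal cover. -/
def act (a : PowerSeries k) (η : C) : C := ev1 η (PowerSeries.map j a)

lemma intSer_mapj (a : PowerSeries k) : IntSer (PowerSeries.map j a : MvPowerSeries Unit C) :=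
  fun d => by
    show ‖coeff d (MvPowerSeries.map j (a : MvPowerSeries Unit k))‖ ≤ 1
    rw [coeff_map]
    exact norm_embedding_le j _

lemma const_mapj {a : PowerSeries k} (h : PowerSeries.constantCoeff a = 0) :
    PowerSeries.constantCoeff (PowerSeries.map j a) = 0 := by
  rw [← PowerSeries.coeff_zero_eq_constantCoeff_apply, PowerSeries.coeff_map,
    PowerSeries.coeff_zero_eq_constantCoeff_apply, h, map_zero]

lemma act_small (hE : EvalTarget) {n : ℕ} {a : PowerSeries k} (ha : IsEndo (honda p n k) a)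
    {η : C} (hη : ‖η‖ < 1) : ‖act j a η‖ < 1 :=
  (ev1_small hE (intSer_mapj j a) (const_mapj j ha.1) hη).trans_lt hη

lemma act_zero (η : C) : act j 0 η = 0 := by
  simp [act, ev1, ev]

lemma act_fadd (hE : EvalTarget) {n : ℕ} {a b : PowerSeries k} (ha : IsEndo (honda p n k) a)
    (hb : IsEndo (honda p n k) b) {η : C} (hη : ‖η‖ < 1) :
    act j (fadd (honda p n k) (a : MvPowerSeries Unit k) b) η =
      padd (honda p n C) (act j a η) (act j b η) := by
  show ev (fun _ : Unit => η)
    (MvPowerSeries.map j (fadd (honda p n k) (a : MvPowerSeries Unit k) b)) = _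
  rw [map_fadd_endo j _ ha.1 hb.1, honda_map]
  exact ev_fadd hE (norm_le_one_of_law p (norm_vHonda_le n)) (intSer_mapj j a)
    (const_mapj j ha.1) (intSer_mapj j b) (const_mapj j hb.1) (fun _ => hη)

lemma act_pow (hE : EvalTarget) {n : ℕ} {a : PowerSeries k} (ha : IsEndo (honda p n k) a)
    {η : C} (hη : ‖η‖ < 1) (m : ℕ) : act j (a ^ m) η = act j a η ^ m := by
  induction m with
  | zero =>
    simp only [pow_zero, act, map_one]
    show ev (fun _ : Unit => η) (1 : MvPowerSeries Unit C) = 1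
    rw [← map_one (MvPowerSeries.C : C →+* MvPowerSeries Unit C)]
    exact ((hE C).2.1 Unit (fun _ => η) 1 () fun _ => hη).1
  | succ m ih =>
    rw [pow_succ, pow_succ, ← ih]
    show ev (fun _ : Unit => η) (PowerSeries.map j (a ^ m * a)) = _
    rw [map_mul]
    exact ((hE C).1 Unit (fun _ => η) _ _ (fun _ => hη) (intSer_mapj j _)
      (intSer_mapj j a)).2.2.2.2.1

variable {n h : ℕ} {u : Fin (n - 1) → C}

lemma theta_small (hTh : ThetaTarget) (hpt : HPoint n h u) {η : C} (hη : ‖η‖ < 1) :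
    ‖thetaC p n u η‖ < 1 ∧
    (∀ η' : C, ‖η'‖ < 1 → thetaC p n u (padd (honda p n C) η η') =
      padd (law p (vTuple n u)) (thetaC p n u η) (thetaC p n u η')) ∧
    thetaC p n u (η ^ p ^ n) = pmul (law p (vTuple n u)) p (thetaC p n u η) ∧
    thetaC p n u 0 = 0 := by
  have hn : 1 ≤ n := le_trans hpt.one_le hpt.lt.le
  have hne : (Finset.univ : Finset (Fin (n - 1))).Nonempty :=
    ⟨⟨h - 1, by have := hpt.one_le; have := hpt.lt; omega⟩, Finset.mem_univ _⟩
  set c : ℝ := Finset.univ.sup' hne fun i => ‖u i‖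
  have hc : c < 1 := (Finset.sup'_lt_iff hne).mpr fun i _ => hpt.small i
  have hc0 : 0 ≤ c :=
    le_trans (norm_nonneg _) (Finset.le_sup' (fun i => ‖u i‖) (Finset.mem_univ ⟨h - 1, by
      have := hpt.one_le; have := hpt.lt; omega⟩))
  obtain ⟨h1, h2, -⟩ := hTh p C C (MonoidWithZeroHom.id C) c hc (fun _ => rfl)
    (by simpa [CharP.cast_eq_zero C p] using hc0) (fun a b _ _ => by simpa using hc0)
    n hn u (fun i => Finset.le_sup' (fun i => ‖u i‖) (Finset.mem_univ i))
  obtain ⟨-, hs, -, hp', hadd, -⟩ := h1 η hη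
  exact ⟨hs, hadd, hp', h2⟩

variable {χ : PowerSeries C}

lemma tMap_small (hE : EvalTarget) (hTh : ThetaTarget) (hpt : HPoint n h u)
    (hχ : IsChi p n h u χ) {η : C} (hη : ‖η‖ < 1) : ‖tMap p n u χ η‖ < 1 :=
  have h1 := (theta_small hTh hpt hη).1
  (ev1_small hE hχ.int hχ.hom.1 h1).trans_lt h1

lemma tMap_padd (hE : EvalTarget) (hTh : ThetaTarget) (hpt : HPoint n h u)
    (hχ : IsChi p n h u χ) {η η' : C} (hη : ‖η‖ < 1) (hη' : ‖η'‖ < 1) :
    tMap p n u χ (padd (honda p n C) η η') =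
      padd (honda p h C) (tMap p n u χ η) (tMap p n u χ η') := by
  rw [tMap, (theta_small hTh hpt hη).2.1 η' hη']
  exact hχ.hom.ev_padd hE (norm_le_one_of_law p (norm_vTuple_le fun i => (hpt.small i).le))
    (norm_le_one_of_law p (norm_vHonda_le h)) hχ.int (theta_small hTh hpt hη).1
    (theta_small hTh hpt hη').1

lemma tMap_pow (hE : EvalTarget) (hLow : LowDegreeTarget) (hTh : ThetaTarget)
    (hpt : HPoint n h u) (hχ : IsChi p n h u χ) {η : C} (hη : ‖η‖ < 1) :
    tMap p n u χ (η ^ p ^ n) = tMap p n u χ η ^ p ^ h := by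
  obtain ⟨hs, -, hpw, -⟩ := theta_small hTh hpt hη
  have hF : IntSer (law p (vTuple n u)).toPowerSeries :=
    norm_le_one_of_law p (norm_vTuple_le fun i => (hpt.small i).le)
  have hmI : ∀ m, IntSer (mulSer (law p (vTuple n u)) m : MvPowerSeries Unit C) := by
    intro m
    induction m with
    | zero => exact fun d => by simp [mulSer]
    | succ m ih => exact intSer_fadd hE hF (intSer_X _) (constantCoeff_X _) ih (mulSer_const _ m)
  have hq : mulSer (honda p h C) p = (PowerSeries.X : PowerSeries C) ^ p ^ h :=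
    (hLow p C).2.2.2 h hpt.one_le inferInstance
  have h2 := hχ.hom.subst_mulSer p
  rw [hq, PowerSeries.subst_pow (PowerSeries.HasSubst.of_constantCoeff_zero' hχ.hom.1),
    PowerSeries.subst_X (PowerSeries.HasSubst.of_constantCoeff_zero' hχ.hom.1)] at h2
  have h3 := congrArg (ev (fun _ : Unit => thetaC p n u η)) h2
  rw [ev_psSubst hE hχ.int (hmI p) (mulSer_const _ p) (fun _ => hs)] at h3
  rw [tMap, hpw]
  refine h3.trans ?_
  have hpow : ∀ m, IntSer (χ ^ m : MvPowerSeries Unit C) ∧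
      ev (fun _ : Unit => thetaC p n u η) (χ ^ m : MvPowerSeries Unit C) =
        ev1 (thetaC p n u η) χ ^ m := by
    intro m
    induction m with
    | zero =>
      refine ⟨fun d => ?_, ?_⟩
      · classical
        rw [pow_zero, MvPowerSeries.coeff_one]
        split_ifs <;> simp
      · rw [pow_zero, pow_zero, ← map_one (MvPowerSeries.C : C →+* MvPowerSeries Unit C)]
        exact ((hE C).2.1 Unit _ 1 () fun _ => hs).1
    | succ m ih =>
      obtain ⟨-, h', -, -, h'', -⟩ :=
        (hE C).1 Unit (fun _ => thetaC p n u η) (χ ^ m) χ (fun _ => hs) ih.1 hχ.int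
      refine ⟨by rw [pow_succ]; exact h', ?_⟩
      rw [pow_succ, pow_succ, h'', ih.2]
      rfl
  exact (hpow (p ^ h)).2

/-- The orbit of the Tate basis. -/
def orbitSet {d : ℕ} (ξ : Fin d → C) (χ : PowerSeries C) (u : Fin (n - 1) → C) :
    Set (Fin d → C) :=
  {z | ∃ a, IsEndo (honda p n k) a ∧ z = fun i => tMap p n u χ (act j a (ξ i))}

variable {ξ : Fin (n - h) → C}

lemma noIdeal_orbit (hE : EvalTarget) (hLaw : LawTarget) (hLow : LowDegreeTarget)
    (hTh : ThetaTarget) (hN : NoIdealTarget) [IsAlgClosed C] (hpt : HPoint n h u)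
    (hξ : IsTate p n (n - h) u ξ) (hχ : IsChi p n h u χ)
    (hrel : ∀ α : Fin (n - h) → PowerSeries C, (∀ i, IsEndo (honda p h C) (α i)) →
      (∀ a : PowerSeries k, IsEndo (honda p n k) a →
        psum (honda p h C) (fun i => ev1 (tMap p n u χ (act j a (ξ i))) (α i)) = 0) →
      ∀ i, α i = 0) :
    ∀ H : MvPowerSeries (Fin (n - h)) C, FixedCoeff (p ^ h) H →
      (∀ z ∈ orbitSet (p := p) j ξ χ u, ev z H = 0) → H = 0 := by
  refine hN p C h (n - h) hpt.one_le (orbitSet (p := p) j ξ χ u) ?_ ?_ ?_ ?_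
    (fun α hα hz => hrel α hα fun a ha => hz _ ⟨a, ha, rfl⟩)
  · rintro z ⟨a, ha, rfl⟩ i
    exact tMap_small hE hTh hpt hχ (act_small j hE ha (hξ.small i))
  · refine ⟨0, IsHom.zero _ _, funext fun i => ?_⟩
    rw [act_zero, tMap, (theta_small hTh hpt (hξ.small i)).2.2.2]
    show (0 : C) = ev1 0 χ
    exact (norm_le_zero_iff.mp ((ev1_small hE hχ.int hχ.hom.1 (by simp)).trans
      (norm_zero (E := C)).le)).symm
  · rintro z ⟨a, ha, rfl⟩ z' ⟨b, hb, rfl⟩
    refine ⟨_, IsHom.fadd (honda_isComm p n hLaw k) ha hb, funext fun i => ?_⟩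
    rw [act_fadd j hE ha hb (hξ.small i)]
    exact (tMap_padd hE hTh hpt hχ (act_small j hE ha (hξ.small i))
      (act_small j hE hb (hξ.small i))).symm
  · rintro z ⟨a, ha, rfl⟩
    refine ⟨a ^ p ^ n, endo_pow p n k ha n, funext fun i => ?_⟩
    rw [act_pow j hE ha (hξ.small i)]
    exact (tMap_pow hE hLow hTh hpt hχ (act_small j hE ha (hξ.small i))).symm

end Points

/-- `GradTarget` from the module targets. -/
theorem gradTarget (hE : EvalTarget) (hLaw : LawTarget) (hLow : LowDegreeTarget)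
    (hTh : ThetaTarget) (hTor : TorsionTarget) (hRel : RelationTarget) (hO : OrbitTarget)
    (hRig : RigidityTarget) (hN : NoIdealTarget) : GradTarget := by
  intro p _ k _ _ _ T n h hk
  let := T.nf
  let := T.ult
  have := T.complete
  have := T.charP
  have := T.perfect
  have := T.closed
  intro j u hpt f hf i hi
  obtain ⟨ξ, hξ⟩ := (hTor p T.C n h u hpt).1
  obtain ⟨χ, hχ, hrel⟩ := hRel p k T.C T.S n h hk j u hpt ξ hξ
  obtain ⟨c, hc0, hc1, hM⟩ := hO p k T.C n h hk j u hpt ξ hξ χ hχ f hf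
  have hzero := noIdeal_orbit j hE hLaw hLow hTh hN hpt hξ hχ hrel
  have hsmall : ∀ z ∈ orbitSet (p := p) j ξ χ u, Small z := by
    rintro z ⟨a, ha, rfl⟩ l
    exact tMap_small hE hTh hpt hχ (act_small j hE ha (hξ.small l))
  choose S hS ε hε0 hε1 hvan using fun l : Fin (n - h) =>
    hRig p T.C h (n - h) hpt.one_le (orbitSet (p := p) j ξ χ u) hsmall (Finsupp.single l 1)
      fun H hH hz => by rw [hzero H hH hz, map_zero]
  have hq1 : 1 < p ^ h := Nat.one_lt_pow (by have := hpt.one_le; omega) (Fact.out : p.Prime).one_lt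
  have htend : Tendsto (fun M : ℕ => c ^ (p ^ h) ^ M) atTop (𝓝 0) :=
    (tendsto_pow_atTop_nhds_zero_of_lt_one hc0.le hc1).comp (tendsto_pow_atTop_atTop_of_one_lt hq1)
  obtain ⟨M, hM1, hMε⟩ : ∃ M, 1 ≤ M ∧ ∀ l, c ^ (p ^ h) ^ M < ε l := by
    have he : ∀ᶠ M in atTop, ∀ l, c ^ (p ^ h) ^ M < ε l :=
      eventually_all.mpr fun l => htend.eventually_lt_const (hε0 l)
    obtain ⟨M, hM⟩ := ((eventually_ge_atTop 1).and he).exists
    exact ⟨M, hM.1, hM.2⟩
  obtain ⟨G, B, R, hG, hgrad, hdec⟩ := hM M hM1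
  refine hgrad (fun l => hvan l G B R hG fun z hz => ?_) i hi
  obtain ⟨a, ha, rfl⟩ := hS l hz
  obtain ⟨K, hK⟩ := hdec a ha
  set r := c ^ (p ^ h) ^ M / ε l
  have hr0 : 0 ≤ r := div_nonneg (pow_nonneg hc0.le _) (hε0 l).le
  have hr1 : r < 1 := (div_lt_one (hε0 l)).mpr (hMε l)
  have hsm : ∀ᶠ N : ℕ in atTop, K * r ^ (p ^ h) ^ N ≤ 1 := by
    have h1 : Tendsto (fun N : ℕ => K * r ^ (p ^ h) ^ N) atTop (𝓝 (K * 0)) :=
      ((tendsto_pow_atTop_nhds_zero_of_lt_one hr0 hr1).comp
        (tendsto_pow_atTop_atTop_of_one_lt hq1)).const_mul K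
    rw [mul_zero] at h1
    exact h1.eventually_le_const one_pos
  filter_upwards [hK, hsm] with N hN1 hN2
  refine hN1.trans ?_
  have hpos : 0 < ε l ^ (p ^ h) ^ N := pow_pos (hε0 l) _
  rw [show N + M = M + N by omega, pow_add, pow_mul]
  calc K * (c ^ (p ^ h) ^ M) ^ (p ^ h) ^ N
      = K * r ^ (p ^ h) ^ N * ε l ^ (p ^ h) ^ N := by
        rw [mul_assoc, ← mul_pow, div_mul_cancel₀ _ (hε0 l).ne']
    _ ≤ 1 * ε l ^ (p ^ h) ^ N := mul_le_mul_of_nonneg_right hN2 hpos.le
    _ = _ := one_mul _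

end Vale.Agent.P217

end
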