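import Vale.Agent.P217.Defs

/-!
# P217: interfaces between the modules (statements only; each is proved in its own file)
-/

noncomputable section

namespace Vale.Agent.P217

open MvPowerSeries Finset Filter Topology

universe u

/-! ## Formal inputs -/

/-- `law p v` has Hazewinkel's logarithm and is commutative. -/
def LawTarget : Prop :=
  ∀ (p : ℕ) [Fact p.Prime],
    (∀ (A : Type) [CommRing A] (v : ℕ → A), (law p v).IsComm) ∧
    (∀ (K : Type) [CommRing K] (v : ℕ → K), IsUnit (p : K) → HasLog (law p v) (pLog p v))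

/-- Low degree behaviour of `law p v` and of its `[p]`. -/
def LowDegreeTarget : Prop :=
  ∀ (p : ℕ) [Fact p.Prime] (A : Type) [CommRing A],
    (∀ (v v' : ℕ → A) (j : ℕ), 1 ≤ j → (∀ i, 1 ≤ i → i < j → v i = v' i) →
      ∀ d, deg d ≤ p ^ j →
        coeff d (law p v).toPowerSeries - coeff d (law p v').toPowerSeries =
          -(v j - v' j) * coeff d (cPoly p A j)) ∧
    (∀ (v : ℕ → A) (j : ℕ), 1 ≤ j →
      PowerSeries.coeff (p ^ j) (pSer p (law p v)) - v j ∈
        Ideal.span (insert (p : A) (v '' {i | 1 ≤ i ∧ i < j}))) ∧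
    (∀ (v : ℕ → A) (h : ℕ), CharP A p → (∀ i, 1 ≤ i → i < h → v i = 0) →
      ∀ m, ¬ p ^ h ∣ m → PowerSeries.coeff m (pSer p (law p v)) = 0) ∧
    (∀ n, 1 ≤ n → CharP A p → pSer p (honda p n A) = (PowerSeries.X : PowerSeries A) ^ p ^ n)

/-- Facts on homomorphisms. -/
def HomTarget : Prop :=
  ∀ (p : ℕ) [Fact p.Prime],
    (∀ (K : Type) [Field K] [CharZero K] (v v' : ℕ → K) (φ : PowerSeries K),
      IsHom (law p v) (law p v') φ →
        (pLog p v').subst φ = PowerSeries.C (PowerSeries.coeff 1 φ) * pLog p v) ∧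
    (∀ (A : Type) [CommRing A] [CharP A p] [IsDomain A] (F G : FormalGroup A) (φ : PowerSeries A),
      IsHom F G φ → PowerSeries.coeff 1 φ = 0 →
        ∀ m, ¬ p ∣ m → PowerSeries.coeff m φ = 0) ∧
    (∀ (A : Type) [CommRing A] [CharP A p] [IsDomain A] (h : ℕ) (φ : PowerSeries A), 1 ≤ h →
      IsEndo (honda p h A) φ → ∀ m, PowerSeries.coeff m φ ^ p ^ h = PowerSeries.coeff m φ)

/-! ## Evaluation in a complete ultrametric field -/

/-- Basic properties of evaluation, formal fixed points, roots and points of laws. -/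
def EvalTarget : Prop :=
  ∀ (C : Type) [NormedField C] [IsUltrametricDist C] [CompleteSpace C],
    (∀ (σ : Type) [Fintype σ] (x : σ → C) (f g : MvPowerSeries σ C), Small x → IntSer f → IntSer g →
      IntSer (f + g) ∧ IntSer (f * g) ∧
      Summable (fun d => coeff d f * mon x d) ∧
      ev x (f + g) = ev x f + ev x g ∧ ev x (f * g) = ev x f * ev x g ∧ ‖ev x f‖ ≤ 1 ∧
      (constantCoeff f = 0 → ∀ r, 0 ≤ r → (∀ i, ‖x i‖ ≤ r) → ‖ev x f‖ ≤ r) ∧
      (∀ y : σ → C, Small y → ∀ r, 0 ≤ r → (∀ i, ‖x i - y i‖ ≤ r) → ‖ev x f - ev y f‖ ≤ r)) ∧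
    (∀ (σ : Type) [Fintype σ] (x : σ → C) (c : C) (i : σ), Small x →
      ev x (MvPowerSeries.C c) = c ∧ ev x (MvPowerSeries.X i) = x i) ∧
    (∀ (σ τ : Type) [Fintype σ] [Fintype τ] (g : σ → MvPowerSeries τ C) (f : MvPowerSeries σ C)
      (y : τ → C), (∀ i, IntSer (g i) ∧ constantCoeff (g i) = 0) → IntSer f → Small y →
        IntSer (f.subst g) ∧ ev y (f.subst g) = ev (fun i => ev y (g i)) f) ∧
    (∀ (σ τ : Type) [Fintype σ] [Fintype τ] [DecidableEq σ] [DecidableEq τ]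
      (f : MvPowerSeries (σ ⊕ τ) C) (x : σ → C), IntSer f → Small x →
        IntSer (evLeft x f) ∧
        (∀ y : τ → C, Small y → ev y (evLeft x f) = ev (Sum.elim x y) f) ∧
        constantCoeff (evLeft x f) = ev (Sum.elim x fun _ => 0) f ∧
        ∀ j, coeff (Finsupp.single j 1) (evLeft x f) =
          ev (Sum.elim x fun _ => 0) (MvPowerSeries.pderiv C (Sum.inr j) f)) ∧
    (∀ (σ τ : Type) [Fintype σ] [Fintype τ] (Φ : τ → MvPowerSeries (σ ⊕ τ) C),
      (∀ j, IntSer (Φ j) ∧ ∀ i, coeff (Finsupp.single (Sum.inr i) 1) (Φ j) = 0) →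
      ∀ (w : σ → C) (X Y : τ → C), Small w → Small X → Small Y →
        (∀ j, ev (Sum.elim w X) (Φ j) = X j) → (∀ j, ev (Sum.elim w Y) (Φ j) = Y j) → X = Y) ∧
    (∀ (f : PowerSeries C) (P : ℕ), IntSer f →
      (∀ m < P, ‖PowerSeries.coeff m f‖ < 1) → ‖PowerSeries.coeff P f‖ = 1 →
        (∀ s : Finset C, (∀ z ∈ s, ‖z‖ < 1 ∧ ev1 z f = 0) → s.card ≤ P) ∧
        (IsAlgClosed C → (∀ z, ‖z‖ < 1 → ev1 z f = 0 → ev1 z (PowerSeries.derivative C f) ≠ 0) →
          ∃ s : Finset C, s.card = P ∧ ∀ z ∈ s, ‖z‖ < 1 ∧ ev1 z f = 0)) ∧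
    (∀ (F : FormalGroup C) (a : C), IntSer F.toPowerSeries → ‖a‖ < 1 →
      ∃ b, ‖b‖ ≤ ‖a‖ ∧ padd F a b = 0)

/-- Formal implicit functions over any ring. -/
def FormalFixTarget : Prop :=
  ∀ (R : Type) [CommRing R] (σ τ : Type) [Fintype σ] [Fintype τ] [DecidableEq σ] [DecidableEq τ]
    (Φ : τ → MvPowerSeries (σ ⊕ τ) R),
    (∀ j, constantCoeff (Φ j) = 0 ∧ ∀ i, coeff (Finsupp.single (Sum.inr i) 1) (Φ j) = 0) →
      ∃ X : τ → MvPowerSeries σ R, (∀ j, constantCoeff (X j) = 0) ∧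
        (∀ j, (Φ j).subst (Sum.elim (fun i : σ => (MvPowerSeries.X i : MvPowerSeries σ R)) X) =
          X j) ∧
        (∀ S : Subring R, (∀ j d, coeff d (Φ j) ∈ S) → ∀ j d, coeff d (X j) ∈ S) ∧
        ∀ Y : τ → MvPowerSeries σ R, (∀ j, constantCoeff (Y j) = 0) →
          (∀ j, (Φ j).subst (Sum.elim (fun i : σ => (MvPowerSeries.X i : MvPowerSeries σ R)) Y) =
            Y j) → Y = X

/-! ## The tilt -/

/-- The fields used in characteristic `p`. -/
structure TiltField (p : ℕ) [Fact p.Prime] where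
  C : Type
  [nf : NontriviallyNormedField C]
  [ult : IsUltrametricDist C]
  [complete : CompleteSpace C]
  [charP : CharP C p]
  [perfect : PerfectRing C p]
  [closed : IsAlgClosed C]
  S : Sharp p C

/-- Existence of the tilt of `ℂ_[p]`. -/
def TiltTarget : Prop := ∀ (p : ℕ) [Fact p.Prime], Nonempty (TiltField p)

/-! ## Points -/

/-- Points of closed subsets in characteristic `p`. -/
def PointPTarget : Prop :=
  ∀ (p : ℕ) [Fact p.Prime] (n : ℕ) (k : Type) [Field k] [CharP k p] [Fintype k]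
    (C : Type) [NontriviallyNormedField C] [IsUltrametricDist C] [CompleteSpace C] [CharP C p]
    [IsAlgClosed C] (j : k →+* C) (J : Ideal (LT p n k)) (a : LT p n k),
    (p : LT p n k) ∈ J → a ∉ J.radical →
      ∃ x : Fin (n - 1) → C, Small x ∧
        (∀ f ∈ J, evK (j.comp WittVector.constantCoeff) x f = 0) ∧
        evK (j.comp WittVector.constantCoeff) x a ≠ 0

/-- Points of closed subsets in characteristic zero. -/
def Point0Target : Prop :=
  ∀ (p : ℕ) [Fact p.Prime] (n : ℕ) (k : Type) [Field k] [CharP k p] [Fintype k]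
    (ι : WittVector p k →+* ℂ_[p]), (∀ a, ‖ι a‖ ≤ 1) → ∀ (J : Ideal (LT p n k)),
    (p : LT p n k) ∉ J.radical →
      ∃ x : Fin (n - 1) → ℂ_[p], Small x ∧ ∀ f ∈ J, evK ι x f = 0

/-! ## The action -/

/-- The action of the extended stabilizer group. -/
def ActionTarget : Prop :=
  ∀ (p : ℕ) [Fact p.Prime] (n : ℕ), 1 ≤ n →
    ∀ (k : Type) [Field k] [CharP k p] [Fintype k], Fintype.card k = p ^ n →
      (∀ g r, IsAut p n k g → ∃! γ, ∃ φ, IsAction p n k g r γ φ) ∧
      (∀ g r γ φ, IsAut p n k g → IsAction p n k g r γ φ →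
        Function.Bijective γ ∧
        (∀ h ≤ n, ∀ f ∈ hIdeal p n k h, γ f ∈ hIdeal p n k h) ∧
        (∀ i : Fin (n - 1), ∃ c : LT p n k, IsUnit c ∧
          γ (MvPowerSeries.X i) - c * MvPowerSeries.X i ∈ hIdeal p n k (i + 1)) ∧
        (∀ i : Fin (n - 1), γ (MvPowerSeries.X i) ∈ mIdeal p n k) ∧
        ∀ (C : Type) [NormedField C] [IsUltrametricDist C] [CompleteSpace C]
          (ι : WittVector p k →+* C), (∀ a, ‖ι a‖ ≤ 1) → ‖ι (p : WittVector p k)‖ < 1 →
          ∀ x : Fin (n - 1) → C, Small x →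
            Small (fun i => evK ι x (γ (MvPowerSeries.X i))) ∧
            ∀ f, evK ι x (γ f) =
              evK (ι.comp ((WittVector.frobenius : WittVector p k →+* _) ^ r))
                (fun i => evK ι x (γ (MvPowerSeries.X i))) f) ∧
      (∀ a N, 1 ≤ N → IsEndo (honda p n k) a →
        IsAut p n k (gDeep p n k a N) ∧
        ∀ γ φ, IsAction p n k (gDeep p n k a N) 0 γ φ →
          ∀ i, γ (MvPowerSeries.X i) - MvPowerSeries.X i ∈ mIdeal p n k ^ N)

/-! ## Universal cover and periods -/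

/-- Properties of `theta`, for `ρ = id` or `ρ` a sharp map. -/
def ThetaTarget : Prop :=
  ∀ (p : ℕ) [Fact p.Prime] (C : Type) [NormedField C] [IsUltrametricDist C] [CompleteSpace C]
    [CharP C p] [PerfectRing C p] (D : Type) [NormedField D] [IsUltrametricDist D]
    [CompleteSpace D] (ρ : C →*₀ D) (c : ℝ), c < 1 → (∀ a, ‖ρ a‖ = ‖a‖) → ‖(p : D)‖ ≤ c →
    (∀ a b : C, ‖a‖ ≤ 1 → ‖b‖ ≤ 1 → ‖ρ (a + b) - ρ a - ρ b‖ ≤ c) →
    ∀ (n : ℕ), 1 ≤ n → ∀ (u : Fin (n - 1) → D), (∀ i, ‖u i‖ ≤ c) →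
      (∀ η : C, ‖η‖ < 1 →
        Tendsto (fun M => pmul (law p (vTuple n u)) (p ^ M) (ρ (root p η (n * M)))) atTop
          (𝓝 (theta p n ρ (vTuple n u) η)) ∧
        ‖theta p n ρ (vTuple n u) η‖ < 1 ∧
        ‖theta p n ρ (vTuple n u) η - ρ η‖ ≤ c ∧
        theta p n ρ (vTuple n u) (η ^ p ^ n) =
          pmul (law p (vTuple n u)) p (theta p n ρ (vTuple n u) η) ∧
        (∀ η' : C, ‖η'‖ < 1 →
          theta p n ρ (vTuple n u) (padd (honda p n C) η η') =
            padd (law p (vTuple n u)) (theta p n ρ (vTuple n u) η)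
              (theta p n ρ (vTuple n u) η')) ∧
        ContinuousAt (theta p n ρ (vTuple n u)) η) ∧
      theta p n ρ (vTuple n u) 0 = 0 ∧
      (∀ (u' : Fin (n - 1) → D), (∀ i, ‖u' i‖ ≤ c) →
        (∀ r : ℝ, 0 ≤ r → (∀ i, ‖u i - u' i‖ ≤ r) → ∀ η : C, ‖η‖ < 1 →
          ‖theta p n ρ (vTuple n u) η - theta p n ρ (vTuple n u') η‖ ≤ r) ∧
        (∀ (φ : PowerSeries D) (a : PowerSeries C), IntSer φ → IntSer a →
          PowerSeries.constantCoeff a = 0 →
          (∀ m, PowerSeries.coeff m a ^ p ^ n = PowerSeries.coeff m a) →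
          IsHom (law p (vTuple n u)) (law p (vTuple n u')) φ →
          (∀ m, ‖PowerSeries.coeff m φ - ρ (PowerSeries.coeff m a)‖ ≤ c) →
          ∀ η : C, ‖η‖ < 1 →
            theta p n ρ (vTuple n u') (ev1 η a) = ev1 (theta p n ρ (vTuple n u) η) φ))

/-- Periods. -/
def PeriodTarget : Prop :=
  ∀ (p : ℕ) [Fact p.Prime] (C : Type) [NormedField C] [IsUltrametricDist C] [CompleteSpace C]
    [CharP C p] [PerfectRing C p] (S : Sharp p C) (n : ℕ), 1 ≤ n →
    (∀ (η : C) (r : ℤ), ‖η‖ < 1 →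
      Summable (fun k : ℤ => S.ρ (zroot p η (r + n * k)) * (p : ℂ_[p]) ^ (-k)) ∧
      per p n S η (r + n) = p * per p n S η r ∧
      (∀ η' : C, ‖η'‖ < 1 →
        per p n S (padd (honda p n C) η η') r = per p n S η r + per p n S η' r) ∧
      (∀ j : ℕ, per p n S (η ^ p ^ j) r = per p n S η (r + j)) ∧
      (∀ c : C, c ^ p ^ n = c →
        per p n S (c * η) r = S.ρ c ^ p ^ (r % (n : ℤ)).toNat * per p n S η r) ∧
      (∀ (s : ℕ → C) (r₀ : ℝ), r₀ < 1 → (∀ m, ‖s m‖ ≤ r₀) → Tendsto s atTop (𝓝 η) →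
        Tendsto (fun m => per p n S (s m) r) atTop (𝓝 (per p n S η r)))) ∧
    ((∃ π : C, π ≠ 0 ∧ ‖π‖ < 1) → ∀ δ : ℝ, 0 < δ → ∃ η : C, ‖η‖ < δ ∧ per p n S η 0 ≠ 0) ∧
    (2 ≤ n → ∀ η : C, ‖η‖ < 1 → η ≠ 0 → ∃ r < n, per p n S η r ≠ 0) ∧
    (∀ u : Fin (n - 1) → ℂ_[p], Small u →
      (∀ r, Tendsto (fun k : ℕ => (p : ℂ_[p]) ^ k *
        (L p (vTuple n u) (n * k + r) / (p : ℂ_[p]) ^ (n * k + r))) atTop
          (𝓝 (wper p n (vTuple n u) r))) ∧
      (∀ a b : ℂ_[p], ‖a‖ < 1 → ‖b‖ < 1 →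
        Summable (fun K : ℕ => L p (vTuple n u) K / (p : ℂ_[p]) ^ K * a ^ p ^ K) ∧
        logVal p (vTuple n u) (padd (law p (vTuple n u)) a b) =
          logVal p (vTuple n u) a + logVal p (vTuple n u) b ∧
        (‖a - b‖ ≤ 1 / p →
          ‖logVal p (vTuple n u) a - logVal p (vTuple n u) b‖ ≤ 1 / p)) ∧
      (∀ η : C, ‖η‖ < 1 →
        logVal p (vTuple n u) (theta p n S.ρ (vTuple n u) η) = Lv p n S (vTuple n u) η))

/-! ## Torsion and the comparison with the height `h` Honda law -/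

/-- A point of height exactly `h` in characteristic `p`. -/
structure HPoint {C : Type*} [NormedField C] (n h : ℕ) (u : Fin (n - 1) → C) : Prop where
  small : Small u
  one_le : 1 ≤ h
  lt : h < n
  low : ∀ i : Fin (n - 1), (i : ℕ) + 1 < h → u i = 0
  ne : u ⟨h - 1, by omega⟩ ≠ 0

section

variable (p : ℕ) [Fact p.Prime] {C : Type} [NormedField C] [CharP C p] [PerfectRing C p]

/-- The universal cover map of the fibre at `u`. -/
def thetaC (n : ℕ) (u : Fin (n - 1) → C) (η : C) : C := theta p n id (vTuple n u) η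

/-- A basis of the Tate module, inside the universal cover. -/
structure IsTate (n d : ℕ) (u : Fin (n - 1) → C) (ξ : Fin d → C) : Prop where
  small : ∀ i, ‖ξ i‖ < 1
  ker : ∀ i, thetaC p n u (ξ i) = 0
  indep : ∀ (M : ℕ) (N : Fin d → ℕ),
    psum (law p (vTuple n u))
      (fun i => pmul (law p (vTuple n u)) (N i) (thetaC p n u (root p (ξ i) (n * M)))) = 0 →
    ∀ i, p ^ M ∣ N i

/-- A nonzero integral homomorphism to the height `h` Honda law. -/
structure IsChi (n h : ℕ) (u : Fin (n - 1) → C) (χ : PowerSeries C) : Prop where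
  int : IntSer χ
  hom : IsHom (law p (vTuple n u)) (honda p h C) χ
  ne : PowerSeries.coeff 1 χ ≠ 0

/-- `χ ∘ theta`. -/
def tMap (n : ℕ) (u : Fin (n - 1) → C) (χ : PowerSeries C) (η : C) : C :=
  ev1 (thetaC p n u η) χ

end

/-- Torsion and surjectivity of `theta`. -/
def TorsionTarget : Prop :=
  ∀ (p : ℕ) [Fact p.Prime] (C : Type) [NontriviallyNormedField C] [IsUltrametricDist C]
    [CompleteSpace C] [CharP C p] [PerfectRing C p] [IsAlgClosed C] (n h : ℕ)
    (u : Fin (n - 1) → C), HPoint n h u →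
      (∃ ξ : Fin (n - h) → C, IsTate p n (n - h) u ξ) ∧
      ∀ y : C, ‖y‖ < 1 → ∃ η : C, ‖η‖ < 1 ∧ thetaC p n u η = y

/-- The homomorphism to the Honda law, with its periods. -/
def ChiTarget : Prop :=
  ∀ (p : ℕ) [Fact p.Prime] (C : Type) [NontriviallyNormedField C] [IsUltrametricDist C]
    [CompleteSpace C] [CharP C p] [PerfectRing C p] [IsAlgClosed C] (S : Sharp p C) (n h : ℕ)
    (u : Fin (n - 1) → C), HPoint n h u →
      ∃ χ : PowerSeries C, IsChi p n h u χ ∧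
        ∃ P : Fin h → Fin n → ℂ_[p], ∀ η : C, ‖η‖ < 1 → ∀ r : Fin h,
          per p h S (tMap p n u χ η) (r : ℕ) = ∑ t : Fin n, P r t * per p n S η (t : ℕ)

/-- No relations with coefficients in endomorphisms of the height `h` Honda law. -/
def RelationTarget : Prop :=
  ∀ (p : ℕ) [Fact p.Prime] (k : Type) [Field k] [CharP k p] [Fintype k] (C : Type)
    [NontriviallyNormedField C] [IsUltrametricDist C] [CompleteSpace C] [CharP C p]
    [PerfectRing C p] [IsAlgClosed C] (_ : Sharp p C) (n h : ℕ), Fintype.card k = p ^ n →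
    ∀ (j : k →+* C) (u : Fin (n - 1) → C), HPoint n h u →
    ∀ ξ : Fin (n - h) → C, IsTate p n (n - h) u ξ →
      ∃ χ : PowerSeries C, IsChi p n h u χ ∧
        ∀ α : Fin (n - h) → PowerSeries C, (∀ i, IsEndo (honda p h C) (α i)) →
          (∀ a : PowerSeries k, IsEndo (honda p n k) a →
            psum (honda p h C)
              (fun i => ev1 (tMap p n u χ (ev1 (ξ i) (PowerSeries.map j a))) (α i)) = 0) →
          ∀ i, α i = 0

/-- A series on the Lubin-Tate space along the orbit of a point, in the coordinates of `χ`. -/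
def OrbitTarget : Prop :=
  ∀ (p : ℕ) [Fact p.Prime] (k : Type) [Field k] [CharP k p] [Fintype k] (C : Type)
    [NontriviallyNormedField C] [IsUltrametricDist C] [CompleteSpace C] [CharP C p]
    [PerfectRing C p] [IsAlgClosed C] (n h : ℕ), Fintype.card k = p ^ n →
    ∀ (j : k →+* C) (u : Fin (n - 1) → C), HPoint n h u →
    ∀ ξ : Fin (n - h) → C, IsTate p n (n - h) u ξ →
    ∀ χ : PowerSeries C, IsChi p n h u χ →
    ∀ f : LT p n k,
      (∀ g γ φ, IsAut p n k g → IsAction p n k g 0 γ φ →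
        evK (j.comp WittVector.constantCoeff) u (γ f) = 0) →
      ∃ c : ℝ, 0 < c ∧ c < 1 ∧ ∀ M : ℕ, 1 ≤ M →
        ∃ (G : MvPowerSeries (Fin (n - h)) C) (B R : ℝ), Growth G B R ∧
          ((∀ i, coeff (Finsupp.single i 1) G = 0) → ∀ i : Fin (n - 1), h ≤ (i : ℕ) + 1 →
            evK (j.comp WittVector.constantCoeff) u
              (MvPowerSeries.pderiv (WittVector p k) i f) = 0) ∧
          ∀ a : PowerSeries k, IsEndo (honda p n k) a → ∃ K : ℝ, ∀ᶠ N in atTop,
            ‖ev (fun i =>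
                tMap p n u χ (ev1 (ξ i) (PowerSeries.map j a)) ^ (p ^ h) ^ N) G‖ ≤
              K * c ^ (p ^ h) ^ (N + M)

/-- The derivatives of an orbit-vanishing element vanish at a point of height `h`. -/
def GradTarget : Prop :=
  ∀ (p : ℕ) [Fact p.Prime] (k : Type) [Field k] [CharP k p] [Fintype k] (T : TiltField p)
    (n h : ℕ), Fintype.card k = p ^ n →
    letI := T.nf; letI := T.ult
    ∀ (j : k →+* T.C) (u : Fin (n - 1) → T.C), HPoint n h u →
    ∀ f : LT p n k,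
      (∀ g γ φ, IsAut p n k g → IsAction p n k g 0 γ φ →
        evK (j.comp WittVector.constantCoeff) u (γ f) = 0) →
      ∀ i : Fin (n - 1), h ≤ (i : ℕ) + 1 →
        evK (j.comp WittVector.constantCoeff) u
          (MvPowerSeries.pderiv (WittVector p k) i f) = 0

/-! ## Rigidity -/

/-- Vanishing of one coefficient from decay along Frobenius powers. -/
def RigidityTarget : Prop :=
  ∀ (p : ℕ) [Fact p.Prime] (C : Type) [NormedField C] [IsUltrametricDist C] [CompleteSpace C]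
    [CharP C p] (m d : ℕ), 1 ≤ m →
    ∀ (Λ : Set (Fin d → C)), (∀ z ∈ Λ, Small z) → ∀ β : Fin d →₀ ℕ,
      (∀ H : MvPowerSeries (Fin d) C, FixedCoeff (p ^ m) H → (∀ z ∈ Λ, ev z H = 0) →
        coeff β H = 0) →
      ∃ S : Finset (Fin d → C), ↑S ⊆ Λ ∧ ∃ ε : ℝ, 0 < ε ∧ ε < 1 ∧
        ∀ (G : MvPowerSeries (Fin d) C) (B R : ℝ), Growth G B R →
          (∀ z ∈ S, ∀ᶠ N in atTop, ‖ev (fun i => z i ^ (p ^ m) ^ N) G‖ ≤ ε ^ (p ^ m) ^ N) →
          coeff β G = 0

/-- A subgroup of the points of a power of the height `h` Honda law without endomorphism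
relations lies on no proper subvariety defined over the fixed field. -/
def NoIdealTarget : Prop :=
  ∀ (p : ℕ) [Fact p.Prime] (C : Type) [NontriviallyNormedField C] [IsUltrametricDist C]
    [CompleteSpace C] [CharP C p] [IsAlgClosed C] (h d : ℕ), 1 ≤ h →
    ∀ (Λ : Set (Fin d → C)), (∀ z ∈ Λ, Small z) → (0 : Fin d → C) ∈ Λ →
      (∀ z ∈ Λ, ∀ z' ∈ Λ, (fun i => padd (honda p h C) (z i) (z' i)) ∈ Λ) →
      (∀ z ∈ Λ, (fun i => z i ^ p ^ h) ∈ Λ) →
      (∀ α : Fin d → PowerSeries C, (∀ i, IsEndo (honda p h C) (α i)) →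
        (∀ z ∈ Λ, psum (honda p h C) (fun i => ev1 (z i) (α i)) = 0) → ∀ i, α i = 0) →
      ∀ H : MvPowerSeries (Fin d) C, FixedCoeff (p ^ h) H → (∀ z ∈ Λ, ev z H = 0) → H = 0

/-! ## Characteristic zero -/

/-- An element vanishing on the orbit of a point in characteristic zero is zero. -/
def CharZeroTarget : Prop :=
  ∀ (p : ℕ) [Fact p.Prime] (k : Type) [Field k] [CharP k p] [Fintype k] (T : TiltField p)
    (n : ℕ), 1 ≤ n → Fintype.card k = p ^ n →
    letI := T.nf; letI := T.ult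
    ∀ (j : k →+* unitBall T.C) (u : Fin (n - 1) → ℂ_[p]), Small u →
    ∀ f : LT p n k,
      (∀ g γ φ, IsAut p n k g → IsAction p n k g 0 γ φ →
        evK (T.S.θ.comp (WittVector.map j)) u (γ f) = 0) →
      f = 0

end Vale.Agent.P217

end
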