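import Vale.Agent.P217.FunctionalEq

/-!
# P217, formal inputs: Hazewinkel's logarithm

`hazCoeff c v p` is given by `l 0 = 1` and `l (K+1) = c * ∑ i, v (i+1) ^ (p^(K-i)) * l (K-i)`.
When `σ c = c` and `σ (v i) = v i ^ p` it also satisfies
`l (K+1) = c * ∑ i, v (i+1) * σ^(i+1) (l (K-i))`, so `f = ∑ l K X^(p^K)` satisfies the functional
equation `f = X + ∑ s i • σ^(i+1) f (X^(p^(i+1)))` with `s i = c * v (i+1)`.
-/

open MvPowerSeries Finset
open scoped Classical

noncomputable section

namespace Vale.Agent.P217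

universe u v

section Coeff

variable {R : Type*} [CommRing R] (c : R) (v : ℕ → R) (p : ℕ)

/-- The coefficients of Hazewinkel's logarithm. -/
def hazCoeff : ℕ → R
  | 0 => 1
  | K + 1 => c * ∑ i : Fin (K + 1), v (i.val + 1) ^ p ^ (K - i.val) * hazCoeff (K - i.val)

lemma hazCoeff_succ (K : ℕ) : hazCoeff c v p (K + 1) =
    c * ∑ i ∈ range (K + 1), v (i + 1) ^ p ^ (K - i) * hazCoeff c v p (K - i) := by
  rw [hazCoeff, Fin.sum_univ_eq_sum_range (fun i => v (i + 1) ^ p ^ (K - i) * hazCoeff c v p (K - i))]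

lemma itH_fix {σ : R →+* R} (hc : σ c = c) (k : ℕ) : itH σ k c = c := by
  induction k with
  | zero => rfl
  | succ k ih => simp [itH, ih, hc]

lemma itH_pow {σ : R →+* R} (hv : ∀ i, σ (v i) = v i ^ p) (k i : ℕ) :
    itH σ k (v i) = v i ^ p ^ k := by
  induction k with
  | zero => simp [itH]
  | succ k ih => simp [itH, ih, hv, ← pow_mul, pow_succ']

/-- Summation over pairs `i + j + 2 ≤ K + 1` is symmetric. -/
lemma sum_triangle_comm (K : ℕ) (F : ℕ → ℕ → R) :
    ∑ i ∈ range K, ∑ j ∈ range (K - i), F i j = ∑ j ∈ range K, ∑ i ∈ range (K - j), F i j :=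
  Finset.sum_comm' fun i j => by simp only [Finset.mem_range]; omega

/-- The second recursion. -/
theorem hazCoeff_succ' {σ : R →+* R} (hc : σ c = c) (hv : ∀ i, σ (v i) = v i ^ p) :
    ∀ K, hazCoeff c v p (K + 1) =
      c * ∑ i ∈ range (K + 1), v (i + 1) * itH σ (i + 1) (hazCoeff c v p (K - i)) := by
  intro K
  induction K using Nat.strong_induction_on with
  | _ K ih =>
    rw [hazCoeff_succ, Finset.sum_range_succ, Finset.sum_range_succ]
    simp only [Nat.sub_self, pow_zero, pow_one, hazCoeff, map_one, mul_one]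
    refine congrArg (fun x => c * (x + v (K + 1))) ?_
    calc ∑ i ∈ range K, v (i + 1) ^ p ^ (K - i) * hazCoeff c v p (K - i)
        = ∑ i ∈ range K, ∑ j ∈ range (K - i), v (i + 1) ^ p ^ (K - i) *
            (c * (v (j + 1) * itH σ (j + 1) (hazCoeff c v p (K - i - 1 - j)))) := by
          refine Finset.sum_congr rfl fun i hi => ?_
          rw [Finset.mem_range] at hi
          obtain ⟨m, hm⟩ : ∃ m, K - i = m + 1 := ⟨K - i - 1, by omega⟩
          rw [hm, ih m (by omega), Finset.mul_sum, Finset.mul_sum, Nat.add_sub_cancel]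
      _ = ∑ j ∈ range K, ∑ i ∈ range (K - j), v (i + 1) ^ p ^ (K - i) *
            (c * (v (j + 1) * itH σ (j + 1) (hazCoeff c v p (K - i - 1 - j)))) :=
          sum_triangle_comm K _
      _ = ∑ j ∈ range K, v (j + 1) * itH σ (j + 1) (hazCoeff c v p (K - j)) := by
          refine Finset.sum_congr rfl fun j hj => ?_
          rw [Finset.mem_range] at hj
          obtain ⟨m, hm⟩ : ∃ m, K - j = m + 1 := ⟨K - j - 1, by omega⟩
          rw [hm, hazCoeff_succ, map_mul, itH_fix c hc, map_sum, Finset.mul_sum, Finset.mul_sum]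
          refine Finset.sum_congr rfl fun i hi => ?_
          rw [Finset.mem_range] at hi
          rw [map_mul, map_pow, itH_pow v p hv, ← pow_mul, ← pow_add,
            show K - i - 1 - j = m - i by omega, show j + 1 + (m - i) = K - i by omega]
          ring

end Coeff

section Log

variable {A : Type u} {K : Type v} [CommRing A] [CommRing K] {p n : ℕ} [hp : Fact p.Prime]

/-- Hazewinkel's logarithm. -/
def hazLog (c : K) (v : ℕ → K) (p : ℕ) : PowerSeries K :=
  PowerSeries.mk fun m =>
    if p ^ Nat.log p m = m then hazCoeff c v p (Nat.log p m) else 0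

lemma coeff_hazLog_pow (c : K) (v : ℕ → K) (J : ℕ) :
    PowerSeries.coeff (p ^ J) (hazLog c v p) = hazCoeff c v p J := by
  simp [hazLog, Nat.log_pow hp.out.one_lt]

omit hp in
lemma coeff_hazLog_other (c : K) (v : ℕ → K) {m : ℕ} (hm : ∀ J, m ≠ p ^ J) :
    PowerSeries.coeff m (hazLog c v p) = 0 := by
  rw [hazLog, PowerSeries.coeff_mk, if_neg fun h : p ^ Nat.log p m = m => hm _ h.symm]

lemma constantCoeff_hazLog (c : K) (v : ℕ → K) :
    PowerSeries.constantCoeff (hazLog c v p) = 0 := by
  rw [← PowerSeries.coeff_zero_eq_constantCoeff_apply]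
  exact coeff_hazLog_other c v fun J => (pow_ne_zero J hp.out.ne_zero).symm

/-- The functional equation of Hazewinkel's logarithm. -/
theorem typeOf_hazLog (E : FE A K p n) (c : K) (v : ℕ → K) (hc : E.σ c = c)
    (hv : ∀ i, E.σ (v i) = v i ^ p) (hs : ∀ i : Fin n, E.s i = c * v (i.val + 1))
    (hvn : ∀ i, n < i → v i = 0) :
    E.typeOf (hazLog c v p : MvPowerSeries Unit K) = (PowerSeries.X : PowerSeries K) := by
  refine PowerSeries.ext fun m => ?_
  set G : Fin n → K := fun i => coeff (Finsupp.single () m)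
    (expand (p ^ (i.val + 1)) (pow_ne_zero _ hp.out.ne_zero)
      (map (itH E.σ (i.val + 1)) (hazLog c v p : MvPowerSeries Unit K))) with hG
  have hcoef : PowerSeries.coeff m (E.typeOf (hazLog c v p : MvPowerSeries Unit K)) =
      PowerSeries.coeff m (hazLog c v p) - ∑ i, E.s i * G i := by
    change coeff (Finsupp.single () m) (E.typeOf (hazLog c v p : MvPowerSeries Unit K)) = _
    simp only [FE.typeOf, map_sub, map_sum, coeff_smul, hG]
    rfl
  have hdiv : ∀ (i : Fin n) (e : ℕ), m = p ^ (i.val + 1) * e →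
      G i = itH E.σ (i.val + 1) (PowerSeries.coeff e (hazLog c v p)) := by
    rintro i e rfl
    simp only [hG]
    rw [show (Finsupp.single () (p ^ (i.val + 1) * e) : Unit →₀ ℕ) =
      p ^ (i.val + 1) • Finsupp.single () e by simp, coeff_expand_smul, coeff_map]
    rfl
  have hndiv : ∀ i : Fin n, ¬ p ^ (i.val + 1) ∣ m → G i = 0 := fun i hi =>
    coeff_expand_of_not_dvd _ _ _ (i := ()) (by simpa using hi)
  have hone : PowerSeries.coeff 1 (hazLog c v p) = 1 := by
    have h := coeff_hazLog_pow (p := p) c v 0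
    rwa [pow_zero, hazCoeff] at h
  rw [hcoef, PowerSeries.coeff_X]
  by_cases hm : ∃ J, m = p ^ J
  swap
  · rw [not_exists] at hm
    rw [coeff_hazLog_other c v hm, if_neg (fun h => hm 0 (by simpa using h)),
      Finset.sum_eq_zero, sub_zero]
    intro i _
    by_cases hd : p ^ (i.val + 1) ∣ m
    · obtain ⟨e, he⟩ := hd
      rw [hdiv i e he, coeff_hazLog_other c v (fun J hJ => hm (i.val + 1 + J)
        (by rw [he, hJ, ← pow_add])), map_zero, mul_zero]
    · rw [hndiv i hd, mul_zero]
  obtain ⟨J, rfl⟩ := hm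
  rcases J with _ | J
  · rw [pow_zero] at hndiv ⊢
    rw [hone, if_pos rfl, Finset.sum_eq_zero, sub_zero]
    intro i _
    rw [hndiv i fun h => (Nat.one_lt_pow (Nat.succ_ne_zero _) hp.out.one_lt).ne'
      (Nat.dvd_one.mp h), mul_zero]
  rw [if_neg (Nat.one_lt_pow (Nat.succ_ne_zero _) hp.out.one_lt).ne', coeff_hazLog_pow,
    hazCoeff_succ' c v p hc hv, Finset.mul_sum, sub_eq_zero]
  set F : ℕ → K := fun i => c * (v (i + 1) * itH E.σ (i + 1) (hazCoeff c v p (J - i))) with hF
  have hterm : ∀ i : Fin n, E.s i * G i = if i.val < J + 1 then F i.val else 0 := by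
    intro i
    split_ifs with h
    · rw [hdiv i (p ^ (J - i.val)) (by rw [← pow_add]; congr 1; omega), coeff_hazLog_pow, hs, hF,
        mul_assoc]
    · rw [hndiv i fun hd => absurd ((Nat.pow_dvd_pow_iff_le_right hp.out.one_lt).mp hd) (by omega),
        mul_zero]
  simp only [hterm]
  rw [Fin.sum_univ_eq_sum_range (fun i => if i < J + 1 then F i else 0), ← Finset.sum_filter]
  refine (Finset.sum_subset (fun i hi => ?_) fun i hi hni => ?_).symm
  · rw [Finset.mem_filter] at hi
    exact Finset.mem_range.mpr hi.2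
  · rw [Finset.mem_filter, Finset.mem_range] at hni
    have : n < i + 1 := by
      by_contra hc'
      exact hni ⟨by omega, Finset.mem_range.mp hi⟩
    simp [hvn _ this]

/-- Hazewinkel's logarithm is a logarithm for the functional equation. -/
theorem isLog_hazLog (E : FE A K p n) (c : K) (v : ℕ → K) (hc : E.σ c = c)
    (hv : ∀ i, E.σ (v i) = v i ^ p) (hs : ∀ i : Fin n, E.s i = c * v (i.val + 1))
    (hvn : ∀ i, n < i → v i = 0) : E.IsLog (hazLog c v p) where
  const := constantCoeff_hazLog c v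
  integ := by
    rw [typeOf_hazLog E c v hc hv hs hvn]
    have h := E.integ_map (PowerSeries.X : PowerSeries A)
    rwa [show map E.ι (PowerSeries.X : PowerSeries A) = (PowerSeries.X : PowerSeries K) from
      map_X E.ι ()] at h
  linear := by
    refine ⟨1, isUnit_one, ?_⟩
    have h := coeff_hazLog_pow (p := p) c v 0
    rw [pow_zero, hazCoeff] at h
    rw [map_one, h]

end Log

end Vale.Agent.P217
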