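import Mathlib.RingTheory.FormalGroup.Basic
import Mathlib.RingTheory.MvPowerSeries.Derivative
import Mathlib.RingTheory.PowerSeries.Derivative
import Mathlib.RingTheory.WittVector.Frobenius
import Mathlib.RingTheory.WittVector.Teichmuller
import Mathlib.RingTheory.WittVector.Complete
import Mathlib.Algebra.MvPolynomial.Eval
import Mathlib.FieldTheory.IsAlgClosed.Basic
import Mathlib.FieldTheory.Perfect
import Mathlib.NumberTheory.Padics.Complex
import Mathlib.Topology.Algebra.InfiniteSum.Basic
import Mathlib.Topology.Separation.Hausdorff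
import Mathlib.Topology.Defs.Filter
import Mathlib.Data.Int.Log

/-!
# P217: definitions shared by the proof of Chai's invariant ideal theorem

Conventions: a tuple `v : ℕ → A` is used only at indices `i ≥ 1`. The Hazewinkel logarithm
has coefficients `l K = L v K / p ^ K` at `z ^ (p ^ K)`, where `p * l K = ∑ v_i ^ (p^(K-i)) * l (K-i)`.
-/

noncomputable section

namespace Vale.Agent.P217

open MvPowerSeries Finset

/-! ## Formal part -/

section Formal

variable (p n : ℕ) {A : Type*} [CommRing A]

/-- `p ^ K` times the `K`-th Hazewinkel logarithm coefficient. -/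
def L (v : ℕ → A) : ℕ → A
  | 0 => 1
  | K + 1 => ∑ i : Fin (K + 1), v (i + 1) ^ p ^ (K - i) * (p : A) ^ (i : ℕ) * L v (K - i)
  decreasing_by omega

/-- The logarithm as a series over a ring in which `p` is a unit. -/
def pLog {K : Type*} [CommRing K] (v : ℕ → K) : PowerSeries K :=
  PowerSeries.mk fun m =>
    if m = p ^ Nat.log p m then L p v (Nat.log p m) * Ring.inverse (p : K) ^ Nat.log p m else 0

/-- The series `X₀`, `X₁` in two variables. -/
abbrev x0 : MvPowerSeries (Fin 2) A := MvPowerSeries.X 0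

/-- The second variable. -/
abbrev x1 : MvPowerSeries (Fin 2) A := MvPowerSeries.X 1

/-- `F` has logarithm `f`: `f (F (x, y)) = f x + f y`. -/
def HasLog {K : Type*} [CommRing K] (F : FormalGroup K) (f : PowerSeries K) : Prop :=
  f.subst F.toPowerSeries =
    f.subst (x0 : MvPowerSeries (Fin 2) K) + f.subst (x1 : MvPowerSeries (Fin 2) K)

/-- Defining property of the universal Hazewinkel law over `ℤ[v_i]`. -/
def IsULaw (F : FormalGroup (MvPolynomial ℕ ℤ)) : Prop :=
  HasLog (F.map (MvPolynomial.map (Int.castRingHom ℚ)))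
    (pLog p fun i => (MvPolynomial.X i : MvPolynomial ℕ ℚ))

/-- The universal Hazewinkel law. -/
def uLaw : FormalGroup (MvPolynomial ℕ ℤ) :=
  @Classical.epsilon _ ⟨FormalGroup.𝔾ₐ⟩ (IsULaw p)

/-- The Hazewinkel law with parameters `v`. -/
def law (v : ℕ → A) : FormalGroup A :=
  (uLaw p).map (MvPolynomial.aeval v : MvPolynomial ℕ ℤ →ₐ[ℤ] A).toRingHom

/-- Height `n` parameters: `v_i = u_i` for `1 ≤ i < n`, `v_n = 1`, all others `0`. -/
def vTuple (u : Fin (n - 1) → A) (i : ℕ) : A :=
  if h : 1 ≤ i ∧ i < n then u ⟨i - 1, by omega⟩ else if i = n then 1 else 0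

/-- Parameters of the height `n` Honda law. -/
def vHonda (i : ℕ) : A := if i = n then 1 else 0

/-- The height `n` Honda law over `A`. -/
def honda (A : Type*) [CommRing A] : FormalGroup A := law p (vHonda n (A := A))

/-- Sum of two series with respect to a formal group law. -/
def fadd {σ : Type*} (F : FormalGroup A) (a b : MvPowerSeries σ A) : MvPowerSeries σ A :=
  F.toPowerSeries.subst ![a, b]

/-- A homomorphism of formal group laws. -/
def IsHom (F G : FormalGroup A) (φ : PowerSeries A) : Prop :=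
  PowerSeries.constantCoeff φ = 0 ∧
    φ.subst F.toPowerSeries =
      fadd G (φ.subst (x0 : MvPowerSeries (Fin 2) A)) (φ.subst (x1 : MvPowerSeries (Fin 2) A))

/-- The endomorphisms of a formal group law. -/
def IsEndo (F : FormalGroup A) (φ : PowerSeries A) : Prop := IsHom F F φ

/-- The multiplication series of a formal group law. -/
def mulSer (F : FormalGroup A) : ℕ → PowerSeries A
  | 0 => 0
  | m + 1 => fadd F (PowerSeries.X : PowerSeries A) (mulSer F m)

/-- The series `[p]`. -/
def pSer (F : FormalGroup A) : PowerSeries A := mulSer F p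

/-- The cocycle ((x + y) ^ (p^j) - x ^ (p^j) - y ^ (p^j)) / p. -/
def cPoly (A : Type*) [CommRing A] (j : ℕ) : MvPowerSeries (Fin 2) A := fun d =>
  if d 0 + d 1 = p ^ j ∧ d 0 ≠ 0 ∧ d 1 ≠ 0 then (((p ^ j).choose (d 0) / p : ℕ) : A) else 0

/-- Total degree of an exponent. -/
def deg {σ : Type*} (d : σ →₀ ℕ) : ℕ := d.sum fun _ e => e

/-- The obstruction for `h` to be of functional equation type `v`, coefficient by coefficient. -/
def typeDefect {σ : Type*} {K : Type*} [CommRing K] (φ : K →+* K) (v : ℕ → K)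
    (h : MvPowerSeries σ K) (d : σ →₀ ℕ) : K :=
  letI := Classical.dec
  MvPowerSeries.coeff d h -
    ∑ i ∈ Finset.Icc 1 (deg d),
      if ∀ s, p ^ i ∣ d s then
        v i * Ring.inverse (p : K) *
          (φ^[i]) (MvPowerSeries.coeff (d.mapRange (fun e => e / p ^ i) (Nat.zero_div _)) h)
      else 0

end Formal

/-! ## The Lubin-Tate ring -/

section Ring

variable (p : ℕ) [Fact p.Prime] (n : ℕ) (k : Type*) [Field k] [CharP k p]

/-- The Lubin-Tate ring `W(k)[[u_1, …, u_(n-1)]]`; `X i` is `u_(i+1)`. -/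
abbrev LT : Type _ := MvPowerSeries (Fin (n - 1)) (WittVector p k)

/-- Residue map. -/
def res : LT p n k →+* k :=
  (WittVector.constantCoeff : WittVector p k →+* k).comp MvPowerSeries.constantCoeff

/-- The universal law. -/
def univLaw : FormalGroup (LT p n k) :=
  law p (vTuple n fun i => (MvPowerSeries.X i : LT p n k))

/-- The height ideals `I_0 = 0`, `I_h = (p, u_1, …, u_(h-1))`. -/
def hIdeal (h : ℕ) : Ideal (LT p n k) :=
  if h = 0 then ⊥
  else Ideal.span (insert (p : LT p n k)
    ((fun i : Fin (n - 1) => (MvPowerSeries.X i : LT p n k)) '' {i | (i : ℕ) + 1 < h}))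

/-- The maximal ideal (p, u_1, …, u_(n-1)). -/
def mIdeal : Ideal (LT p n k) :=
  Ideal.span (insert (p : LT p n k)
    (Set.range fun i : Fin (n - 1) => (MvPowerSeries.X i : LT p n k)))

/-- An automorphism of the special fibre. -/
def IsAut (g : PowerSeries k) : Prop :=
  IsEndo (honda p n k) g ∧ IsUnit (PowerSeries.coeff 1 g)

/-- `γ` is the action of (g, σ^r), with witness `φ : F → γ_* F`. -/
def IsAction (g : PowerSeries k) (r : ℕ) (γ : LT p n k →+* LT p n k)
    (φ : PowerSeries (LT p n k)) : Prop :=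
  (∀ a : WittVector p k,
      γ (MvPowerSeries.C a) = MvPowerSeries.C ((WittVector.frobenius^[r]) a)) ∧
    IsHom (univLaw p n k) ((univLaw p n k).map γ) φ ∧
    PowerSeries.map (res p n k) φ = g

/-- An ideal stable under the extended stabilizer group. -/
def IsInv (I : Ideal (LT p n k)) : Prop :=
  ∀ g r γ φ, IsAut p n k g → IsAction p n k g r γ φ → ∀ f ∈ I, γ f ∈ I

/-- The series `1 + p^N a` of the special fibre. -/
def gDeep (a : PowerSeries k) (N : ℕ) : PowerSeries k :=
  fadd (honda p n k) (PowerSeries.X : PowerSeries k)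
    (a.subst ((PowerSeries.X : PowerSeries k) ^ p ^ (n * N)))

end Ring

/-! ## Analytic part -/

section Analytic

variable {C : Type*} [NormedField C] {σ τ : Type*}

/-- Value of a monomial. -/
def mon (x : σ → C) (d : σ →₀ ℕ) : C := d.prod fun i e => x i ^ e

/-- Value of a series. -/
def ev (x : σ → C) (f : MvPowerSeries σ C) : C := ∑' d, MvPowerSeries.coeff d f * mon x d

/-- Value of a series in one variable. -/
def ev1 (z : C) (f : PowerSeries C) : C := ev (fun _ : Unit => z) f

/-- A series with coefficients of norm at most one. -/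
def IntSer (f : MvPowerSeries σ C) : Prop := ∀ d, ‖MvPowerSeries.coeff d f‖ ≤ 1

/-- A point of the open unit polydisc. -/
def Small (x : σ → C) : Prop := ∀ i, ‖x i‖ < 1

/-- Coefficient growth at most `B * R ^ |d|`. -/
def Growth (f : MvPowerSeries σ C) (B R : ℝ) : Prop :=
  ∀ d, ‖MvPowerSeries.coeff d f‖ ≤ B * R ^ deg d

/-- Evaluation in the first group of variables only. -/
def evLeft (x : σ → C) (f : MvPowerSeries (σ ⊕ τ) C) : MvPowerSeries τ C := fun e =>
  ∑' d : σ →₀ ℕ, MvPowerSeries.coeff (Finsupp.sumFinsuppEquivProdFinsupp.symm (d, e)) f * mon x d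

/-- Sum of two points with respect to a law. -/
def padd (F : FormalGroup C) (a b : C) : C := ev ![a, b] F.toPowerSeries

/-- Iterated sum of points. -/
def psum (F : FormalGroup C) : {d : ℕ} → (Fin d → C) → C
  | 0, _ => 0
  | _ + 1, z => padd F (z 0) (psum F fun i => z i.succ)

/-- Multiple of a point. -/
def pmul (F : FormalGroup C) (m : ℕ) (a : C) : C := ev1 a (mulSer F m)

/-- Series with coefficients in the fixed field of `c ↦ c ^ q`. -/
def FixedCoeff (q : ℕ) (H : MvPowerSeries σ C) : Prop :=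
  ∀ d, MvPowerSeries.coeff d H ^ q = MvPowerSeries.coeff d H

/-- Value at `x` of an element of the Lubin-Tate ring, through `ι`. -/
def evK {A : Type*} [CommRing A] (ι : A →+* C) (x : σ → C) (f : MvPowerSeries σ A) : C :=
  ev x (MvPowerSeries.map ι f)

variable (C) in
/-- The closed unit ball. -/
def unitBall [IsUltrametricDist C] : Subring C where
  carrier := {a | ‖a‖ ≤ 1}
  mul_mem' := fun ha hb => (norm_mul _ _).trans_le (mul_le_one₀ ha (norm_nonneg _) hb)
  one_mem' := norm_one.le
  add_mem' := fun {a b} ha hb => (IsUltrametricDist.norm_add_le_max a b).trans (max_le ha hb)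
  zero_mem' := by simp
  neg_mem' := fun {a} ha => by simpa using ha

end Analytic

/-! ## Tilts and periods -/

section Periods

variable (p : ℕ) [Fact p.Prime]

/-- A multiplicative untilting map from `C` to `ℂ_[p]`, with Fontaine's ring map. -/
structure Sharp (C : Type*) [NormedField C] [IsUltrametricDist C] where
  ρ : C →*₀ ℂ_[p]
  norm_eq : ∀ a, ‖ρ a‖ = ‖a‖
  add_le : ∀ a b : C, ‖a‖ ≤ 1 → ‖b‖ ≤ 1 → ‖ρ (a + b) - ρ a - ρ b‖ ≤ 1 / p
  θ : WittVector p (unitBall C) →+* ℂ_[p]
  θ_le : ∀ w, ‖θ w‖ ≤ 1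
  θ_teich : ∀ a : unitBall C, θ (WittVector.teichmuller p a) = ρ (a : C)

variable {C : Type*} [NormedField C] [CharP C p] [PerfectRing C p]

/-- `η ^ (p ^ m)` for an integer `m`. -/
def zroot (η : C) : ℤ → C
  | Int.ofNat m => η ^ p ^ m
  | Int.negSucc m => ((frobeniusEquiv C p).symm^[m + 1]) η

/-- `p ^ M`-th root used in the universal cover. -/
def root (η : C) (m : ℕ) : C := ((frobeniusEquiv C p).symm^[m]) η

/-- The map from the universal cover of the height `n` Honda law to the points of `law v`. -/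
def theta (n : ℕ) {D : Type*} [NormedField D] (ρ : C → D) (v : ℕ → D) (η : C) : D :=
  Filter.limUnder Filter.atTop fun M => pmul (law p v) (p ^ M) (ρ (root p η (n * M)))

variable [IsUltrametricDist C]

/-- Periods `∑_k ρ(η ^ (p ^ (r + n k))) / p ^ k` of a point of the universal cover. -/
def per (n : ℕ) (S : Sharp p C) (η : C) (r : ℤ) : ℂ_[p] :=
  ∑' k : ℤ, S.ρ (zroot p η (r + n * k)) * (p : ℂ_[p]) ^ (-k)

/-- The quasi-periods `w_r(v) = lim_k p ^ k * l (n k + r)`. -/
def wper (n : ℕ) (v : ℕ → ℂ_[p]) (r : ℕ) : ℂ_[p] :=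
  Filter.limUnder Filter.atTop fun k : ℕ =>
    (p : ℂ_[p]) ^ k * (L p v (n * k + r) / (p : ℂ_[p]) ^ (n * k + r))

/-- The period of a lift with parameters `v`. -/
def Lv (n : ℕ) (S : Sharp p C) (v : ℕ → ℂ_[p]) (η : C) : ℂ_[p] :=
  ∑ r ∈ Finset.range n, wper p n v r * per p n S η r

/-- Value of the logarithm. -/
def logVal (v : ℕ → ℂ_[p]) (z : ℂ_[p]) : ℂ_[p] :=
  ∑' K : ℕ, L p v K / (p : ℂ_[p]) ^ K * z ^ p ^ K

end Periods

end Vale.Agent.P217

end
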