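import Vale.Agent.P217.Period.Log

/-!
# P217: periods (`periodTarget`)
-/

noncomputable section

set_option linter.unusedSectionVars false

namespace Vale.Agent.P217

open Finset Filter Topology

namespace Period

variable {p : ℕ} [hp : Fact p.Prime] {C : Type} [NormedField C] [IsUltrametricDist C]
  [CompleteSpace C] [CharP C p] [PerfectRing C p] (S : Sharp p C) {n : ℕ}

lemma small_zero : Small (fun _ : Fin (n - 1) => (0 : ℂ_[p])) := fun _ => by simp

lemma per_zero_eq_logVal (hn : 1 ≤ n) {η : C} (hη : ‖η‖ < 1) :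
    per p n S η 0 = logVal p (vTuple n fun _ => (0 : ℂ_[p]))
      (theta p n S.ρ (vTuple n fun _ => (0 : ℂ_[p])) η) := by
  rw [logVal_theta hn small_zero S hη, Lv, Finset.sum_eq_single 0]
  · rw [wper_honda hn (show 0 < n by omega), if_pos rfl, one_mul]
    rfl
  · intro r hr hne
    rw [wper_honda hn (Finset.mem_range.1 hr), if_neg hne, zero_mul]
  · exact fun h => absurd (Finset.mem_range.2 (show 0 < n by omega)) h

lemma intSer_honda : IntSer (honda p n C).toPowerSeries := fun d => by
  rw [Theta.coeff_honda]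
  exact IsUltrametricDist.norm_intCast_le_one C _

lemma per_zero_add (hn : 1 ≤ n) {η η' : C} (hη : ‖η‖ < 1) (hη' : ‖η'‖ < 1) :
    per p n S (padd (honda p n C) η η') 0 = per p n S η 0 + per p n S η' 0 := by
  have hsum : ‖padd (honda p n C) η η'‖ < 1 :=
    Theta.norm_padd_lt evalTarget intSer_honda hη hη'
  let T : Theta.Setup p n C ℂ_[p] :=
    ⟨evalTarget, lowDegreeTarget, S.ρ, (p : ℝ)⁻¹, nearAdd S, norm_p.le, hn,
      vTuple n fun _ => (0 : ℂ_[p]),
      Theta.nearHonda_vTuple inv_p_nonneg inv_p_lt_one.le fun _ => by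
        rw [norm_zero]; exact inv_p_nonneg⟩
  rw [per_zero_eq_logVal S hn hsum, per_zero_eq_logVal S hn hη, per_zero_eq_logVal S hn hη']
  have h : theta p n S.ρ (vTuple n fun _ => (0 : ℂ_[p])) (padd (honda p n C) η η') =
      padd (law p (vTuple n fun _ => (0 : ℂ_[p]))) (theta p n S.ρ (vTuple n fun _ => (0 : ℂ_[p])) η)
        (theta p n S.ρ (vTuple n fun _ => (0 : ℂ_[p])) η') := T.theta_add hη hη'
  rw [h]
  exact logVal_padd (norm_vTuple_le small_zero) (T.norm_theta_lt hη) (T.norm_theta_lt hη')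

lemma padd_honda_pow {η η' : C} (hη : ‖η‖ < 1) (hη' : ‖η'‖ < 1) (j : ℕ) :
    padd (honda p n C) η η' ^ p ^ j = padd (honda p n C) (η ^ p ^ j) (η' ^ p ^ j) := by
  have hlt : ∀ z : C, ‖z‖ < 1 → ‖z ^ p ^ j‖ < 1 := fun z hz => by
    rw [norm_pow]; exact pow_lt_one₀ (norm_nonneg _) hz (pow_ne_zero _ hp.out.ne_zero)
  have h := Theta.root_ev evalTarget (Theta.small_pair (hlt η hη) (hlt η' hη'))
    (intSer_honda (p := p) (C := C) (n := n)) (m := j) fun d => by
      rw [Theta.coeff_honda]
      exact map_intCast (iterateFrobenius C p j) _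
  have hr : ∀ z : C, root p (z ^ p ^ j) j = z := fun z => Theta.root_eq_iff.2 rfl
  have hfun : (fun i => root p (![η ^ p ^ j, η' ^ p ^ j] i) j) = ![η, η'] := by
    funext i; fin_cases i <;> simp [hr]
  rw [hfun] at h
  exact (Theta.root_eq_iff.1 h)

lemma per_add (hn : 1 ≤ n) (r : ℤ) {η η' : C} (hη : ‖η‖ < 1) (hη' : ‖η'‖ < 1) :
    per p n S (padd (honda p n C) η η') r = per p n S η r + per p n S η' r := by
  suffices h : ∀ (q : ℤ) (j : ℕ), per p n S (padd (honda p n C) η η') (j + n * q) =
      per p n S η (j + n * q) + per p n S η' (j + n * q) by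
    have := h (r / n) (r % n).toNat
    rwa [Int.toNat_of_nonneg (Int.emod_nonneg r (by omega)), Int.emod_add_mul_ediv] at this
  intro q j
  induction q using Int.induction_on with
  | zero =>
    have hlt : ∀ z : C, ‖z‖ < 1 → ‖z ^ p ^ j‖ < 1 := fun z hz => by
      rw [norm_pow]; exact pow_lt_one₀ (norm_nonneg _) hz (pow_ne_zero _ hp.out.ne_zero)
    rw [mul_zero, add_zero, ← zero_add (j : ℤ), ← per_pow, ← per_pow, ← per_pow,
      padd_honda_pow hη hη', per_zero_add S hn (hlt η hη) (hlt η' hη')]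
  | succ q ih =>
    rw [show (j : ℤ) + n * (q + 1) = j + n * q + n by ring, per_add_n, per_add_n, per_add_n, ih,
      mul_add]
  | pred q ih =>
    refine mul_left_cancel₀ (p_ne_zero (p := p)) ?_
    rw [mul_add, ← per_add_n, ← per_add_n, ← per_add_n,
      show (j : ℤ) + n * (-(q : ℤ) - 1) + n = j + n * -(q : ℤ) by ring]
    exact ih

end Period

/-- The properties of periods. -/
theorem periodTarget : PeriodTarget := by
  intro p _ C _ _ _ _ _ S n hn
  refine ⟨fun η r hη => ⟨Period.summable_term S n hn hη r, Period.per_add_n S n η r,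
    fun η' hη' => Period.per_add S hn r hη hη', Period.per_pow S n η r,
    fun c hc => Period.per_mul S n hn hc η r,
    fun s r₀ hr hs h => Period.tendsto_per S n hn r hr hs h⟩, ?_, ?_, fun u hu => ⟨?_, ?_, ?_⟩⟩
  · rintro ⟨π, hπ0, hπ⟩ δ hδ
    obtain ⟨η₀, h0, h1, hnt⟩ := Period.exists_noTie n hn hπ hπ0
    have hne := Period.per_ne_zero S n hn h1 h0 hnt
    obtain ⟨N, hN⟩ := exists_pow_lt_of_lt_one hδ h1
    refine ⟨η₀ ^ p ^ (n * N), ?_, ?_⟩
    · rw [norm_pow]
      refine lt_of_le_of_lt (pow_le_pow_of_le_one (norm_nonneg _) h1.le ?_) hN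
      exact (Nat.le_mul_of_pos_left N hn).trans
        (Nat.lt_pow_self (Fact.out : p.Prime).one_lt).le
    · rw [Period.per_pow, zero_add]
      suffices h : ∀ m : ℕ, per p n S η₀ ((n * m : ℕ) : ℤ) ≠ 0 from h N
      intro m
      induction m with
      | zero => simpa using hne
      | succ m ih =>
        rw [show ((n * (m + 1) : ℕ) : ℤ) = ((n * m : ℕ) : ℤ) + n by push_cast; ring,
          Period.per_add_n]
        exact mul_ne_zero Period.p_ne_zero ih
  · intro hn2 η hη h0
    obtain ⟨r, hr, hnt⟩ := Period.exists_noTie_r n hn2 hη h0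
    exact ⟨r, hr, Period.per_ne_zero S n hn hη h0 hnt⟩
  · exact fun r => Period.tendsto_wper hn hu r
  · intro a b ha hb
    refine ⟨Period.summable_logVal (Period.norm_vTuple_le hu) ha,
      Period.logVal_padd (Period.norm_vTuple_le hu) ha hb, fun h => ?_⟩
    rw [one_div] at h ⊢
    simpa using Period.norm_logVal_sub_le (Period.norm_vTuple_le hu) ha hb (j := 0) (by simpa using h)
  · exact fun η hη => Period.logVal_theta hn hu S hη

end Vale.Agent.P217
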