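import Vale.Agent.P217.Targets
import Vale.Agent.P217.Points.Analytic
import Mathlib.RingTheory.WittVector.DiscreteValuationRing
import Mathlib.RingTheory.PowerSeries.Substitution
import Mathlib.RingTheory.MvPowerSeries.Equiv
import Mathlib.RingTheory.MvPowerSeries.Inverse

/-!
# P217: points of closed subsets of the Lubin-Tate space
-/

noncomputable section

namespace Vale.Agent.P217

open MvPowerSeries

namespace Points

variable {C : Type*} [NormedField C]

lemma norm_finite_hom_le {k : Type*} [Field k] [Finite k] (j : k →+* C) (c : k) : ‖j c‖ ≤ 1 := by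
  cases nonempty_fintype k
  rcases eq_or_ne c 0 with rfl | hc
  · simp
  · have h1 : ‖j c‖ ^ (Fintype.card k - 1) = 1 := by
      rw [← norm_pow, ← map_pow, FiniteField.pow_card_sub_one_eq_one c hc, map_one, norm_one]
    exact ((pow_eq_one_iff_of_nonneg (norm_nonneg _)
      (by have := Fintype.one_lt_card (α := k); omega)).1 h1).le

lemma constantCoeff_eq_zero_of_mem {σ K : Type*} [CommRing K] [IsLocalRing K]
    {f : MvPowerSeries σ K} (hf : ¬ IsUnit f) : ¬ IsUnit (constantCoeff f) :=
  fun h => hf (MvPowerSeries.isUnit_iff_constantCoeff.2 h)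

/-- Finiteness of a quotient killing `(X) ^ N` and the kernel of `K → k`. -/
lemma finite_quotient {σ K k : Type*} [Fintype σ] [CommRing K] [CommRing k] [Finite k]
    (red : K →+* k) (hred : Function.Surjective red) {D : Type*} [CommRing D]
    (π : MvPowerSeries σ K →+* D) (hπ : Function.Surjective π) {N : ℕ}
    (hN : ∀ f ∈ xIdeal σ K ^ N, π f = 0) (hker : ∀ c, red c = 0 → π (MvPowerSeries.C c) = 0) :
    Finite D := by
  classical
  let s : Finset (σ →₀ ℕ) := (Eval.finite_deg_lt (σ := σ) N).toFinset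
  let sec := Function.surjInv hred
  let G : (s → k) → D := fun v => π (∑ d : s, monomial (d : σ →₀ ℕ) (sec (v d)))
  refine Finite.of_surjective G fun y => ?_
  obtain ⟨f, rfl⟩ := hπ y
  refine ⟨fun d => red (coeff (d : σ →₀ ℕ) f), ?_⟩
  simp only [G]
  rw [← sub_eq_zero, ← map_sub, ← sub_add_sub_cancel _
    (∑ d : s, monomial (d : σ →₀ ℕ) (coeff (d : σ →₀ ℕ) f)), map_add, ← Finset.sum_sub_distrib,
    map_sum, Finset.sum_eq_zero, zero_add]
  · apply hN
    refine mem_xIdeal_pow N _ fun d hd => ?_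
    rw [map_sub, map_sum, Finset.sum_eq_single ⟨d, by simpa [s] using hd⟩]
    · rw [coeff_monomial_same, sub_self]
    · intro d' _ hne; rw [coeff_monomial_ne]; exact fun h => hne (Subtype.ext h.symm)
    · intro h; exact absurd (Finset.mem_univ _) h
  · intro d _
    rw [← map_sub, ← mul_one (sec (red (coeff (d : σ →₀ ℕ) f)) - coeff (d : σ →₀ ℕ) f),
      ← smul_eq_mul, map_smul, MvPowerSeries.smul_eq_C_mul, map_mul, hker, zero_mul]
    rw [map_sub, Function.surjInv_eq hred, sub_self]

/-- The common part of the two cases. -/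
theorem exists_point_of_maximal [IsUltrametricDist C] [CompleteSpace C] [IsAlgClosed C]
    {σ K k A : Type*} [Fintype σ] [CommRing K] [IsNoetherianRing K] [IsLocalRing K]
    [CommRing k] [Finite k] (red : K →+* k) (hred : Function.Surjective red)
    [CommRing A] [IsDomain A] [IsDiscreteValuationRing A] {t : A} (htir : Irreducible t)
    [IsPrecomplete (Ideal.span {t}) A]
    (Q : Ideal (MvPowerSeries σ K)) [Q.IsPrime] (φ : A →+* MvPowerSeries σ K ⧸ Q)
    {a : MvPowerSeries σ K} (ha : φ t = Ideal.Quotient.mk Q a) (haQ : a ∉ Q)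
    (hmax : ∀ P : Ideal (MvPowerSeries σ K), P.IsPrime → Q < P → a ∈ P) (hau : ¬ IsUnit a)
    (hker : ∀ c, red c = 0 → Ideal.Quotient.mk Q (MvPowerSeries.C c) ∈ Ideal.span {φ t})
    (ψ₀ : A →+* C) (hψ₀ : ψ₀ t ≠ 0) (hψ₀1 : ∀ s, ‖ψ₀ s‖ ≤ 1) (ht : ‖ψ₀ t‖ < 1)
    {e : K →+* C} (he : ∀ c, ‖e c‖ ≤ 1)
    (hC : ∀ c, ∃ s, φ s = Ideal.Quotient.mk Q (MvPowerSeries.C c) ∧ ψ₀ s = e c) :
    ∃ x : σ → C, Small x ∧ (∀ f ∈ Q, ev x (MvPowerSeries.map e f) = 0) ∧
      ev x (MvPowerSeries.map e a) ≠ 0 := by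
  have hnt : Nontrivial (MvPowerSeries σ K ⧸ Q) :=
    Ideal.Quotient.nontrivial_iff.2 ‹Q.IsPrime›.ne_top
  have hloc : IsLocalRing (MvPowerSeries σ K ⧸ Q) :=
    IsLocalRing.of_surjective' (Ideal.Quotient.mk Q) Ideal.Quotient.mk_surjective
  set m := IsLocalRing.maximalIdeal (MvPowerSeries σ K ⧸ Q)
  have hmk : ∀ f : MvPowerSeries σ K, ¬ IsUnit f → Ideal.Quotient.mk Q f ∈ m := by
    intro f hf hu
    apply hf
    obtain ⟨g, hg⟩ := hu.exists_right_inv
    obtain ⟨g, rfl⟩ := Ideal.Quotient.mk_surjective g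
    rw [← map_mul, ← map_one (Ideal.Quotient.mk Q), Ideal.Quotient.eq] at hg
    have h1 : f * g - 1 ∈ IsLocalRing.maximalIdeal (MvPowerSeries σ K) :=
      IsLocalRing.le_maximalIdeal ‹Q.IsPrime›.ne_top hg
    by_contra hfu
    have h0 : f ∈ IsLocalRing.maximalIdeal (MvPowerSeries σ K) :=
      (IsLocalRing.mem_maximalIdeal _).2 hfu
    have h2 := Ideal.mul_mem_right g (IsLocalRing.maximalIdeal (MvPowerSeries σ K)) h0
    exact (Ideal.ne_top_iff_one _).1
      (IsLocalRing.maximalIdeal.isMaximal (MvPowerSeries σ K)).ne_top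
      (by simpa using Ideal.sub_mem _ h2 h1)
  have hat : φ t ≠ 0 := by rw [ha, Ne, Ideal.Quotient.eq_zero_iff_mem]; exact haQ
  obtain ⟨N, hN⟩ := exists_pow_le_span (a := φ t) hat fun P hP hP0 => by
    rw [ha]
    refine Ideal.mem_comap.1 (hmax (P.comap (Ideal.Quotient.mk Q)) (hP.comap _) ?_)
    refine lt_of_le_of_ne (fun q hq => ?_) fun h => hP0 ?_
    · rw [Ideal.mem_comap, Ideal.Quotient.eq_zero_iff_mem.2 hq]; exact P.zero_mem
    · rw [eq_bot_iff]
      intro y hy
      obtain ⟨y, rfl⟩ := Ideal.Quotient.mk_surjective y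
      rw [Ideal.mem_bot, Ideal.Quotient.eq_zero_iff_mem, h]
      exact hy
  have hXu : ∀ i, ¬ IsUnit (MvPowerSeries.X i : MvPowerSeries σ K) := fun i h => by
    have := h.map (constantCoeff (σ := σ) (R := K))
    rw [constantCoeff_X] at this
    exact not_isUnit_zero this
  have htu : ¬ IsUnit (φ t) := fun h => by
    rw [ha] at h
    exact (IsLocalRing.mem_maximalIdeal _).1 (hmk a hau) h
  have hXN : ∀ f ∈ xIdeal σ K ^ N,
      (Ideal.Quotient.mk (Ideal.span {φ t})).comp (Ideal.Quotient.mk Q) f = 0 := by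
    intro f hf
    rw [RingHom.comp_apply, Ideal.Quotient.eq_zero_iff_mem]
    apply hN
    have h := Ideal.mem_map_of_mem (Ideal.Quotient.mk Q) hf
    rw [Ideal.map_pow] at h
    refine Ideal.pow_right_mono ?_ N h
    rw [xIdeal, Ideal.map_span, Ideal.span_le]
    rintro _ ⟨_, ⟨i, rfl⟩, rfl⟩
    exact hmk _ (hXu i)
  have hfinD : Finite ((MvPowerSeries σ K ⧸ Q) ⧸ Ideal.span {φ t}) :=
    finite_quotient red hred _ (Ideal.Quotient.mk_surjective.comp Ideal.Quotient.mk_surjective) hXN
      fun c hc => Ideal.Quotient.eq_zero_iff_mem.2 (hker c hc)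
  have hφfin : φ.Finite := by
    let := φ.toAlgebra
    exact finite_of_finite_quotient t htu
  obtain ⟨x, hx, θ, hθφ, hev⟩ := exists_point Q φ ψ₀ t he (injective_of_dvr φ htir hat) hφfin
    (injective_of_dvr ψ₀ htir hψ₀) hψ₀1 ht
    (fun i => ⟨N, hN (Ideal.pow_mem_pow (hmk _ (hXu i)) N)⟩) hC
  refine ⟨x, hx, fun f hf => ?_, ?_⟩
  · rw [hev, Ideal.Quotient.eq_zero_iff_mem.2 hf, map_zero]
  · rw [hev, ← ha, hθφ]; exact hψ₀

end Points

theorem pointPTarget : PointPTarget := by
  intro p _ n k _ _ _ C _ _ _ _ _ j J a hpJ ha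
  have : PerfectRing k p := PerfectField.toPerfectRing p
  set cc : WittVector p k →+* k := WittVector.constantCoeff
  set π : LT p n k →+* MvPowerSeries (Fin (n - 1)) k := MvPowerSeries.map cc
  have hcc : Function.Surjective cc := fun c =>
    ⟨WittVector.teichmuller p c, WittVector.teichmuller_coeff_zero p c⟩
  have hπ : Function.Surjective π := fun g =>
    ⟨fun d => Function.surjInv hcc (coeff d g), by
      ext d
      exact Function.surjInv_eq hcc _⟩
  have hkerJ : ∀ f, π f = 0 → f ∈ J := fun f hf => by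
    have hd : ∀ d, ∃ b : WittVector p k, coeff d f = (p : WittVector p k) * b := fun d => by
      have h : (coeff d f).coeff 0 = 0 := by
        have := congrArg (coeff d) hf
        rwa [coeff_map, map_zero] at this
      exact Ideal.mem_span_singleton.1
        ((WittVector.mem_span_p_iff_coeff_zero_eq_zero _).2 h)
    choose b hb using hd
    let B : LT p n k := fun d => b d
    have : f = (p : LT p n k) * B := by
      ext1 d
      rw [← map_natCast (MvPowerSeries.C : WittVector p k →+* LT p n k), coeff_C_mul]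
      exact hb d
    rw [this]
    exact J.mul_mem_right _ hpJ
  have hev : ∀ x f, evK (j.comp cc) x f = ev x (MvPowerSeries.map j (π f)) := fun x f => by
    simp only [evK, π]
    congr 1
  have hja := Points.norm_finite_hom_le (C := C) j
  by_cases hau : IsUnit (π a)
  · refine ⟨fun _ => 0, fun _ => by simp, fun f hf => ?_, ?_⟩
    · rw [hev, Eval.ev_zero, constantCoeff_map]
      have hfu : ¬ IsUnit (π f) := fun hu => by
        apply ha
        have hJ : J = ⊤ := by
          obtain ⟨g, hg⟩ := hu.exists_right_inv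
          obtain ⟨g, rfl⟩ := hπ g
          rw [← map_mul, ← map_one π, ← sub_eq_zero, ← map_sub] at hg
          rw [Ideal.eq_top_iff_one]
          have := J.sub_mem (J.mul_mem_right g hf) (hkerJ _ hg)
          simpa using this
        rw [hJ, Ideal.radical_top]; exact Submodule.mem_top
      have h0 := Points.constantCoeff_eq_zero_of_mem hfu
      rw [isUnit_iff_ne_zero, not_not] at h0
      rw [h0, map_zero]
    · rw [hev, Eval.ev_zero, constantCoeff_map]
      exact (map_ne_zero j).2 (MvPowerSeries.isUnit_iff_constantCoeff.1 hau).ne_zero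
  have ha' : π a ∉ (J.map π).radical := fun h => by
    apply ha
    obtain ⟨N, hN⟩ := h
    obtain ⟨g, hg, hgeq⟩ := (Ideal.mem_map_iff_of_surjective π hπ).1 hN
    refine ⟨N, ?_⟩
    have := hkerJ (a ^ N - g) (by rw [map_sub, map_pow, hgeq, sub_self])
    simpa using J.add_mem this hg
  obtain ⟨Q, hQ, hJQ, haQ, hmax⟩ := Points.exists_prime_avoiding ha'
  have ha0 : constantCoeff (π a) = 0 := by
    have := Points.constantCoeff_eq_zero_of_mem hau
    rwa [isUnit_iff_ne_zero, not_not] at this
  have hsub : PowerSeries.HasSubst (π a) := PowerSeries.HasSubst.of_constantCoeff_zero ha0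
  obtain ⟨c, hc0, hc1⟩ := NormedField.exists_norm_lt_one C
  have hc : ‖c‖ < 1 := hc1
  let φ : PowerSeries k →+* MvPowerSeries (Fin (n - 1)) k ⧸ Q :=
    (Ideal.Quotient.mk Q).comp (PowerSeries.substAlgHom (R := k) hsub).toRingHom
  let ψ₀ : PowerSeries k →+* C := Points.evHom j hja (fun _ : Unit => c) fun _ => hc
  have hφt : φ PowerSeries.X = Ideal.Quotient.mk Q (π a) := by
    simp only [φ, RingHom.comp_apply, AlgHom.toRingHom_eq_coe, RingHom.coe_coe,
      PowerSeries.substAlgHom_X]
  have hψt : ψ₀ PowerSeries.X = c := by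
    change ev (fun _ : Unit => c) (MvPowerSeries.map j (MvPowerSeries.X ())) = c
    rw [map_X, Eval.ev_X]
  have := Points.isPrecomplete_powerSeries k
  obtain ⟨x, hx, hxQ, hxa⟩ := Points.exists_point_of_maximal (RingHom.id k) Function.surjective_id
    PowerSeries.X_irreducible Q φ hφt haQ hmax hau
    (fun c hc => by rw [RingHom.id_apply] at hc; simp [hc])
    ψ₀ (by rw [hψt]; exact norm_pos_iff.1 hc0)
    (fun s => Eval.norm_ev_le_one (Points.intSer_map hja _) fun _ => hc) (by rwa [hψt]) hja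
    (fun b => ⟨PowerSeries.C b, by
      simp only [φ, RingHom.comp_apply, AlgHom.toRingHom_eq_coe, RingHom.coe_coe,
        PowerSeries.coe_substAlgHom, PowerSeries.subst_C], by
      change ev (fun _ : Unit => c) (MvPowerSeries.map j (MvPowerSeries.C b)) = j b
      rw [map_C, Eval.ev_C]⟩)
  exact ⟨x, hx, fun f hf => by rw [hev]; exact hxQ _ (hJQ (Ideal.mem_map_of_mem π hf)),
    by rw [hev]; exact hxa⟩

theorem point0Target : Point0Target := by
  intro p _ n k _ _ _ ι hι J hp
  have : PerfectRing k p := PerfectField.toPerfectRing p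
  obtain ⟨Q, hQ, hJQ, hpQ, hmax⟩ := Points.exists_prime_avoiding hp
  let φ : WittVector p k →+* LT p n k ⧸ Q := (Ideal.Quotient.mk Q).comp MvPowerSeries.C
  have hφt : φ (p : WittVector p k) = Ideal.Quotient.mk Q (p : LT p n k) := by
    rw [map_natCast, map_natCast]
  have hir : Irreducible (p : WittVector p k) := WittVector.irreducible p
  obtain ⟨x, hx, hxQ, -⟩ := Points.exists_point_of_maximal
    (WittVector.constantCoeff : WittVector p k →+* k)
    (fun c => ⟨WittVector.teichmuller p c, WittVector.teichmuller_coeff_zero p c⟩) hir Q φ hφt hpQ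
    hmax
    (fun h => hir.not_isUnit (by
      have := h.map (constantCoeff (σ := Fin (n - 1)) (R := WittVector p k))
      rwa [map_natCast] at this))
    (fun c hc => by
      obtain ⟨b, rfl⟩ := Ideal.mem_span_singleton.1
        ((WittVector.mem_span_p_iff_coeff_zero_eq_zero c).2 hc)
      exact Ideal.mem_span_singleton.2 ⟨φ b, by rw [← map_mul]; rfl⟩)
    ι (by rw [map_natCast]; exact_mod_cast (Fact.out : p.Prime).ne_zero) hι
    (by
      rw [map_natCast, ← map_natCast (algebraMap ℚ_[p] ℂ_[p]), norm_algebraMap']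
      exact Padic.norm_p_lt_one) hι (fun c => ⟨c, rfl, rfl⟩)
  exact ⟨x, hx, fun f hf => hxQ f (hJQ hf)⟩

end Vale.Agent.P217
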