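import Vale.Agent.P217.Defs

/-!
# P217: the final statement (question Q1)
-/

noncomputable section

namespace Vale.Agent.P217

/-- `f = ∑ l_K z ^ (p ^ K)` with `l_0 = 1` and `p * l_K = ∑ v_i ^ (p^(K-i)) * l_(K-i)`, where
`v_i = u_i` for `1 ≤ i < n`, `v_n = 1` and all other `v_i` vanish, over the fraction field of `W(k)`. -/
def IsHazewinkelLog (p : ℕ) [Fact p.Prime] (n : ℕ) (k : Type*) [Field k] [CharP k p]
    (f : PowerSeries (MvPowerSeries (Fin (n - 1)) (FractionRing (WittVector p k)))) : Prop :=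
  ∃ l : ℕ → MvPowerSeries (Fin (n - 1)) (FractionRing (WittVector p k)),
    l 0 = 1 ∧
    (∀ K, 1 ≤ K →
      (p : MvPowerSeries (Fin (n - 1)) (FractionRing (WittVector p k))) * l K =
        ∑ i ∈ Finset.Icc 1 K,
          vTuple n (fun j : Fin (n - 1) => MvPowerSeries.X j) i ^ p ^ (K - i) * l (K - i)) ∧
    (∀ K, PowerSeries.coeff (p ^ K) f = l K) ∧
    (∀ m, (∀ K, m ≠ p ^ K) → PowerSeries.coeff m f = 0)

/-- The inclusion of `W(k)[[u]]` in `Frac(W(k))[[u]]`. -/
def toFrac (p : ℕ) [Fact p.Prime] (n : ℕ) (k : Type*) [Field k] [CharP k p] :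
    LT p n k →+* MvPowerSeries (Fin (n - 1)) (FractionRing (WittVector p k)) :=
  MvPowerSeries.map (algebraMap (WittVector p k) (FractionRing (WittVector p k)))

/-- `γ` is the action of (g, σ^r) on the deformation ring of the special fibre of `F`: it is
semilinear and `g` lifts to a homomorphism from `F` to `γ_* F`. -/
def ActsAs (p : ℕ) [Fact p.Prime] (n : ℕ) (k : Type*) [Field k] [CharP k p]
    (F : FormalGroup (LT p n k)) (g : PowerSeries k) (r : ℕ) (γ : LT p n k →+* LT p n k) : Prop :=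
  (∀ a : WittVector p k,
    γ (MvPowerSeries.C a) = MvPowerSeries.C ((WittVector.frobenius^[r]) a)) ∧
  ∃ φ : PowerSeries (LT p n k), IsHom F (F.map γ) φ ∧ PowerSeries.map (res p n k) φ = g

/-- `g` is an automorphism of the special fibre of `F`. -/
def IsFibreAut (p : ℕ) [Fact p.Prime] (n : ℕ) (k : Type*) [Field k] [CharP k p]
    (F : FormalGroup (LT p n k)) (g : PowerSeries k) : Prop :=
  IsEndo (F.map (res p n k)) g ∧ IsUnit (PowerSeries.coeff 1 g)

/-- An ideal stable under the whole extended stabilizer group. -/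
def Stable (p : ℕ) [Fact p.Prime] (n : ℕ) (k : Type*) [Field k] [CharP k p]
    (F : FormalGroup (LT p n k)) (I : Ideal (LT p n k)) : Prop :=
  ∀ g r γ, IsFibreAut p n k F g → ActsAs p n k F g r γ → ∀ x ∈ I, γ x ∈ I

/-- Chai's question Q1 for a deformation `F` of the height `n` Honda formal group. -/
def AnswerFor (p : ℕ) [Fact p.Prime] (n : ℕ) (k : Type*) [Field k] [CharP k p]
    (F : FormalGroup (LT p n k)) : Prop :=
  (∃ f, IsHazewinkelLog p n k f ∧ HasLog (F.map (toFrac p n k)) f) ∧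
  F.IsComm ∧
  pSer p (F.map (res p n k)) = (PowerSeries.X : PowerSeries k) ^ p ^ n ∧
  (∀ d, MvPowerSeries.coeff d (F.map (res p n k)).toPowerSeries ^ p =
    MvPowerSeries.coeff d (F.map (res p n k)).toPowerSeries) ∧
  (∀ g r, IsFibreAut p n k F g → ∃! γ, ActsAs p n k F g r γ) ∧
  (∀ g r γ, IsFibreAut p n k F g → ActsAs p n k F g r γ → Function.Bijective γ) ∧
  (∀ I : Ideal (LT p n k), I.IsPrime ∧ Stable p n k F I ↔ ∃ h ≤ n, I = hIdeal p n k h) ∧
  (∀ I : Ideal (LT p n k),
    I.IsRadical ∧ Stable p n k F I ↔ (∃ h ≤ n, I = hIdeal p n k h) ∨ I = ⊤)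

/-- The full answer to Q1 of P217. -/
def Answer : Prop :=
  ∀ (p : ℕ) [Fact p.Prime] (n : ℕ), 1 ≤ n →
    ∀ (k : Type) [Field k] [CharP k p] [Fintype k], Fintype.card k = p ^ n →
      ∃ F : FormalGroup (LT p n k), AnswerFor p n k F

end Vale.Agent.P217

end
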