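import Vale.Agent.P217.Targets
import Mathlib.RingTheory.Perfectoid.FontaineTheta
import Mathlib.RingTheory.Localization.FractionRing
import Mathlib.Algebra.Polynomial.Lifts
import Mathlib.RingTheory.Polynomial.ScaleRoots
import Mathlib.FieldTheory.Perfect
import Mathlib.Topology.Algebra.Polynomial

/-!
# P217: the tilt of `ℂ_[p]`

The unit ball of the tilt is the perfection of the reduction modulo `p` of the unit ball of
`ℂ_[p]`; the tilt is its fraction field, normed through the untilt map.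
-/

noncomputable section

namespace Vale.Agent.P217

namespace Tilt

open Filter Topology Polynomial

variable {p : ℕ} [hp : Fact p.Prime]

/-- The unit ball of `ℂ_[p]`. -/
abbrev O (p : ℕ) [Fact p.Prime] : Subring ℂ_[p] := unitBall ℂ_[p]

lemma norm_le_one (a : O p) : ‖(a : ℂ_[p])‖ ≤ 1 := a.2

lemma norm_p : ‖(p : ℂ_[p])‖ = (p : ℝ)⁻¹ := by
  rw [← map_natCast (algebraMap ℚ_[p] ℂ_[p]) p]
  exact (PadicComplex.norm_extends' p _).trans Padic.norm_p

lemma inv_p_pos : 0 < (p : ℝ)⁻¹ := inv_pos.2 (by exact_mod_cast hp.out.pos)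

lemma inv_p_lt_one : (p : ℝ)⁻¹ < 1 := inv_lt_one_of_one_lt₀ (by exact_mod_cast hp.out.one_lt)

instance : Fact (¬IsUnit (p : O p)) :=
  ⟨fun h => by
    obtain ⟨b, hb⟩ := isUnit_iff_exists_inv.1 h
    have h1 : ‖(p : ℂ_[p])‖ * ‖(b : ℂ_[p])‖ = 1 := by
      rw [← norm_mul, ← norm_one (α := ℂ_[p])]
      exact congrArg _ (congrArg Subtype.val hb)
    have := mul_le_mul_of_nonneg_left (norm_le_one b) (norm_nonneg (p : ℂ_[p]))
    rw [h1, mul_one, norm_p] at this
    linarith [inv_p_lt_one (p := p)]⟩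

lemma mem_span_pow {x : O p} {n : ℕ} :
    x ∈ Ideal.span {(p : O p)} ^ n ↔ ‖(x : ℂ_[p])‖ ≤ (p : ℝ)⁻¹ ^ n := by
  rw [Ideal.span_singleton_pow, Ideal.mem_span_singleton]
  constructor
  · rintro ⟨y, rfl⟩
    push_cast
    rw [norm_mul, norm_pow, norm_p]
    exact mul_le_of_le_one_right (pow_nonneg inv_p_pos.le n) (norm_le_one y)
  · intro h
    have hp0 : (p : ℂ_[p]) ^ n ≠ 0 := pow_ne_zero _ (Nat.cast_ne_zero.2 hp.out.ne_zero)
    have hy : (x : ℂ_[p]) / (p : ℂ_[p]) ^ n ∈ O p := by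
      change ‖_‖ ≤ 1
      rw [norm_div, norm_pow, norm_p]
      exact div_le_one_of_le₀ h (pow_nonneg inv_p_pos.le n)
    refine ⟨⟨_, hy⟩, Subtype.ext ?_⟩
    push_cast
    rw [mul_div_cancel₀ _ hp0]

instance : IsAdicComplete (Ideal.span {(p : O p)}) (O p) where
  haus' x hx := by
    refine Subtype.ext (norm_le_zero_iff.1 ?_)
    refine ge_of_tendsto' (tendsto_pow_atTop_nhds_zero_of_lt_one (inv_p_pos (p := p)).le
      inv_p_lt_one) fun n => ?_
    have := hx n
    rw [SModEq.zero, smul_eq_mul, Ideal.mul_top] at this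
    exact mem_span_pow.1 this
  prec' f hf := by
    have hd : ∀ {m n}, m ≤ n → ‖(f m : ℂ_[p]) - f n‖ ≤ (p : ℝ)⁻¹ ^ m := fun {m n} h => by
      have := hf h
      rw [SModEq.sub_mem, smul_eq_mul, Ideal.mul_top, mem_span_pow] at this
      simpa using this
    have hc : CauchySeq fun n => (f n : ℂ_[p]) :=
      cauchySeq_of_le_tendsto_0' (fun n => (p : ℝ)⁻¹ ^ n)
        (fun n m h => (dist_eq_norm _ _).trans_le (hd h))
        (tendsto_pow_atTop_nhds_zero_of_lt_one inv_p_pos.le inv_p_lt_one)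
    obtain ⟨L, hL⟩ := cauchySeq_tendsto_of_complete hc
    have hL1 : L ∈ O p := le_of_tendsto' hL.norm fun n => norm_le_one (f n)
    refine ⟨⟨L, hL1⟩, fun n => ?_⟩
    rw [SModEq.sub_mem, smul_eq_mul, Ideal.mul_top, mem_span_pow]
    refine le_of_tendsto (tendsto_const_nhds.sub hL).norm
      (eventually_atTop.2 ⟨n, fun m h => ?_⟩)
    exact hd h

/-- The reduction modulo `p`. -/
abbrev red : O p →+* ModP (O p) p := Ideal.Quotient.mk _

lemma red_eq {a b : O p} : red a = red b ↔ ‖(a : ℂ_[p]) - b‖ ≤ (p : ℝ)⁻¹ := by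
  rw [Ideal.Quotient.eq]
  simpa using mem_span_pow (x := a - b) (n := 1)

/-- The ring of integers of the tilt. -/
abbrev PT (p : ℕ) [Fact p.Prime] : Type := PreTilt (O p) p

/-- The untilt map with values in `ℂ_[p]`. -/
def u (x : PT p) : ℂ_[p] := ((PreTilt.untilt x : O p) : ℂ_[p])

/-- The untilt of the `p ^ n`-th root. -/
def w (n : ℕ) (x : PT p) : O p := PreTilt.untilt (((frobeniusEquiv (PT p) p).symm^[n]) x)

lemma w_pow (n : ℕ) (x : PT p) : (w n x : ℂ_[p]) ^ p ^ n = u x := by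
  rw [w, u, ← PreTilt.untilt_iterate_frobeniusEquiv_symm_pow x n]
  rfl

lemma red_w (n : ℕ) (x : PT p) : red (w n x) = PreTilt.coeff n x := by
  rw [w, red, PreTilt.mk_untilt_eq_coeff_zero, PreTilt.coeff_iterate_frobeniusEquiv_symm, zero_add]

lemma w_succ (n : ℕ) (x : PT p) : w (n + 1) x ^ p = w n x := by
  rw [w, w, ← map_pow, Function.iterate_succ_apply']
  congr 1
  exact frobeniusEquiv_symm_pow_p (PT p) p _

lemma norm_u_le_one (x : PT p) : ‖u x‖ ≤ 1 := norm_le_one _

lemma u_mul (x y : PT p) : u (x * y) = u x * u y := by simp [u]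

lemma u_one : u (1 : PT p) = 1 := by simp [u]

lemma u_zero : u (0 : PT p) = 0 := by
  have : PreTilt.untilt (0 : PT p) = (0 : O p) := Perfection.teichmuller_zero
  simp [u, this]

lemma norm_u_le_of_coeff {n : ℕ} {x : PT p} {a : O p} (h : PreTilt.coeff n x = red a) :
    ‖u x‖ ≤ max ‖(a : ℂ_[p])‖ (p : ℝ)⁻¹ ^ p ^ n := by
  rw [← w_pow n x, norm_pow]
  refine pow_le_pow_left₀ (norm_nonneg _) ?_ _
  have h1 : ‖(w n x : ℂ_[p]) - a‖ ≤ (p : ℝ)⁻¹ := red_eq.1 ((red_w n x).trans h)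
  calc ‖(w n x : ℂ_[p])‖ = ‖((w n x : ℂ_[p]) - a) + a‖ := by rw [sub_add_cancel]
    _ ≤ max ‖(w n x : ℂ_[p]) - a‖ ‖(a : ℂ_[p])‖ := IsUltrametricDist.norm_add_le_max _ _
    _ ≤ _ := max_le (h1.trans (le_max_right _ _)) (le_max_left _ _)

lemma coeff_eq_zero {n : ℕ} {x : PT p} (h : ‖u x‖ ≤ (p : ℝ)⁻¹ ^ p ^ n) :
    PreTilt.coeff n x = 0 := by
  rw [← w_pow n x, norm_pow] at h
  have := le_of_pow_le_pow_left₀ (pow_ne_zero n hp.out.ne_zero) inv_p_pos.le h
  rw [← red_w, ← map_zero (red (p := p))]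
  exact red_eq.2 (by simpa using this)

lemma u_eq_zero {x : PT p} (h : u x = 0) : x = 0 :=
  Perfection.ext fun n => (coeff_eq_zero (by
    rw [h, norm_zero]; exact pow_nonneg inv_p_pos.le _)).trans (map_zero _).symm

lemma tendsto_pp : Tendsto (fun n : ℕ => (p : ℝ)⁻¹ ^ p ^ n) atTop (𝓝 0) :=
  (tendsto_pow_atTop_nhds_zero_of_lt_one inv_p_pos.le inv_p_lt_one).comp
    (tendsto_pow_atTop_atTop_of_one_lt hp.out.one_lt)

lemma norm_u_add (x y : PT p) : ‖u (x + y)‖ ≤ max ‖u x‖ ‖u y‖ := by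
  have key : ∀ n : ℕ, ‖u (x + y)‖ ≤ max (max ‖u x‖ ‖u y‖) ((p : ℝ)⁻¹ ^ p ^ n) := fun n => by
    refine (norm_u_le_of_coeff (n := n) (a := w n x + w n y) ?_).trans ?_
    · rw [map_add, map_add, red_w, red_w]
    have h := IsUltrametricDist.norm_add_le_max (w n x : ℂ_[p]) (w n y)
    rcases max_cases ‖((w n x + w n y : O p) : ℂ_[p])‖ (p : ℝ)⁻¹ with ⟨e, -⟩ | ⟨e, -⟩ <;> rw [e]
    · refine le_trans ?_ (le_max_left _ _)
      push_cast
      refine (pow_le_pow_left₀ (norm_nonneg _) h _).trans ?_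
      rcases max_cases ‖(w n x : ℂ_[p])‖ ‖(w n y : ℂ_[p])‖ with ⟨e', -⟩ | ⟨e', -⟩ <;>
        rw [e', ← norm_pow, w_pow]
      exacts [le_max_left _ _, le_max_right _ _]
    · exact le_max_right _ _
  have := (tendsto_const_nhds (x := max ‖u x‖ ‖u y‖)).max (tendsto_pp (p := p))
  rw [max_eq_left (le_max_of_le_left (norm_nonneg _))] at this
  exact ge_of_tendsto' this key

lemma norm_u_add_sub (x y : PT p) : ‖u (x + y) - u x - u y‖ ≤ (p : ℝ)⁻¹ := by
  have h : red (PreTilt.untilt (x + y)) = red (PreTilt.untilt x + PreTilt.untilt y : O p) := by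
    simp only [map_add, red, PreTilt.mk_untilt_eq_coeff_zero]
  simpa [u, sub_sub] using red_eq.1 h

lemma u_neg (x : PT p) : ‖u (-x)‖ = ‖u x‖ := by
  have h1 : u ((-1 : PT p)) * u (-1) = 1 := by rw [← u_mul]; simp [u_one]
  have h2 : ‖u (-1 : PT p)‖ = 1 := by
    have := congrArg norm h1
    rw [norm_mul, norm_one] at this
    nlinarith [norm_nonneg (u (-1 : PT p))]
  rw [neg_eq_neg_one_mul, u_mul, norm_mul, h2, one_mul]

lemma exists_of_seq (z : ℕ → O p) (hz : ∀ n, z (n + 1) ^ p = z n) :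
    ∃ x : PT p, (∀ n, PreTilt.coeff n x = red (z n)) ∧ u x = z 0 := by
  refine ⟨⟨fun n => red (z n), fun n => by rw [← map_pow, hz]⟩, fun n => rfl, ?_⟩
  have hpow : ∀ n, z n ^ p ^ n = z 0 := fun n => by
    induction n with
    | zero => simp
    | succ n ih => rw [pow_succ', pow_mul, hz, ih]
  exact congrArg Subtype.val (Perfection.teichmuller_spec (fun n => ⟨z n, rfl, by rw [hpow]; rfl⟩))

lemma exists_of_elem (a : O p) : ∃ x : PT p, PreTilt.coeff 0 x = red a ∧ u x = a := by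
  have step : ∀ b : O p, ∃ c : O p, c ^ p = b := fun b => by
    obtain ⟨c, hc⟩ := IsAlgClosed.exists_pow_nat_eq (b : ℂ_[p]) hp.out.pos
    refine ⟨⟨c, ?_⟩, Subtype.ext (by simpa using hc)⟩
    have : ‖c‖ ^ p ≤ 1 := by rw [← norm_pow, hc]; exact norm_le_one b
    exact (pow_le_one_iff_of_nonneg (norm_nonneg c) hp.out.ne_zero).1 this
  choose r hr using step
  obtain ⟨x, hx, hu⟩ := exists_of_seq (fun m => r^[m] a) fun m => by
    rw [Function.iterate_succ_apply', hr]
  exact ⟨x, hx 0, hu⟩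

lemma exists_coeff (n : ℕ) (a : O p) : ∃ x : PT p, PreTilt.coeff n x = red a := by
  obtain ⟨x, hx, -⟩ := exists_of_elem a
  refine ⟨(frobenius (PT p) p)^[n] x, ?_⟩
  have h := PreTilt.coeff_iterate_frobenius 0 n x
  rw [zero_add] at h
  rw [h, hx]

instance : NoZeroDivisors (PT p) :=
  ⟨fun {x y} h => by
    have : u x * u y = 0 := by rw [← u_mul, h, u_zero]
    exact (mul_eq_zero.1 this).imp u_eq_zero u_eq_zero⟩

instance : Nontrivial (PT p) :=
  ⟨⟨0, 1, fun h => by simpa [u_zero, u_one] using congrArg u h⟩⟩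

instance : IsDomain (PT p) := NoZeroDivisors.to_isDomain _

/-- The tilt. -/
abbrev TC (p : ℕ) [Fact p.Prime] : Type := FractionRing (PT p)

/-- The embedding of the integers. -/
abbrev ι : PT p →+* TC p := algebraMap (PT p) (TC p)

/-- The untilt map on the tilt. -/
def rhoFun (c : TC p) : ℂ_[p] :=
  u (IsLocalization.sec (nonZeroDivisors (PT p)) c).1 /
    u ((IsLocalization.sec (nonZeroDivisors (PT p)) c).2 : PT p)

lemma rhoFun_div (a b : PT p) (hb : b ≠ 0) : rhoFun (ι a / ι b) = u a / u b := by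
  have h := IsLocalization.sec_spec (nonZeroDivisors (PT p)) (ι a / ι b)
  unfold rhoFun
  set s := IsLocalization.sec (nonZeroDivisors (PT p)) (ι a / ι b)
  have hs : (s.2 : PT p) ≠ 0 := nonZeroDivisors.ne_zero s.2.2
  have hb' : ι b ≠ 0 := (map_ne_zero_iff _ (IsFractionRing.injective (PT p) (TC p))).2 hb
  rw [div_mul_eq_mul_div, div_eq_iff hb', ← map_mul, ← map_mul] at h
  have h' := congrArg u (IsFractionRing.injective (PT p) (TC p) h)
  rw [u_mul, u_mul] at h'
  rw [div_eq_div_iff (fun e => hs (u_eq_zero e)) (fun e => hb (u_eq_zero e))]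
  exact h'.symm

lemma exists_div (c : TC p) : ∃ a b : PT p, b ≠ 0 ∧ c = ι a / ι b := by
  obtain ⟨a, b, hb, h⟩ := IsFractionRing.div_surjective (A := PT p) c
  exact ⟨a, b, nonZeroDivisors.ne_zero hb, h.symm⟩

lemma rhoFun_ι (a : PT p) : rhoFun (ι a) = u a := by
  simpa [u_one] using rhoFun_div a 1 one_ne_zero

/-- The untilt map on the tilt as a multiplicative map. -/
def rho : TC p →*₀ ℂ_[p] where
  toFun := rhoFun
  map_zero' := by simpa [u_zero] using rhoFun_ι (0 : PT p)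
  map_one' := by simpa [u_one] using rhoFun_ι (1 : PT p)
  map_mul' c d := by
    obtain ⟨a, b, hb, rfl⟩ := exists_div c
    obtain ⟨a', b', hb', rfl⟩ := exists_div d
    rw [div_mul_div_comm, ← map_mul, ← map_mul, rhoFun_div _ _ (mul_ne_zero hb hb'),
      rhoFun_div _ _ hb, rhoFun_div _ _ hb', u_mul, u_mul, div_mul_div_comm]

lemma rho_ι (a : PT p) : rho (ι a) = u a := rhoFun_ι a

lemma rho_eq_zero {c : TC p} (h : rho c = 0) : c = 0 :=
  by_contra fun hc => by
    have : rho c * rho c⁻¹ = 1 := by rw [← map_mul, mul_inv_cancel₀ hc, map_one]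
    rw [h, zero_mul] at this
    exact zero_ne_one this

lemma norm_rho_add (c d : TC p) : ‖rho (c + d)‖ ≤ max ‖rho c‖ ‖rho d‖ := by
  obtain ⟨a, b, hb, rfl⟩ := exists_div c
  obtain ⟨a', b', hb', rfl⟩ := exists_div d
  have hne : ∀ {t : PT p}, t ≠ 0 → ι t ≠ 0 := fun ht =>
    (map_ne_zero_iff _ (IsFractionRing.injective (PT p) (TC p))).2 ht
  rw [show ι a / ι b = ι (a * b') / ι (b * b') by
      rw [map_mul, map_mul, mul_div_mul_right _ _ (hne hb')],
    show ι a' / ι b' = ι (b * a') / ι (b * b') by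
      rw [map_mul, map_mul, mul_div_mul_left _ _ (hne hb)],
    ← add_div, ← map_add]
  simp only [map_div₀, rho_ι, norm_div]
  rw [max_div_div_right (norm_nonneg _)]
  exact div_le_div_of_nonneg_right (norm_u_add _ _) (norm_nonneg _)

/-- The absolute value of the tilt. -/
def absV : AbsoluteValue (TC p) ℝ where
  toFun c := ‖rho c‖
  map_mul' c d := by rw [map_mul, norm_mul]
  nonneg' c := norm_nonneg _
  eq_zero' c := ⟨fun h => rho_eq_zero (norm_eq_zero.1 h), fun h => by simp [h]⟩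
  add_le' c d := (norm_rho_add c d).trans (max_le_add_of_nonneg (norm_nonneg _) (norm_nonneg _))

instance normedField : NormedField (TC p) := absV.toNormedField

lemma norm_def (c : TC p) : ‖c‖ = ‖rho c‖ := rfl

lemma norm_ι (a : PT p) : ‖ι a‖ = ‖u a‖ := by rw [norm_def, rho_ι]

instance : IsUltrametricDist (TC p) :=
  IsUltrametricDist.isUltrametricDist_of_forall_norm_add_le_max_norm norm_rho_add

lemma exists_pseudo : ∃ x : PT p, u x = (p : ℂ_[p]) := by
  obtain ⟨x, -, hx⟩ := exists_of_elem (p : O p)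
  exact ⟨x, by simpa using hx⟩

instance : NontriviallyNormedField (TC p) where
  non_trivial := by
    obtain ⟨x, hx⟩ := exists_pseudo (p := p)
    refine ⟨(ι x)⁻¹, ?_⟩
    rw [norm_inv, norm_ι, hx, norm_p, inv_inv]
    exact_mod_cast hp.out.one_lt

instance : CharP (TC p) p :=
  charP_of_injective_algebraMap (IsFractionRing.injective (PT p) (TC p)) p

lemma exists_ι {c : TC p} (hc : ‖c‖ ≤ 1) : ∃ x, ι x = c := by
  obtain ⟨a, b, hb, rfl⟩ := exists_div c
  rw [norm_div, norm_ι, norm_ι] at hc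
  have hu : u b ≠ 0 := fun e => hb (u_eq_zero e)
  have hw : ∀ n, (w n b : ℂ_[p]) ≠ 0 := fun n e => hu (by
    rw [← w_pow n b, e, zero_pow (pow_ne_zero n hp.out.ne_zero)])
  have hz : ∀ n, (w n a : ℂ_[p]) / (w n b : ℂ_[p]) ∈ O p := fun n => by
    refine (pow_le_one_iff_of_nonneg (norm_nonneg _) (pow_ne_zero n hp.out.ne_zero)).1 ?_
    rwa [← norm_pow, div_pow, w_pow, w_pow, norm_div]
  obtain ⟨x, hx, -⟩ := exists_of_seq (fun n => ⟨_, hz n⟩) fun n => Subtype.ext <| by
    push_cast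
    rw [div_pow, ← w_succ n a, ← w_succ n b]
    push_cast
    rfl
  have hab : x * b = a := Perfection.ext fun n => by
    have e : (⟨_, hz n⟩ : O p) * w n b = w n a := Subtype.ext (div_mul_cancel₀ _ (hw n))
    change PreTilt.coeff n (x * b) = PreTilt.coeff n a
    rw [map_mul, hx, ← red_w n b, ← map_mul, e, red_w]
  refine ⟨x, ?_⟩
  rw [← hab, map_mul, mul_div_assoc, div_self, mul_one]
  exact (map_ne_zero_iff _ (IsFractionRing.injective (PT p) (TC p))).2 hb

lemma exists_limit {a : ℕ → PT p}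
    (h : ∀ ε > 0, ∃ N, ∀ i ≥ N, ∀ j ≥ N, ‖u (a i - a j)‖ ≤ ε) :
    ∃ x, Tendsto (fun j => ι (a j)) atTop (𝓝 (ι x)) := by
  choose M hM using fun n : ℕ => h ((p : ℝ)⁻¹ ^ p ^ n) (pow_pos inv_p_pos _)
  have hc : ∀ n i, M n ≤ i → PreTilt.coeff n (a i) = PreTilt.coeff n (a (M n)) := fun n i hi => by
    rw [← sub_eq_zero, ← map_sub]
    exact coeff_eq_zero (hM n i hi _ le_rfl)
  let x : PT p := ⟨fun n => PreTilt.coeff n (a (M n)), fun n => by
    change PreTilt.coeff (n + 1) (a (M (n + 1))) ^ p = PreTilt.coeff n (a (M n))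
    rw [← hc n _ (le_max_left _ (M (n + 1))),
      ← PreTilt.coeff_pow_p (a (max (M n) (M (n + 1)))) n, hc (n + 1) _ (le_max_right _ _)]⟩
  refine ⟨x, tendsto_iff_norm_sub_tendsto_zero.2 ?_⟩
  refine Metric.tendsto_atTop.2 fun ε hε => ?_
  obtain ⟨n, hn⟩ := ((tendsto_pp (p := p)).eventually (gt_mem_nhds hε)).exists
  refine ⟨M n, fun j hj => ?_⟩
  rw [dist_zero_right, norm_norm, ← map_sub, norm_ι]
  refine lt_of_le_of_lt ((norm_u_le_of_coeff (n := n) (a := 0) ?_).trans ?_) hn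
  · rw [map_sub, map_zero, hc n j hj, sub_eq_zero]; rfl
  · simp

instance : CompleteSpace (TC p) := by
  refine Metric.complete_of_cauchySeq_tendsto fun f hf => ?_
  obtain ⟨N, hN⟩ := Metric.cauchySeq_iff.1 hf 1 one_pos
  choose a ha using fun j : ℕ =>
    exists_ι (c := f (N + j) - f N) (by
      rw [← dist_eq_norm]; exact (hN _ (Nat.le_add_right N j) _ le_rfl).le)
  obtain ⟨x, hx⟩ := exists_limit (a := a) fun ε hε => by
    obtain ⟨N', hN'⟩ := Metric.cauchySeq_iff.1 hf ε hε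
    refine ⟨N', fun i hi j hj => ?_⟩
    rw [← norm_ι, map_sub, ha, ha, sub_sub_sub_cancel_right, ← dist_eq_norm]
    exact (hN' _ (by omega) _ (by omega)).le
  refine ⟨ι x + f N, (tendsto_add_atTop_iff_nat N).1 ?_⟩
  simpa [ha, add_comm] using hx.add (tendsto_const_nhds (x := f N))

/-- A root of a monic polynomial near an approximate root. -/
lemma exists_root_near {Q : ℂ_[p][X]} (hQ : Q.Monic) (hd : 1 ≤ Q.natDegree) (t : ℂ_[p]) :
    ∃ s, Q.IsRoot s ∧ ‖t - s‖ ^ Q.natDegree ≤ ‖Q.eval t‖ := by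
  classical
  have hsp := IsAlgClosed.splits Q
  have hcard : Q.roots.card = Q.natDegree := hsp.natDegree_eq_card_roots.symm
  have hne : Q.roots.toFinset.Nonempty := by
    have h0 : Q.roots ≠ 0 := fun e => by rw [e, Multiset.card_zero] at hcard; omega
    obtain ⟨s, hs⟩ := Multiset.exists_mem_of_ne_zero h0
    exact ⟨s, Multiset.mem_toFinset.2 hs⟩
  obtain ⟨s, hs, hmin⟩ := Q.roots.toFinset.exists_min_image (fun s => ‖t - s‖) hne
  refine ⟨s, (mem_roots'.1 (Multiset.mem_toFinset.1 hs)).2, ?_⟩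
  have hev : Q.eval t = (Q.roots.map fun r => t - r).prod := by
    conv_lhs => rw [hsp.eq_prod_roots_of_monic hQ]
    simp [eval_multiset_prod, Multiset.map_map]
  rw [hev, ← hcard]
  have key : ∀ m : Multiset ℂ_[p], (∀ r ∈ m, ‖t - s‖ ≤ ‖t - r‖) →
      ‖t - s‖ ^ m.card ≤ ‖(m.map fun r => t - r).prod‖ := fun m => by
    induction m using Multiset.induction with
    | empty => simp
    | cons r m ih =>
      intro h
      rw [Multiset.card_cons, Multiset.map_cons, Multiset.prod_cons, norm_mul, pow_succ']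
      exact mul_le_mul (h r (Multiset.mem_cons_self r m))
        (ih fun r' hr' => h r' (Multiset.mem_cons_of_mem hr')) (pow_nonneg (norm_nonneg _) _)
        (norm_nonneg _)
  exact key _ fun r hr => hmin r (Multiset.mem_toFinset.2 hr)

/-- Points with arbitrarily long chains above them form a chain (Koenig). -/
lemma exists_chain {α : ℕ → Type} [∀ n, Finite (α n)] [∀ n, Nonempty (α n)]
    (f : ∀ n, α (n + 1) → α n) : ∃ r : ∀ n, α n, ∀ n, f n (r (n + 1)) = r n := by
  classical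
  let R : ℕ → ∀ n, α n → Prop := fun k => Nat.rec (fun _ _ => True)
    (fun _ Rk n x => ∃ y, f n y = x ∧ Rk (n + 1) y) k
  have hmono : ∀ k n x, R (k + 1) n x → R k n x := by
    intro k
    induction k with
    | zero => intros; trivial
    | succ k ih => rintro n x ⟨y, hy, h⟩; exact ⟨y, hy, ih _ _ h⟩
  have hanti : ∀ {k l}, k ≤ l → ∀ n x, R l n x → R k n x := fun {k l} hkl => by
    induction hkl with
    | refl => exact fun n x h => h
    | step _ ih => exact fun n x h => ih n x (hmono _ n x h)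
  have hsel : ∀ n (P : α n → Prop), (∀ k, ∃ x, P x ∧ R k n x) → ∃ x, P x ∧ ∀ k, R k n x := by
    intro n P h
    cases nonempty_fintype (α n)
    by_contra hcon
    push Not at hcon
    choose K hK using fun x : {x // P x} => hcon x.1 x.2
    obtain ⟨x, hx, hR⟩ := h (Finset.univ.sup K)
    exact hK ⟨x, hx⟩ (hanti (Finset.le_sup (Finset.mem_univ _)) n x hR)
  have hbase : ∀ k n, ∃ x, R k n x := by
    intro k
    induction k with
    | zero => exact fun n => ⟨Classical.arbitrary _, trivial⟩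
    | succ k ih => exact fun n => ⟨f n (ih (n + 1)).choose, _, rfl, (ih (n + 1)).choose_spec⟩
  obtain ⟨x0, -, hx0⟩ := hsel 0 (fun _ => True) fun k => (hbase k 0).imp fun x h => ⟨trivial, h⟩
  have hnext : ∀ n (x : {x // ∀ k, R k n x}),
      ∃ y : {y // ∀ k, R k (n + 1) y}, f n y.1 = x.1 := by
    intro n x
    obtain ⟨y, hy, h⟩ := hsel (n + 1) (fun y => f n y = x.1) fun k => x.2 (k + 1)
    exact ⟨⟨y, h⟩, hy⟩
  choose g hg using hnext
  let r : ∀ n, {x // ∀ k, R k n x} := fun n => Nat.rec ⟨x0, hx0⟩ g n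
  exact ⟨fun n => (r n).1, fun n => hg n (r n)⟩

lemma exists_root_integral (P : (PT p)[X]) (hP : P.Monic) (hd : 1 ≤ P.natDegree) :
    ∃ x : TC p, (P.map ι).IsRoot x := by
  classical
  set d := P.natDegree with hd'
  have hlift : ∀ n, ∃ Q : (O p)[X], Q.map red = P.map (PreTilt.coeff n) ∧ Q.natDegree = d ∧
      Q.Monic := fun n => by
    obtain ⟨Q, h1, h2, h3⟩ := lifts_and_natDegree_eq_and_monic (f := red (p := p))
      ((lifts_iff_coeff_lifts _).2 fun i => Ideal.Quotient.mk_surjective _)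
      (hP.map (PreTilt.coeff n))
    exact ⟨Q, h1, h2.trans (hP.natDegree_map _), h3⟩
  choose Q hQ hQd hQm using hlift
  have hev : ∀ n (t : O p), red ((Q n).eval t) = P.eval₂ (PreTilt.coeff n) (red t) :=
    fun n t => by rw [← eval_map_apply, hQ, eval_map]
  have hnear : ∀ n (t : O p), ∃ s : O p, (Q n).IsRoot s ∧
      ‖(t : ℂ_[p]) - s‖ ^ d ≤ ‖(((Q n).eval t : O p) : ℂ_[p])‖ := by
    intro n t
    have hm := (hQm n).map (O p).subtype
    have hdeg : ((Q n).map (O p).subtype).natDegree = d := by rw [(hQm n).natDegree_map, hQd]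
    obtain ⟨s, hs, hle⟩ := exists_root_near hm (hdeg ▸ hd) (t : ℂ_[p])
    rw [hdeg] at hle
    have he : ((Q n).map (O p).subtype).eval (t : ℂ_[p]) = (((Q n).eval t : O p) : ℂ_[p]) :=
      eval_map_apply (O p).subtype t
    rw [he] at hle
    have h1 : ‖(t : ℂ_[p]) - s‖ ≤ 1 :=
      (pow_le_one_iff_of_nonneg (norm_nonneg _) (by omega)).1 (hle.trans (norm_le_one _))
    have hsO : s ∈ O p := by
      have := IsUltrametricDist.norm_add_le_max ((s : ℂ_[p]) - t) t
      rw [sub_add_cancel, norm_sub_rev] at this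
      exact this.trans (max_le h1 (norm_le_one t))
    exact ⟨⟨s, hsO⟩, IsRoot.of_map (x := (⟨s, hsO⟩ : O p)) hs Subtype.val_injective, hle⟩
  let α : ℕ → Type := fun n => {s : O p // (Q n).IsRoot s}
  have : ∀ n, Finite (α n) := fun n => (finite_setOfPred_isRoot (hQm n).ne_zero).to_subtype
  have : ∀ n, Nonempty (α n) := fun n => let ⟨s, hs, _⟩ := hnear n 0; ⟨⟨s, hs⟩⟩
  have hpar : ∀ n (r : α (n + 1)), ∃ s : α n,
      ‖(r.1 : ℂ_[p]) ^ p - (s.1 : ℂ_[p])‖ ^ d ≤ (p : ℝ)⁻¹ := by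
    intro n r
    obtain ⟨s, hs, hle⟩ := hnear n (r.1 ^ p)
    refine ⟨⟨s, hs⟩, (by simpa using hle : _ ≤ _).trans ?_⟩
    have h0 : red ((Q n).eval (r.1 ^ p)) = red 0 := by
      rw [hev, map_pow, map_zero]
      have h1 := hev (n + 1) r.1
      rw [r.2.eq_zero, map_zero] at h1
      have h2 := congrArg (frobenius (ModP (O p) p) p) h1.symm
      rw [map_zero, hom_eval₂, frobenius_def] at h2
      convert h2 using 2
      ext x
      exact (PreTilt.coeff_pow_p x n).symm
    simpa using red_eq.1 h0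
  choose f hf using hpar
  obtain ⟨r, hr⟩ := exists_chain f
  choose y hy using fun n => exists_coeff n (r n).1
  have hstep : ∀ n, ‖u (y (n + 1) - y n)‖ ^ d ≤ (p : ℝ)⁻¹ ^ p ^ n := fun n => by
    have hc : PreTilt.coeff n (y (n + 1) - y n) = red ((r (n + 1)).1 ^ p - (r n).1) := by
      rw [map_sub, map_sub, map_pow, hy, ← PreTilt.coeff_pow_p, hy]
    refine (pow_le_pow_left₀ (norm_nonneg _) (norm_u_le_of_coeff hc) d).trans ?_
    rw [pow_right_comm]
    refine pow_le_pow_left₀ (pow_nonneg (le_max_of_le_left (norm_nonneg _)) _) ?_ _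
    have h1 := hf n (r (n + 1))
    rw [hr n] at h1
    rcases max_cases ‖(((r (n + 1)).1 ^ p - (r n).1 : O p) : ℂ_[p])‖ (p : ℝ)⁻¹ with
      ⟨e, -⟩ | ⟨e, -⟩ <;> rw [e]
    · simpa using h1
    · exact pow_le_of_le_one inv_p_pos.le inv_p_lt_one.le (by omega)
  obtain ⟨x, hx⟩ := exists_limit (a := y) fun ε hε => by
    obtain ⟨N, hN⟩ := eventually_atTop.1
      ((tendsto_pp (p := p)).eventually (gt_mem_nhds (pow_pos hε d)))
    have h1 : ∀ n ≥ N, ‖u (y (n + 1) - y n)‖ ≤ ε := fun n hn =>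
      (lt_of_pow_lt_pow_left₀ d hε.le ((hstep n).trans_lt (hN n hn))).le
    have h2 : ∀ i ≥ N, ‖u (y i - y N)‖ ≤ ε := fun i hi => by
      induction hi with
      | refl => simp [u_zero, hε.le]
      | @step i hi ih =>
        have := norm_u_add (y (i + 1) - y i) (y i - y N)
        rw [sub_add_sub_cancel] at this
        exact this.trans (max_le (h1 i hi) ih)
    refine ⟨N, fun i hi j hj => ?_⟩
    have := norm_u_add (y i - y N) (-(y j - y N))
    rw [u_neg, ← sub_eq_add_neg, sub_sub_sub_cancel_right] at this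
    exact this.trans (max_le (h2 i hi) (h2 j hj))
  refine ⟨ι x, tendsto_nhds_unique (((P.map ι).continuous.tendsto _).comp hx) ?_⟩
  refine squeeze_zero_norm (fun n => ?_) (tendsto_pp (p := p))
  rw [Function.comp_apply, eval_map_apply, norm_ι]
  refine (norm_u_le_of_coeff (n := n) (a := 0) ?_).trans (by simp)
  rw [← eval_map_apply, hy, ← hQ, eval_map_apply, (r n).2.eq_zero]

instance : IsAlgClosed (TC p) := by
  refine IsAlgClosed.of_exists_root _ fun P hP hirr => ?_
  have hd : 1 ≤ P.natDegree := hirr.natDegree_pos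
  obtain ⟨ϖ, hϖ⟩ := exists_pseudo (p := p)
  have hnϖ : ‖ι ϖ‖ = (p : ℝ)⁻¹ := by rw [norm_ι, hϖ, norm_p]
  have hev : ∀ i ∈ Finset.range P.natDegree, ∀ᶠ M in atTop,
      ‖P.coeff i‖ * (p : ℝ)⁻¹ ^ M ≤ 1 := fun i _ => by
    have := (tendsto_pow_atTop_nhds_zero_of_lt_one inv_p_pos.le
      (inv_p_lt_one (p := p))).const_mul ‖P.coeff i‖
    rw [mul_zero] at this
    exact this.eventually (ge_mem_nhds zero_lt_one)
  obtain ⟨M, hM⟩ := ((Finset.range P.natDegree).eventually_all.2 hev).exists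
  set c := ι ϖ ^ M
  have hc : ‖c‖ = (p : ℝ)⁻¹ ^ M := by rw [norm_pow, hnϖ]
  have hint : ∀ i, ∃ a, ι a = (P.scaleRoots c).coeff i := fun i => by
    refine exists_ι ?_
    rw [coeff_scaleRoots]
    rcases lt_trichotomy i P.natDegree with hi | rfl | hi
    · rw [norm_mul, norm_pow, hc]
      refine le_trans (mul_le_mul_of_nonneg_left ?_ (norm_nonneg _)) (hM i (Finset.mem_range.2 hi))
      exact pow_le_of_le_one (pow_nonneg inv_p_pos.le _)
        (pow_le_one₀ inv_p_pos.le inv_p_lt_one.le) (by omega)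
    · simp [hP.coeff_natDegree]
    · simp [coeff_eq_zero_of_natDegree_lt hi]
  obtain ⟨P', h1, h2, h3⟩ := lifts_and_natDegree_eq_and_monic (f := ι (p := p))
    ((lifts_iff_coeff_lifts _).2 hint) ((monic_scaleRoots_iff c).2 hP)
  obtain ⟨x, hx⟩ := exists_root_integral P' h3 (by rw [h2, natDegree_scaleRoots]; exact hd)
  have hc0 : c ≠ 0 := norm_ne_zero_iff.1 (by rw [hc]; exact (pow_pos inv_p_pos M).ne')
  refine ⟨x / c, ?_⟩
  have h := scaleRoots_eval₂_mul (p := P) (RingHom.id (TC p)) (x / c) c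
  rw [RingHom.id_apply, mul_div_cancel₀ _ hc0, ← eval, ← eval, ← h1] at h
  rw [hx.eq_zero, eq_comm, mul_eq_zero] at h
  exact h.resolve_left (pow_ne_zero _ hc0)

/-- The integers, mapped onto the unit ball. -/
def toBall : PT p →+* unitBall (TC p) :=
  ι.codRestrict (unitBall (TC p)) fun a => (norm_ι a).trans_le (norm_u_le_one a)

lemma toBall_bijective : Function.Bijective (toBall (p := p)) :=
  ⟨fun _ _ h => IsFractionRing.injective (PT p) (TC p) (congrArg Subtype.val h),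
    fun c => (exists_ι c.2).imp fun _ hx => Subtype.ext hx⟩

/-- The untilt data. -/
def sharp : Sharp p (TC p) where
  ρ := rho
  norm_eq a := (norm_def a).symm
  add_le a b ha hb := by
    obtain ⟨x, rfl⟩ := exists_ι ha
    obtain ⟨y, rfl⟩ := exists_ι hb
    rw [← map_add, rho_ι, rho_ι, rho_ι, one_div]
    exact norm_u_add_sub x y
  θ := (O p).subtype.comp ((WittVector.fontaineTheta (O p) p).comp
    (WittVector.map (RingEquiv.ofBijective _ (toBall_bijective (p := p))).symm.toRingHom))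
  θ_le w := norm_le_one _
  θ_teich a := by
    obtain ⟨x, rfl⟩ := toBall_bijective.2 a
    change ((WittVector.fontaineTheta (O p) p _ : O p) : ℂ_[p]) = rho (ι x)
    rw [WittVector.map_teichmuller, WittVector.fontaineTheta_teichmuller, rho_ι]
    exact congrArg u ((RingEquiv.ofBijective _ toBall_bijective).symm_apply_apply x)

end Tilt

open Vale.Agent.P217.Tilt in
/-- The tilt of `ℂ_[p]` exists. -/
theorem tiltTarget : TiltTarget := fun p _ =>
  haveI : PerfectRing (TC p) p := PerfectField.toPerfectRing p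
  ⟨{ C := TC p, S := sharp }⟩

end Vale.Agent.P217

end
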