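import Vale.Agent.P217.HazewinkelLog
import Mathlib.RingTheory.WittVector.Complete
import Mathlib.RingTheory.WittVector.DiscreteValuationRing

/-!
# P217, formal inputs: functional equation data on power series rings, the universal formal group

`Base W L p`: a Frobenius lift on `W` and `L` with `p` invertible. `seriesFE` is the functional equation
on `MvPowerSeries τ W` with `u ↦ u^p`. For `v i = u_(i-1)` (`i < n`), `v n = 1` this gives the formal
group `F` with Hazewinkel's logarithm; its `[p]`-series reduces to `X^(p^n)` modulo `(p, u)`.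
-/

open MvPowerSeries Finset
open scoped Classical

noncomputable section

namespace Vale.Agent.P217

universe u v w

/-- A ring with Frobenius lift inside a ring where `p` is invertible. -/
structure Base (W : Type u) (L : Type v) [CommRing W] [CommRing L] (p : ℕ) where
  /-- The inclusion. -/
  ι : W →+* L
  /-- The Frobenius lift. -/
  φ : W →+* W
  /-- Its extension. -/
  σ : L →+* L
  /-- The inverse of `p`. -/
  c : L
  comm : ∀ a, σ (ι a) = ι (φ a)
  frob : ∀ a, (p : W) ∣ φ a - a ^ p
  hc : (p : L) * c = 1

variable {W : Type u} {L : Type v} [CommRing W] [CommRing L] {p n : ℕ} {τ : Type w}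

lemma Base.σ_c (B : Base W L p) : B.σ B.c = B.c := by
  have h := congrArg B.σ B.hc
  rw [map_mul, map_natCast, map_one] at h
  calc B.σ B.c = (p : L) * B.c * B.σ B.c := by rw [B.hc, one_mul]
    _ = B.c * ((p : L) * B.σ B.c) := by ring
    _ = B.c := by rw [h, mul_one]

variable [hp : Fact p.Prime]

/-- `u ↦ u^p` with `φ` on coefficients. -/
def liftHom {R : Type*} [CommRing R] (φ : R →+* R) (τ : Type w) (p : ℕ) [hp : Fact p.Prime] :
    MvPowerSeries τ R →+* MvPowerSeries τ R :=
  (expand p hp.out.ne_zero : MvPowerSeries τ R →ₐ[R] MvPowerSeries τ R).toRingHom.comp (map φ)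

lemma liftHom_apply {R : Type*} [CommRing R] (φ : R →+* R) (a : MvPowerSeries τ R) :
    liftHom φ τ p a = expand p hp.out.ne_zero (map φ a) := rfl

lemma liftHom_X {R : Type*} [CommRing R] (φ : R →+* R) (t : τ) :
    liftHom φ τ p (X t) = X t ^ p := by
  rw [liftHom_apply, map_X, expand_X]

lemma liftHom_C {R : Type*} [CommRing R] (φ : R →+* R) (r : R) :
    liftHom φ τ p (C r : MvPowerSeries τ R) = C (φ r) := by
  rw [liftHom_apply, map_C, expand_C]

/-- The functional equation data on a power series ring. -/
def seriesFE (B : Base W L p) (v : ℕ → MvPowerSeries τ W) (n : ℕ) :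
    FE (MvPowerSeries τ W) (MvPowerSeries τ L) p n where
  ι := map B.ι
  φ := liftHom B.φ τ p
  σ := liftHom B.σ τ p
  s i := C B.c * map B.ι (v (i.val + 1))
  comm a := by
    simp only [liftHom_apply, map_expand]
    congr 1
    ext d
    simp [B.comm]
  frob a := by
    have h := pow_congr_expand B.frob 1 a
    simp only [pow_one] at h
    rw [dvd_sub_comm]
    exact h
  denom i := ⟨v (i.val + 1), by
    rw [← mul_assoc, ← map_natCast (C : L →+* MvPowerSeries τ L) p, ← map_mul, B.hc, map_one,
      one_mul]⟩

lemma seriesFE_σ_c (B : Base W L p) (v : ℕ → MvPowerSeries τ W) :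
    (seriesFE B v n).σ (C B.c) = C B.c :=
  (liftHom_C B.σ B.c).trans (congrArg C B.σ_c)

/-- The logarithm of `seriesFE`. -/
def seriesLog (B : Base W L p) (v : ℕ → MvPowerSeries τ W) : PowerSeries (MvPowerSeries τ L) :=
  hazLog (C B.c) (fun i => map B.ι (v i)) p

theorem isLog_seriesLog (B : Base W L p) {v : ℕ → MvPowerSeries τ W}
    (hv : ∀ i, liftHom B.φ τ p (v i) = v i ^ p) (hvn : ∀ i, n < i → v i = 0) :
    (seriesFE B v n).IsLog (seriesLog B v) :=
  isLog_hazLog _ _ _ (seriesFE_σ_c B v)
    (fun i => by
      rw [show (seriesFE B v n).σ (map B.ι (v i)) = (seriesFE B v n).ι ((seriesFE B v n).φ (v i))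
        from (seriesFE B v n).comm (v i)]
      exact (congrArg (map B.ι) (hv i)).trans (map_pow _ _ _))
    (fun _ => rfl) (fun i hi => by rw [hvn i hi, map_zero])

/-! ### `p`-series -/

section PSeries

variable {A : Type u} {K : Type v} [CommRing A] [CommRing K]

omit hp in
lemma map_hazCoeff {K' : Type*} [CommRing K'] (π : K →+* K') (c : K) (v : ℕ → K) :
    ∀ J, π (hazCoeff c v p J) = hazCoeff (π c) (fun i => π (v i)) p J := by
  intro J
  induction J using Nat.strong_induction_on with
  | _ J ih =>
    rcases J with _ | J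
    · simp [hazCoeff]
    · rw [hazCoeff_succ, hazCoeff_succ, map_mul, map_sum]
      exact congrArg _ (Finset.sum_congr rfl fun i _ => by rw [map_mul, map_pow, ih _ (by omega)])

omit hp in
lemma map_hazLog {K' : Type*} [CommRing K'] (π : K →+* K') (c : K) (v : ℕ → K) :
    PowerSeries.map π (hazLog c v p) = hazLog (π c) (fun i => π (v i)) p := by
  ext m
  rw [PowerSeries.coeff_map, hazLog, hazLog, PowerSeries.coeff_mk, PowerSeries.coeff_mk]
  split_ifs
  · exact map_hazCoeff π c v _
  · exact map_zero π

omit hp in
lemma FE.itH_natCast (E : FE A K p n) (k m : ℕ) : itH E.σ k (m : K) = (m : K) := map_natCast _ _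

omit hp in
/-- The formal group multiplication by `m` corresponds to `m • f`. -/
theorem nsmul_log (E : FE A K p n) {f : PowerSeries K} {F : FormalGroup A}
    (hf : PowerSeries.constantCoeff f = 0)
    (hF : f.subst (map E.ι F.toPowerSeries) = f.subst (X (0 : Fin 2)) + f.subst (X (1 : Fin 2)))
    {τ' : Type w} (x : F.Point τ') (hx : constantCoeff x.val = 0) :
    ∀ m : ℕ, constantCoeff (m • x).val = 0 ∧
      f.subst (map E.ι (m • x).val) = (m : K) • f.subst (map E.ι x.val) := by
  intro m
  induction m with
  | zero =>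
      rw [zero_nsmul, FormalGroup.zero_apply, map_zero, map_zero, Nat.cast_zero, zero_smul,
        PowerSeries.subst_zero_of_constantCoeff_zero hf]
      exact ⟨rfl, rfl⟩
  | succ m ih =>
      rw [succ_nsmul, FormalGroup.add_apply]
      have hc : ∀ j : Fin 2, constantCoeff (![(m • x).val, x.val] j) = 0 :=
        fun j => by fin_cases j <;> simp [ih.1, hx]
      refine ⟨constantCoeff_subst_eq_zero (hasSubst_of_constantCoeff_zero hc) hc
        F.zero_constantCoeff, ?_⟩
      rw [E.subst_addition F.zero_constantCoeff hF hc]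
      simp only [Matrix.cons_val_zero, Matrix.cons_val_one]
      rw [ih.2, Nat.cast_succ, add_smul, one_smul]

/-- The tautological point `X`. -/
def xPoint (F : FormalGroup A) : F.Point Unit := ⟨PowerSeries.X, PowerSeries.HasSubst.X'⟩

/-- The `[p]`-series of a formal group law. -/
def pSeries (F : FormalGroup A) (p : ℕ) : PowerSeries A := (p • xPoint F).val

omit hp in
theorem pSeries_spec (E : FE A K p n) {f : PowerSeries K} {F : FormalGroup A}
    (hf : PowerSeries.constantCoeff f = 0)
    (hF : f.subst (map E.ι F.toPowerSeries) = f.subst (X (0 : Fin 2)) + f.subst (X (1 : Fin 2))) :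
    PowerSeries.constantCoeff (pSeries F p) = 0 ∧
      f.subst (PowerSeries.map E.ι (pSeries F p)) = (p : K) • f := by
  obtain ⟨h0, h⟩ := nsmul_log E hf hF (xPoint F) PowerSeries.constantCoeff_X p
  refine ⟨h0, h.trans ?_⟩
  change (p : K) • f.subst (PowerSeries.map E.ι PowerSeries.X) = _
  rw [PowerSeries.map_X, PowerSeries.X_subst]

/-- If `v = δ_(i,n)` then `[p] ≡ X^(p^n)` modulo `p`. -/
theorem pSeries_congr_special (E : FE A K p n) (hι : Function.Injective E.ι) (hn : 1 ≤ n)
    (c : K) (hc : E.σ c = c) (hpc : (p : K) * c = 1)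
    (hs : ∀ i : Fin n, E.s i = if i.val + 1 = n then c else 0)
    {ψ : PowerSeries A} (hψ0 : PowerSeries.constantCoeff ψ = 0)
    (hψ : (hazLog c (fun i => if i = n then 1 else 0) p).subst (PowerSeries.map E.ι ψ) =
      (p : K) • hazLog c (fun i => if i = n then 1 else 0) p) :
    ∀ m, (p : A) ∣ PowerSeries.coeff m ψ - PowerSeries.coeff m (PowerSeries.X ^ p ^ n) := by
  set v : ℕ → K := fun i => if i = n then 1 else 0 with hv
  set f := hazLog c v p with hfd
  have hv1 : ∀ i, E.σ (v i) = v i ^ p := fun i => by
    rw [hv]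
    by_cases hi : i = n <;> simp [hi, hp.out.ne_zero]
  have hs' : ∀ i : Fin n, E.s i = c * v (i.val + 1) := fun i => by
    rw [hs, hv]
    by_cases hi : i.val + 1 = n <;> simp [hi]
  have hvn : ∀ i, n < i → v i = 0 := fun i hi => if_neg (by omega)
  have hf := isLog_hazLog E c v hc hv1 hs' hvn
  have hfix : ∀ k, PowerSeries.map (itH E.σ k) f = f := fun k => by
    rw [hfd, map_hazLog, itH_fix c hc]
    congr 1
    funext i
    rw [hv]
    by_cases hi : i = n <;> simp [hi]
  -- `p f = p X + f (X^(p^n))`
  have hq : (p : K) • f = (p : K) • (PowerSeries.X : PowerSeries K) +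
      f.subst ((PowerSeries.X : PowerSeries K) ^ p ^ n) := by
    have ht := typeOf_hazLog E c v hc hv1 hs' hvn
    rw [← hfd] at ht
    obtain ⟨N, rfl⟩ : ∃ N, n = N + 1 := ⟨n - 1, by omega⟩
    have h1 : E.typeOf (f : MvPowerSeries Unit K) = (f : MvPowerSeries Unit K) -
        c • f.subst ((PowerSeries.X : PowerSeries K) ^ p ^ (N + 1)) := by
      rw [FE.typeOf, Finset.sum_eq_single (Fin.last N)]
      · rw [hs]
        simp only [Fin.val_last, if_true]
        rw [show map (itH E.σ (N + 1)) (f : MvPowerSeries Unit K) = f from hfix _]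
        congr 2
        rw [MvPowerSeries.expand, substAlgHom_apply]
        rfl
      · intro i _ hi
        rw [hs, if_neg (fun h => hi (Fin.ext (by simpa using Nat.succ_injective h))), zero_smul]
      · simp
    rw [h1] at ht
    calc (p : K) • f = (p : K) • ((f - c • f.subst ((PowerSeries.X : PowerSeries K) ^ p ^ (N + 1)))
          + c • f.subst ((PowerSeries.X : PowerSeries K) ^ p ^ (N + 1))) := by rw [sub_add_cancel]
      _ = _ := by rw [smul_add, smul_smul, hpc, one_smul]; exact congrArg (· + _) (congrArg _ ht)
  intro m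
  have h := E.congr_of_subst hι hf (r := 0) (α := (ψ : MvPowerSeries Unit A))
    (β := ((PowerSeries.X : PowerSeries A) ^ p ^ n : PowerSeries A)) hψ0
    (by change PowerSeries.constantCoeff _ = 0; simp [hp.out.ne_zero]) ?_ (Finsupp.single () m)
  · rw [zero_add, pow_one] at h
    exact h
  intro d
  have hmap : map E.ι ((PowerSeries.X : PowerSeries A) ^ p ^ n : PowerSeries A) =
      ((PowerSeries.X : PowerSeries K) ^ p ^ n : PowerSeries K) := by
    change PowerSeries.map E.ι _ = _
    rw [map_pow, PowerSeries.map_X]
  refine ⟨coeff d (PowerSeries.X : PowerSeries A), ?_⟩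
  rw [show map E.ι (ψ : MvPowerSeries Unit A) = PowerSeries.map E.ι ψ from rfl, hψ, hmap, hq,
    map_add, add_sub_cancel_right, coeff_smul, zero_add, pow_one]
  congr 1
  rw [← coeff_map]
  exact (congrArg (coeff d) (PowerSeries.map_X E.ι)).symm

end PSeries

/-! ### The universal deformation -/

/-- `v i = u_(i-1)` for `1 ≤ i < n`, `v n = 1`. -/
def uniV (W : Type u) [CommRing W] (n : ℕ) (i : ℕ) : MvPowerSeries (Fin (n - 1)) W :=
  if h : 1 ≤ i ∧ i < n then X ⟨i - 1, by omega⟩ else if i = n then 1 else 0

lemma liftHom_uniV (φ : W →+* W) (i : ℕ) :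
    liftHom φ (Fin (n - 1)) p (uniV W n i) = uniV W n i ^ p := by
  unfold uniV
  split_ifs
  · exact liftHom_X φ _
  · rw [map_one, one_pow]
  · rw [map_zero, zero_pow hp.out.ne_zero]

lemma constantCoeff_uniV (i : ℕ) :
    constantCoeff (uniV W n i) = if i = n then 1 else 0 := by
  unfold uniV
  split_ifs with h1 h2 <;> first | omega | simp

/-- The universal formal group: Hazewinkel's logarithm and the reduction of `[p]`. -/
theorem exists_universal (B : Base W L p) (hι : Function.Injective B.ι) (hn : 1 ≤ n) :
    ∃ F : FormalGroup (MvPowerSeries (Fin (n - 1)) W), F.IsComm ∧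
      (seriesLog B (uniV W n)).subst (map (map B.ι) F.toPowerSeries) =
        (seriesLog B (uniV W n)).subst (X (0 : Fin 2)) +
          (seriesLog B (uniV W n)).subst (X (1 : Fin 2)) ∧
      ∀ m, (p : W) ∣ constantCoeff (PowerSeries.coeff m (pSeries F p)) -
        PowerSeries.coeff m ((PowerSeries.X : PowerSeries W) ^ p ^ n) := by
  set E := seriesFE B (uniV W n) n with hE
  have hEι : Function.Injective E.ι := fun a b h => MvPowerSeries.ext fun d => hι (by
    have := congrArg (coeff d) h
    simpa [hE, seriesFE] using this)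
  have hf : E.IsLog (seriesLog B (uniV W n)) :=
    isLog_seriesLog B (liftHom_uniV B.φ) fun i hi => by
      rw [uniV, dif_neg (by omega), if_neg (by omega)]
  obtain ⟨F, hcomm, hF⟩ := E.exists_formalGroup hEι hf
  refine ⟨F, hcomm, hF, fun m => ?_⟩
  set E0 : FE W L p n :=
    { ι := B.ι
      φ := B.φ
      σ := B.σ
      s := fun i => if i.val + 1 = n then B.c else 0
      comm := B.comm
      frob := B.frob
      denom := fun i => by
        refine ⟨if i.val + 1 = n then 1 else 0, ?_⟩
        split_ifs
        · rw [map_one, B.hc]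
        · rw [map_zero, mul_zero] } with hE0
  obtain ⟨h0, hψ⟩ := pSeries_spec E hf.const hF
  set π : MvPowerSeries (Fin (n - 1)) L →+* L := constantCoeff with hπ
  set π₀ : MvPowerSeries (Fin (n - 1)) W →+* W := constantCoeff with hπ₀
  have hlog : PowerSeries.map π (seriesLog B (uniV W n)) =
      hazLog B.c (fun i => if i = n then 1 else 0) p := by
    rw [seriesLog, map_hazLog]
    congr 1
    · simp [hπ]
      funext i
      rw [constantCoeff_uniV]
      split_ifs <;> simp
  have hψ' : (hazLog B.c (fun i => if i = n then 1 else 0) p).subst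
      (PowerSeries.map E0.ι (PowerSeries.map π₀ (pSeries F p))) =
        (p : L) • hazLog B.c (fun i => if i = n then 1 else 0) p := by
    have h1 := congrArg (PowerSeries.map π) hψ
    have hs : PowerSeries.HasSubst (PowerSeries.map E.ι (pSeries F p)) :=
      PowerSeries.HasSubst.of_constantCoeff_zero' (by
        rw [← PowerSeries.coeff_zero_eq_constantCoeff_apply, PowerSeries.coeff_map,
          PowerSeries.coeff_zero_eq_constantCoeff_apply, h0, map_zero])
    have hs' : PowerSeries.map π ((seriesLog B (uniV W n)).subst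
        (PowerSeries.map E.ι (pSeries F p))) = (hazLog B.c (fun i => if i = n then 1 else 0) p).subst
          (PowerSeries.map π (PowerSeries.map E.ι (pSeries F p))) :=
      (PowerSeries.map_subst hs _).trans (by rw [hlog]; rfl)
    have e : PowerSeries.map π (PowerSeries.map E.ι (pSeries F p)) =
        PowerSeries.map E0.ι (PowerSeries.map π₀ (pSeries F p)) := by
      ext k
      simp [hπ, hπ₀, hE, hE0, seriesFE]
    rw [hs', e, PowerSeries.smul_eq_C_mul, map_mul, PowerSeries.map_C, map_natCast, hlog,
      ← PowerSeries.smul_eq_C_mul] at h1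
    exact h1
  have h0' : PowerSeries.constantCoeff (PowerSeries.map π₀ (pSeries F p)) = 0 := by
    rw [← PowerSeries.coeff_zero_eq_constantCoeff_apply, PowerSeries.coeff_map,
      PowerSeries.coeff_zero_eq_constantCoeff_apply, h0, map_zero]
  have := pSeries_congr_special E0 hι hn B.c B.σ_c B.hc (fun _ => rfl) h0' hψ' m
  rwa [PowerSeries.coeff_map] at this

/-! ### Witt vectors -/

/-- Witt vectors of a perfect field inside their fraction field. -/
def wittBase (p : ℕ) [hp : Fact p.Prime] (k : Type u) [Field k] [CharP k p] [PerfectRing k p] :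
    Base (WittVector p k) (FractionRing (WittVector p k)) p where
  ι := algebraMap _ _
  φ := WittVector.frobenius
  σ := IsFractionRing.lift (g := (algebraMap (WittVector p k) (FractionRing (WittVector p k))).comp
    WittVector.frobenius) fun a b h => (WittVector.frobenius_bijective p k).1
      (IsFractionRing.injective (WittVector p k) (FractionRing (WittVector p k)) h)
  c := (p : FractionRing (WittVector p k))⁻¹
  comm a := IsFractionRing.lift_algebraMap _ a
  frob a := by
    rw [← Ideal.mem_span_singleton, ← WittVector.ker_constantCoeff, RingHom.mem_ker, map_sub,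
      map_pow, sub_eq_zero]
    exact WittVector.coeff_frobenius_charP p a 0
  hc := mul_inv_cancel₀ (by
    rw [← map_natCast (algebraMap (WittVector p k) (FractionRing (WittVector p k))), Ne,
      map_eq_zero_iff _ (IsFractionRing.injective (WittVector p k) _)]
    exact (WittVector.irreducible p).ne_zero)

end Vale.Agent.P217
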